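/-
Row 210, layer HS (Hilbert space: closed quadratic forms, resolvent, semigroup): definitions.
Contract: `git show origin/helper928:docs/R210_master.md`, section HS.
-/
import Mathlib

set_option autoImplicit false

open Set Filter
open scoped ENNReal NNReal Topology RealInnerProductSpace

namespace Claimed.Agent.R210.HS.Defs

noncomputable section

variable {H : Type*} [NormedAddCommGroup H] [InnerProductSpace ℝ H]

/-- A closed, densely defined, nonnegative quadratic form, given as an extended valued functional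
(`Q u = ∞` outside the form domain).  `Q` is "one half of the form": `bil Q u u = 2 Q u`. -/
structure QForm (Q : H → ℝ≥0∞) : Prop where
  zero : Q 0 = 0
  par : ∀ u v, Q u < ∞ → Q v < ∞ → Q (u + v) + Q (u - v) = 2 * Q u + 2 * Q v
  homog : ∀ (c : ℝ) (u : H), Q u < ∞ → Q (c • u) = ENNReal.ofReal (c ^ 2) * Q u
  lsc : LowerSemicontinuous Q
  dense : Dense {u | Q u < ∞}

/-- The symmetric bilinear form of `Q`, normalised by `bil Q u u = 2 * Q u`. -/
def bil (Q : H → ℝ≥0∞) (u v : H) : ℝ := ((Q (u + v)).toReal - (Q (u - v)).toReal) / 2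

/-- `w` is the image of `u` under the (nonpositive, self-adjoint) generator of `Q`. -/
def IsGen (Q : H → ℝ≥0∞) (u w : H) : Prop :=
  Q u < ∞ ∧ ∀ v, Q v < ∞ → bil Q u v = - ⟪w, v⟫

/-- `u` minimises `v ↦ Q v + ‖v - f‖² / (2δ)`. -/
def IsProx (Q : H → ℝ≥0∞) (δ : ℝ) (f u : H) : Prop :=
  ∀ v, Q u + ENNReal.ofReal (‖u - f‖ ^ 2 / (2 * δ)) ≤ Q v + ENNReal.ofReal (‖v - f‖ ^ 2 / (2 * δ))

/-- The resolvent `(1 - δ A)⁻¹ f`, as the minimiser of `v ↦ Q v + ‖v - f‖² / (2δ)`. -/
def prox (Q : H → ℝ≥0∞) (δ : ℝ) (f : H) : H :=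
  haveI : Nonempty H := ⟨0⟩
  Classical.epsilon (fun u => IsProx Q δ f u)

/-- The semigroup `e^{tA} f`, defined by the exponential formula (`flow Q t f = f` for `t ≤ 0`). -/
def flow (Q : H → ℝ≥0∞) (t : ℝ) (f : H) : H :=
  haveI : Nonempty H := ⟨0⟩
  if t ≤ 0 then f else limUnder atTop (fun n : ℕ => (prox Q (t / (n + 1)))^[n + 1] f)

end

end Claimed.Agent.R210.HS.Defs
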