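/-
Row 210, layer HS, file 1 (HS1): the form domain and the bilinear form of a closed quadratic form.
Architect: helper751.  Contract: `git show origin/helper928:docs/R210_master.md`, section HS.
Map of the layer and all proofs on paper: `git show origin/helper751:docs/R210_HS.md`.

Notation in the comments: `D = {u | Q u < ∞}`, `q u = (Q u).toReal`, `b = bil Q`, so `b u v = (q (u+v) - q (u-v)) / 2`.
-/
import Claimed.Agent.R210.HS.Defs

set_option autoImplicit false

open Set Filter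
open scoped ENNReal NNReal Topology RealInnerProductSpace
open Claimed.Agent.R210.HS.Defs

namespace Claimed.Agent.R210.HS.Form

variable {H : Type*} [NormedAddCommGroup H] [InnerProductSpace ℝ H] {Q : H → ℝ≥0∞}

/-! ### A. the domain -/

theorem hs_dom_zero (hQ : QForm Q) : Q 0 < ∞ := by
  rw [hQ.zero]; exact ENNReal.zero_lt_top

/-- `hQ.homog` -/
theorem hs_dom_smul (hQ : QForm Q) (c : ℝ) {u : H} (hu : Q u < ∞) : Q (c • u) < ∞ := by
  rw [hQ.homog c u hu]
  exact ENNReal.mul_lt_top ENNReal.ofReal_lt_top hu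

theorem hs_dom_neg (hQ : QForm Q) {u : H} (hu : Q u < ∞) : Q (-u) < ∞ := by
  have h := hs_dom_smul hQ (-1) hu
  simpa using h

/-- `hQ.par`: `Q (u+v) ≤ Q (u+v) + Q (u-v) = 2 Q u + 2 Q v < ∞` -/
theorem hs_dom_add (hQ : QForm Q) {u v : H} (hu : Q u < ∞) (hv : Q v < ∞) : Q (u + v) < ∞ := by
  have h1 : Q (u + v) ≤ Q (u + v) + Q (u - v) := le_self_add
  rw [hQ.par u v hu hv] at h1
  refine lt_of_le_of_lt h1 ?_
  exact ENNReal.add_lt_top.2 ⟨ENNReal.mul_lt_top (by simp) hu, ENNReal.mul_lt_top (by simp) hv⟩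

theorem hs_dom_sub (hQ : QForm Q) {u v : H} (hu : Q u < ∞) (hv : Q v < ∞) : Q (u - v) < ∞ := by
  rw [sub_eq_add_neg]
  exact hs_dom_add hQ hu (hs_dom_neg hQ hv)

/-- unconditional homogeneity for `c ≠ 0` (if `Q u = ∞` then `Q (c • u) = ∞`, because `u = c⁻¹ • (c • u)`) -/
theorem hs_Q_smul (hQ : QForm Q) {c : ℝ} (hc : c ≠ 0) (u : H) : Q (c • u) = ENNReal.ofReal (c ^ 2) * Q u := by
  by_cases hu : Q u < ∞
  · exact hQ.homog c u hu
  · have hu' : Q u = ∞ := by simpa using hu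
    have hcu : Q (c • u) = ∞ := by
      by_contra h
      have h' : Q (c • u) < ∞ := lt_top_iff_ne_top.2 h
      have h2 := hs_dom_smul hQ c⁻¹ h'
      rw [smul_smul, inv_mul_cancel₀ hc, one_smul] at h2
      exact hu h2
    have hpos : ENNReal.ofReal (c ^ 2) ≠ 0 := by
      have : 0 < c ^ 2 := by positivity
      exact (ENNReal.ofReal_pos.2 this).ne'
    rw [hcu, hu', ENNReal.mul_top hpos]

theorem hs_Q_neg (hQ : QForm Q) (u : H) : Q (-u) = Q u := by
  have h := hs_Q_smul hQ (c := -1) (by norm_num) u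
  simpa using h

theorem hs_Q_sub_comm (hQ : QForm Q) (u v : H) : Q (u - v) = Q (v - u) := by
  rw [← hs_Q_neg hQ (u - v), neg_sub]

/-- unconditional (trivial if one of the two is `∞`) -/
theorem hs_Q_add_le (hQ : QForm Q) (u v : H) : Q (u + v) ≤ 2 * Q u + 2 * Q v := by
  by_cases hu : Q u < ∞
  · by_cases hv : Q v < ∞
    · have h1 : Q (u + v) ≤ Q (u + v) + Q (u - v) := le_self_add
      rwa [hQ.par u v hu hv] at h1
    · have hv' : Q v = ∞ := by simpa using hv
      rw [hv', ENNReal.mul_top (by norm_num)]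
      simp
  · have hu' : Q u = ∞ := by simpa using hu
    rw [hu', ENNReal.mul_top (by norm_num)]
    simp

/-- the form domain as a submodule -/
def hs_dom (hQ : QForm Q) : Submodule ℝ H where
  carrier := {u | Q u < ∞}
  add_mem' := fun hu hv => hs_dom_add hQ hu hv
  zero_mem' := hs_dom_zero hQ
  smul_mem' := fun c _ hu => hs_dom_smul hQ c hu

theorem hs_mem_dom (hQ : QForm Q) (u : H) : u ∈ hs_dom hQ ↔ Q u < ∞ := Iff.rfl

theorem hs_dom_sum (hQ : QForm Q) {ι : Type*} (s : Finset ι) (u : ι → H) (hu : ∀ i ∈ s, Q (u i) < ∞) :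
    Q (∑ i ∈ s, u i) < ∞ :=
  (hs_dom hQ).sum_mem hu

/-! ### B. real valued identities -/

/-- parallelogram law for `q` -/
theorem hs_par (hQ : QForm Q) {u v : H} (hu : Q u < ∞) (hv : Q v < ∞) :
    (Q (u + v)).toReal + (Q (u - v)).toReal = 2 * (Q u).toReal + 2 * (Q v).toReal := by
  have h := hQ.par u v hu hv
  have h1 := hs_dom_add hQ hu hv
  have h2 := hs_dom_sub hQ hu hv
  have h3 := congrArg ENNReal.toReal h
  rw [ENNReal.toReal_add h1.ne h2.ne,
    ENNReal.toReal_add (ENNReal.mul_lt_top (by simp) hu).ne (ENNReal.mul_lt_top (by simp) hv).ne,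
    ENNReal.toReal_mul, ENNReal.toReal_mul] at h3
  simpa using h3

/-- unconditional: for `c = 0` use `hQ.zero`, else `hs_Q_smul` -/
theorem hs_toReal_smul (hQ : QForm Q) (c : ℝ) (u : H) : (Q (c • u)).toReal = c ^ 2 * (Q u).toReal := by
  by_cases hc : c = 0
  · subst hc
    simp [hQ.zero]
  · rw [hs_Q_smul hQ hc u, ENNReal.toReal_mul, ENNReal.toReal_ofReal (by positivity)]

/-- `b u u = 2 q u` (unconditional: `u + u = 2 • u`, `u - u = 0`) -/
theorem hs_bil_self (hQ : QForm Q) (u : H) : bil Q u u = 2 * (Q u).toReal := by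
  unfold bil
  have h1 : u + u = (2 : ℝ) • u := (two_smul ℝ u).symm
  rw [h1, sub_self, hQ.zero, hs_toReal_smul hQ]
  simp
  ring

theorem hs_bil_self_nonneg (hQ : QForm Q) (u : H) : 0 ≤ bil Q u u := by
  rw [hs_bil_self hQ]
  positivity

/-- unconditional (`hs_Q_sub_comm`, `add_comm`) -/
theorem hs_bil_comm (hQ : QForm Q) (u v : H) : bil Q u v = bil Q v u := by
  unfold bil
  rw [add_comm u v, hs_Q_sub_comm hQ u v]

/-- unconditional -/
theorem hs_bil_neg_left (hQ : QForm Q) (u v : H) : bil Q (-u) v = - bil Q u v := by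
  unfold bil
  have h1 : -u + v = -(u - v) := by abel
  have h2 : -u - v = -(u + v) := by abel
  rw [h1, h2, hs_Q_neg hQ, hs_Q_neg hQ]
  ring

theorem hs_bil_neg_right (hQ : QForm Q) (u v : H) : bil Q u (-v) = - bil Q u v := by
  rw [hs_bil_comm hQ, hs_bil_neg_left hQ, hs_bil_comm hQ]

theorem hs_bil_zero_left (hQ : QForm Q) (v : H) : bil Q 0 v = 0 := by
  unfold bil
  rw [zero_add, zero_sub, hs_Q_neg hQ]
  ring

theorem hs_bil_zero_right (hQ : QForm Q) (u : H) : bil Q u 0 = 0 := by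
  rw [hs_bil_comm hQ, hs_bil_zero_left hQ]

/-- `q (u+v) = q u + q v + b u v` (`hs_par` and the definition of `bil`) -/
theorem hs_toReal_add (hQ : QForm Q) {u v : H} (hu : Q u < ∞) (hv : Q v < ∞) :
    (Q (u + v)).toReal = (Q u).toReal + (Q v).toReal + bil Q u v := by
  have h := hs_par hQ hu hv
  unfold bil
  linarith

theorem hs_toReal_sub (hQ : QForm Q) {u v : H} (hu : Q u < ∞) (hv : Q v < ∞) :
    (Q (u - v)).toReal = (Q u).toReal + (Q v).toReal - bil Q u v := by
  have h := hs_par hQ hu hv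
  unfold bil
  linarith

/-! ### C. bilinearity (Jordan - von Neumann) -/

/-- `hs_par` for `(u+w, v)` and `(u-w, v)`, subtract: `b (u+v) w + b (u-v) w = 2 b u w`. -/
theorem hs_bil_add_sub (hQ : QForm Q) {u v w : H} (hu : Q u < ∞) (hv : Q v < ∞) (hw : Q w < ∞) :
    bil Q (u + v) w + bil Q (u - v) w = 2 * bil Q u w := by
  have h1 := hs_par hQ (hs_dom_add hQ hu hw) hv
  have h2 := hs_par hQ (hs_dom_sub hQ hu hw) hv
  have e1 : u + v + w = u + w + v := by abel
  have e2 : u + v - w = u - w + v := by abel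
  have e3 : u - v + w = u + w - v := by abel
  have e4 : u - v - w = u - w - v := by abel
  unfold bil
  rw [e1, e2, e3, e4]
  linarith

/-- add `hs_bil_add_sub u v w` and `hs_bil_add_sub v u w`; `b (v-u) w = - b (u-v) w` by `hs_bil_neg_left`. -/
theorem hs_bil_add_left (hQ : QForm Q) {u v w : H} (hu : Q u < ∞) (hv : Q v < ∞) (hw : Q w < ∞) :
    bil Q (u + v) w = bil Q u w + bil Q v w := by
  have h1 := hs_bil_add_sub hQ hu hv hw
  have h2 := hs_bil_add_sub hQ hv hu hw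
  have e1 : v - u = -(u - v) := by abel
  rw [e1, hs_bil_neg_left hQ, add_comm v u] at h2
  linarith

/-- `|b u v| ≤ (q (u+v) + q (u-v)) / 2 = q u + q v` -/
theorem hs_abs_bil_le_add (hQ : QForm Q) {u v : H} (hu : Q u < ∞) (hv : Q v < ∞) :
    |bil Q u v| ≤ (Q u).toReal + (Q v).toReal := by
  have h1 := hs_par hQ hu hv
  have h2 : 0 ≤ (Q (u + v)).toReal := ENNReal.toReal_nonneg
  have h3 : 0 ≤ (Q (u - v)).toReal := ENNReal.toReal_nonneg
  unfold bil
  rw [abs_le]
  constructor <;> linarith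

/-- `φ c = b (c • u) v` is additive (`hs_bil_add_left`, `add_smul`) and `|φ c| ≤ c² q u + q v` (`hs_abs_bil_le_add`,
`hs_toReal_smul`), so `|φ c| = |φ (n c)| / n ≤ (q u + q v) / n` for `|c| ≤ 1/n`: `φ` is continuous at `0`, hence continuous
(`continuous_of_continuousAt_zero`), hence `ℝ`-linear (`map_real_smul`). -/
theorem hs_bil_smul_left (hQ : QForm Q) (c : ℝ) {u v : H} (hu : Q u < ∞) (hv : Q v < ∞) :
    bil Q (c • u) v = c * bil Q u v := by
  let φ : ℝ →+ ℝ :=
    { toFun := fun c => bil Q (c • u) v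
      map_zero' := by
        show bil Q ((0 : ℝ) • u) v = 0
        rw [zero_smul, hs_bil_zero_left hQ]
      map_add' := fun a b => by
        show bil Q ((a + b) • u) v = bil Q (a • u) v + bil Q (b • u) v
        rw [add_smul]
        exact hs_bil_add_left hQ (hs_dom_smul hQ a hu) (hs_dom_smul hQ b hu) hv }
  have hbd : Bornology.IsBounded (φ '' Metric.ball (0 : ℝ) 1) := by
    rw [isBounded_iff_forall_norm_le]
    refine ⟨(Q u).toReal + (Q v).toReal, ?_⟩
    rintro _ ⟨a, ha, rfl⟩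
    have h1 : |bil Q (a • u) v| ≤ (Q (a • u)).toReal + (Q v).toReal :=
      hs_abs_bil_le_add hQ (hs_dom_smul hQ a hu) hv
    rw [hs_toReal_smul hQ] at h1
    have h2 : a ^ 2 ≤ 1 := by
      have h3 : |a| < 1 := by simpa [Metric.mem_ball, Real.dist_eq] using ha
      have h4 := abs_lt.1 h3
      nlinarith [h4.1, h4.2]
    have h5 : 0 ≤ (Q u).toReal := ENNReal.toReal_nonneg
    have h6 : a ^ 2 * (Q u).toReal ≤ 1 * (Q u).toReal := mul_le_mul_of_nonneg_right h2 h5
    show ‖bil Q (a • u) v‖ ≤ _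
    rw [Real.norm_eq_abs]
    linarith
  have hcont : Continuous φ :=
    φ.continuous_of_isBounded_nhds_zero (Metric.ball_mem_nhds 0 one_pos) hbd
  have h := map_real_smul φ hcont c 1
  have e1 : φ (c • (1 : ℝ)) = bil Q (c • u) v := by
    show bil Q ((c • (1 : ℝ)) • u) v = _
    rw [smul_eq_mul, mul_one]
  have e2 : φ 1 = bil Q u v := by
    show bil Q ((1 : ℝ) • u) v = _
    rw [one_smul]
  rw [e1, e2, smul_eq_mul] at h
  exact h

theorem hs_bil_add_right (hQ : QForm Q) {u v w : H} (hu : Q u < ∞) (hv : Q v < ∞) (hw : Q w < ∞) :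
    bil Q u (v + w) = bil Q u v + bil Q u w := by
  rw [hs_bil_comm hQ u (v + w), hs_bil_add_left hQ hv hw hu, hs_bil_comm hQ v u, hs_bil_comm hQ w u]

theorem hs_bil_smul_right (hQ : QForm Q) (c : ℝ) {u v : H} (hu : Q u < ∞) (hv : Q v < ∞) :
    bil Q u (c • v) = c * bil Q u v := by
  rw [hs_bil_comm hQ u (c • v), hs_bil_smul_left hQ c hv hu, hs_bil_comm hQ v u]

theorem hs_bil_sub_left (hQ : QForm Q) {u v w : H} (hu : Q u < ∞) (hv : Q v < ∞) (hw : Q w < ∞) :
    bil Q (u - v) w = bil Q u w - bil Q v w := by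
  rw [sub_eq_add_neg, hs_bil_add_left hQ hu (hs_dom_neg hQ hv) hw, hs_bil_neg_left hQ]
  ring

theorem hs_bil_sub_right (hQ : QForm Q) {u v w : H} (hu : Q u < ∞) (hv : Q v < ∞) (hw : Q w < ∞) :
    bil Q u (v - w) = bil Q u v - bil Q u w := by
  rw [sub_eq_add_neg, hs_bil_add_right hQ hu hv (hs_dom_neg hQ hw), hs_bil_neg_right hQ]
  ring

theorem hs_bil_sum_left (hQ : QForm Q) {ι : Type*} (s : Finset ι) (u : ι → H) (hu : ∀ i ∈ s, Q (u i) < ∞)
    {v : H} (hv : Q v < ∞) : bil Q (∑ i ∈ s, u i) v = ∑ i ∈ s, bil Q (u i) v := by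
  classical
  induction s using Finset.induction_on with
  | empty => simp [hs_bil_zero_left hQ]
  | insert a s ha ih =>
    rw [Finset.sum_insert ha, Finset.sum_insert ha,
      hs_bil_add_left hQ (hu a (Finset.mem_insert_self a s))
        (hs_dom_sum hQ s u fun i hi => hu i (Finset.mem_insert_of_mem hi)) hv,
      ih fun i hi => hu i (Finset.mem_insert_of_mem hi)]

/-- the bilinear form on the domain, bundled -/
noncomputable def hs_bilin (hQ : QForm Q) : LinearMap.BilinForm ℝ (hs_dom hQ) :=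
  LinearMap.mk₂ ℝ (fun u v => bil Q (u : H) (v : H))
    (fun u u' v => hs_bil_add_left hQ u.2 u'.2 v.2)
    (fun c u v => hs_bil_smul_left hQ c u.2 v.2)
    (fun u v v' => hs_bil_add_right hQ u.2 v.2 v'.2)
    (fun c u v => hs_bil_smul_right hQ c u.2 v.2)

/-! ### D. Cauchy-Schwarz, seminorm, convexity -/

/-- `0 ≤ q (u + t v) = q u + t b u v + t² q v` for all real `t`: discriminant (`discrim_le_zero`) -/
theorem hs_bil_sq_le (hQ : QForm Q) {u v : H} (hu : Q u < ∞) (hv : Q v < ∞) :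
    bil Q u v ^ 2 ≤ bil Q u u * bil Q v v := by
  have key : ∀ t : ℝ, 0 ≤ (Q v).toReal * (t * t) + bil Q u v * t + (Q u).toReal := by
    intro t
    have h1 : 0 ≤ (Q (u + t • v)).toReal := ENNReal.toReal_nonneg
    rw [hs_toReal_add hQ hu (hs_dom_smul hQ t hv), hs_toReal_smul hQ, hs_bil_smul_right hQ t hu hv] at h1
    nlinarith [h1]
  have h2 := discrim_le_zero key
  unfold discrim at h2
  rw [hs_bil_self hQ, hs_bil_self hQ]
  nlinarith [h2]

theorem hs_abs_bil_le (hQ : QForm Q) {u v : H} (hu : Q u < ∞) (hv : Q v < ∞) :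
    |bil Q u v| ≤ Real.sqrt (bil Q u u) * Real.sqrt (bil Q v v) := by
  rw [← Real.sqrt_mul (hs_bil_self_nonneg hQ u)]
  exact Real.abs_le_sqrt (hs_bil_sq_le hQ hu hv)

/-- `√q` is a seminorm on `D` -/
theorem hs_sqrt_add_le (hQ : QForm Q) {u v : H} (hu : Q u < ∞) (hv : Q v < ∞) :
    Real.sqrt (Q (u + v)).toReal ≤ Real.sqrt (Q u).toReal + Real.sqrt (Q v).toReal := by
  have h1 := hs_abs_bil_le hQ hu hv
  rw [hs_bil_self hQ, hs_bil_self hQ] at h1
  have hqu : 0 ≤ (Q u).toReal := ENNReal.toReal_nonneg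
  have hqv : 0 ≤ (Q v).toReal := ENNReal.toReal_nonneg
  have e : Real.sqrt (2 * (Q u).toReal) * Real.sqrt (2 * (Q v).toReal)
      = 2 * (Real.sqrt (Q u).toReal * Real.sqrt (Q v).toReal) := by
    rw [Real.sqrt_mul (by norm_num : (0 : ℝ) ≤ 2), Real.sqrt_mul (by norm_num : (0 : ℝ) ≤ 2)]
    have h2 : Real.sqrt 2 * Real.sqrt 2 = 2 := Real.mul_self_sqrt (by norm_num)
    calc Real.sqrt 2 * Real.sqrt (Q u).toReal * (Real.sqrt 2 * Real.sqrt (Q v).toReal)
        = (Real.sqrt 2 * Real.sqrt 2) * (Real.sqrt (Q u).toReal * Real.sqrt (Q v).toReal) := by ring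
      _ = _ := by rw [h2]
  rw [e] at h1
  have h3 := (abs_le.1 h1).2
  have su := Real.sq_sqrt hqu
  have sv := Real.sq_sqrt hqv
  apply Real.sqrt_le_iff.2
  refine ⟨add_nonneg (Real.sqrt_nonneg _) (Real.sqrt_nonneg _), ?_⟩
  rw [hs_toReal_add hQ hu hv]
  nlinarith [h3, su, sv]

theorem hs_sqrt_sum_le (hQ : QForm Q) {ι : Type*} (s : Finset ι) (u : ι → H) (hu : ∀ i ∈ s, Q (u i) < ∞) :
    Real.sqrt (Q (∑ i ∈ s, u i)).toReal ≤ ∑ i ∈ s, Real.sqrt (Q (u i)).toReal := by
  classical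
  induction s using Finset.induction_on with
  | empty => simp [hQ.zero]
  | insert a s ha ih =>
    rw [Finset.sum_insert ha, Finset.sum_insert ha]
    have h1 := hs_sqrt_add_le hQ (hu a (Finset.mem_insert_self a s))
      (hs_dom_sum hQ s u fun i hi => hu i (Finset.mem_insert_of_mem hi))
    have h2 := ih fun i hi => hu i (Finset.mem_insert_of_mem hi)
    linarith

/-- convexity inequality `q v ≥ q u + b u (v - u)` (because `q v = q u + b u (v-u) + q (v-u)`) -/
theorem hs_toReal_ge (hQ : QForm Q) {u v : H} (hu : Q u < ∞) (hv : Q v < ∞) :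
    (Q u).toReal + bil Q u (v - u) ≤ (Q v).toReal := by
  have h1 := hs_toReal_add hQ hu (hs_dom_sub hQ hv hu)
  have e : u + (v - u) = v := by abel
  rw [e] at h1
  have h2 : 0 ≤ (Q (v - u)).toReal := ENNReal.toReal_nonneg
  linarith

/-- `Q` is convex (unconditional).  On `D`: `a q u + c q v - q (a u + c v) = a c q (u - v) ≥ 0`. -/
theorem hs_Q_convex (hQ : QForm Q) {a c : ℝ} (ha : 0 ≤ a) (hc : 0 ≤ c) (hac : a + c = 1) (u v : H) :
    Q (a • u + c • v) ≤ ENNReal.ofReal a * Q u + ENNReal.ofReal c * Q v := by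
  rcases eq_or_lt_of_le ha with ha0 | ha0
  · have hc1 : c = 1 := by linarith
    subst ha0
    subst hc1
    simp
  rcases eq_or_lt_of_le hc with hc0 | hc0
  · have ha1 : a = 1 := by linarith
    subst hc0
    subst ha1
    simp
  by_cases hu : Q u < ∞
  swap
  · have hu' : Q u = ∞ := by simpa using hu
    rw [hu', ENNReal.mul_top (by simpa using ha0)]
    simp
  by_cases hv : Q v < ∞
  swap
  · have hv' : Q v = ∞ := by simpa using hv
    rw [hv', ENNReal.mul_top (by simpa using hc0)]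
    simp
  have hau := hs_dom_smul hQ a hu
  have hcv := hs_dom_smul hQ c hv
  have hs := hs_dom_add hQ hau hcv
  have h1 := hs_toReal_add hQ hau hcv
  rw [hs_toReal_smul hQ, hs_toReal_smul hQ, hs_bil_smul_left hQ a hu hcv, hs_bil_smul_right hQ c hu hv] at h1
  have h2 := hs_toReal_sub hQ hu hv
  have h3 : 0 ≤ (Q (u - v)).toReal := ENNReal.toReal_nonneg
  have hqu : 0 ≤ (Q u).toReal := ENNReal.toReal_nonneg
  have hqv : 0 ≤ (Q v).toReal := ENNReal.toReal_nonneg
  have hc' : c = 1 - a := by linarith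
  have key : (Q (a • u + c • v)).toReal ≤ a * (Q u).toReal + c * (Q v).toReal := by
    have h4 : 0 ≤ a * c * (Q (u - v)).toReal := mul_nonneg (mul_nonneg ha hc) h3
    rw [h1]
    rw [h2] at h4
    subst hc'
    nlinarith [h4]
  rw [← ENNReal.ofReal_toReal hs.ne, ← ENNReal.ofReal_toReal hu.ne, ← ENNReal.ofReal_toReal hv.ne,
    ← ENNReal.ofReal_mul ha, ← ENNReal.ofReal_mul hc,
    ← ENNReal.ofReal_add (mul_nonneg ha ENNReal.toReal_nonneg) (mul_nonneg hc ENNReal.toReal_nonneg)]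
  exact ENNReal.ofReal_le_ofReal key

/-! ### E. lower semicontinuity, completeness -/

/-- sublevel sets are closed (`hQ.lsc.isClosed_preimage`), `IsClosed.mem_of_tendsto` -/
theorem hs_lsc_le (hQ : QForm Q) {ι : Type*} {l : Filter ι} [l.NeBot] {u : ι → H} {v : H} {c : ℝ≥0∞}
    (hu : Tendsto u l (𝓝 v)) (hc : ∀ᶠ i in l, Q (u i) ≤ c) : Q v ≤ c := by
  have hcl : IsClosed (Q ⁻¹' Iic c) := hQ.lsc.isClosed_preimage c
  exact hcl.mem_of_tendsto hu hc

/-- lower semicontinuity + upper bound = convergence (`tendsto_order`) -/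
theorem hs_tendsto_Q (hQ : QForm Q) {ι : Type*} {l : Filter ι} {u : ι → H} {v : H}
    (hu : Tendsto u l (𝓝 v)) (hc : ∀ᶠ i in l, Q (u i) ≤ Q v) : Tendsto (fun i => Q (u i)) l (𝓝 (Q v)) := by
  refine tendsto_order.2 ⟨fun a ha => ?_, fun a ha => ?_⟩
  · exact hu.eventually (hQ.lsc v a ha)
  · exact hc.mono fun i hi => lt_of_le_of_lt hi ha

/-- the domain is complete for the form norm.  `v = lim u`; for `n ≥ N`: `Q (u n - v) ≤ ε` by `hs_lsc_le` along `k ↦ u n - u k`. -/
theorem hs_complete [CompleteSpace H] (hQ : QForm Q) {u : ℕ → H} (hu : ∀ n, Q (u n) < ∞) (hc : CauchySeq u)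
    (hq : ∀ ε : ℝ≥0∞, 0 < ε → ∃ N, ∀ n ≥ N, ∀ k ≥ N, Q (u n - u k) ≤ ε) :
    ∃ v, Q v < ∞ ∧ Tendsto u atTop (𝓝 v) ∧ Tendsto (fun n => Q (u n - v)) atTop (𝓝 0) := by
  obtain ⟨v, hv⟩ := cauchySeq_tendsto_of_complete hc
  have key : ∀ ε : ℝ≥0∞, 0 < ε → ∃ N, ∀ n ≥ N, Q (u n - v) ≤ ε := by
    intro ε hε
    obtain ⟨N, hN⟩ := hq ε hε
    refine ⟨N, fun n hn => ?_⟩
    have ht : Tendsto (fun k => u n - u k) atTop (𝓝 (u n - v)) := tendsto_const_nhds.sub hv
    exact hs_lsc_le hQ ht ((eventually_ge_atTop N).mono fun k hk => hN n hn k hk)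
  refine ⟨v, ?_, hv, ?_⟩
  · obtain ⟨N, hN⟩ := key 1 one_pos
    have h1 : Q (u N - v) < ∞ := lt_of_le_of_lt (hN N le_rfl) ENNReal.one_lt_top
    have e : v = u N - (u N - v) := by abel
    rw [e]
    exact hs_dom_sub hQ (hu N) h1
  · refine ENNReal.tendsto_nhds_zero.2 fun ε hε => ?_
    obtain ⟨N, hN⟩ := key ε hε
    exact (eventually_ge_atTop N).mono fun n hn => hN n hn

end Claimed.Agent.R210.HS.Form
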