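/-
Row 210, layer HS, file 2 (HS2, first half): the resolvent `prox Q δ` = minimiser of `Φ v = Q v + ‖v - f‖² / (2δ)`.
Architect: helper751.  Paper proofs: `git show origin/helper751:docs/R210_HS.md`.

Notation: `q u = (Q u).toReal`, `b = bil Q`, `J = prox Q δ`, `ΦR v = q v + ‖v - f‖² / (2δ)` (real valued, on the domain).
-/
import Claimed.Agent.R210.HS.Form

set_option autoImplicit false

open Set Filter
open scoped ENNReal NNReal Topology RealInnerProductSpace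
open Claimed.Agent.R210.HS.Defs Claimed.Agent.R210.HS.Form

namespace Claimed.Agent.R210.HS.Prox

variable {H : Type*} [NormedAddCommGroup H] [InnerProductSpace ℝ H] {Q : H → ℝ≥0∞}

/-! ### A. minimisers: real form, Euler-Lagrange equation, uniqueness, existence -/

/-- a minimiser has finite energy (compare with `v = 0`) -/
theorem hs_isProx_dom (hQ : QForm Q) {δ : ℝ} {f u : H} (h : IsProx Q δ f u) : Q u < ∞ := by
  have h0 := h 0
  rw [hQ.zero, zero_add] at h0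
  exact lt_of_le_of_lt (le_trans le_self_add h0) ENNReal.ofReal_lt_top

/-- real valued reformulation (`ENNReal.ofReal_toReal`, `ENNReal.ofReal_add`, `ENNReal.ofReal_le_ofReal_iff`; `v ∉ D` is trivial) -/
theorem hs_isProx_iff_real (hQ : QForm Q) {δ : ℝ} (hδ : 0 < δ) {f u : H} :
    IsProx Q δ f u ↔ Q u < ∞ ∧ ∀ v, Q v < ∞ →
      (Q u).toReal + ‖u - f‖ ^ 2 / (2 * δ) ≤ (Q v).toReal + ‖v - f‖ ^ 2 / (2 * δ) := by
  have key : ∀ w : H, Q w < ∞ → Q w + ENNReal.ofReal (‖w - f‖ ^ 2 / (2 * δ)) =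
      ENNReal.ofReal ((Q w).toReal + ‖w - f‖ ^ 2 / (2 * δ)) := by
    intro w hw
    rw [ENNReal.ofReal_add ENNReal.toReal_nonneg (by positivity), ENNReal.ofReal_toReal hw.ne]
  constructor
  · intro h
    have hu := hs_isProx_dom hQ h
    refine ⟨hu, fun v hv => ?_⟩
    have h1 := h v
    rw [key u hu, key v hv] at h1
    exact (ENNReal.ofReal_le_ofReal_iff (add_nonneg ENNReal.toReal_nonneg (by positivity))).1 h1
  · rintro ⟨hu, h⟩ v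
    by_cases hv : Q v < ∞
    · rw [key u hu, key v hv]
      exact ENNReal.ofReal_le_ofReal (h v hv)
    · have : Q v = ∞ := by simpa using hv
      rw [this, top_add]
      exact le_top

/-- exact expansion: `ΦR (u + v) = ΦR u + (b u v + ⟪u - f, v⟫/δ) + (q v + ‖v‖²/(2δ))`
(`hs_toReal_add`, `norm_add_sq_real`) -/
theorem hs_phi_expand (hQ : QForm Q) {δ : ℝ} (hδ : 0 < δ) {f u v : H} (hu : Q u < ∞) (hv : Q v < ∞) :
    (Q (u + v)).toReal + ‖u + v - f‖ ^ 2 / (2 * δ) =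
      (Q u).toReal + ‖u - f‖ ^ 2 / (2 * δ) + (bil Q u v + δ⁻¹ * ⟪u - f, v⟫) + ((Q v).toReal + ‖v‖ ^ 2 / (2 * δ)) := by
  rw [hs_toReal_add hQ hu hv]
  have h1 : u + v - f = (u - f) + v := by abel
  rw [h1, norm_add_sq_real]
  field_simp
  ring

/-- Euler-Lagrange.  (⇒) `hs_phi_expand` with `t • v`: `0 ≤ t L + t² M` for all real `t` forces `L = 0`.
(⇐) `hs_phi_expand` with `v - u`: the linear term vanishes, the quadratic one is `≥ 0`. -/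
theorem hs_isProx_iff_isGen (hQ : QForm Q) {δ : ℝ} (hδ : 0 < δ) {f u : H} :
    IsProx Q δ f u ↔ IsGen Q u (δ⁻¹ • (u - f)) := by
  rw [hs_isProx_iff_real hQ hδ]
  constructor
  · rintro ⟨hu, h⟩
    refine ⟨hu, fun v hv => ?_⟩
    have key : ∀ t : ℝ, 0 ≤ ((Q v).toReal + ‖v‖ ^ 2 / (2 * δ)) * (t * t)
        + (bil Q u v + δ⁻¹ * ⟪u - f, v⟫) * t + 0 := by
      intro t
      have htv : Q (t • v) < ∞ := hs_dom_smul hQ t hv
      have h1 := h (u + t • v) (hs_dom_add hQ hu htv)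
      rw [hs_phi_expand hQ hδ hu htv, hs_bil_smul_right hQ t hu hv, hs_toReal_smul hQ t v,
        inner_smul_right, norm_smul, mul_pow, Real.norm_eq_abs, sq_abs] at h1
      have e : ((Q v).toReal + ‖v‖ ^ 2 / (2 * δ)) * (t * t)
          + (bil Q u v + δ⁻¹ * ⟪u - f, v⟫) * t + 0
          = (t * bil Q u v + δ⁻¹ * (t * ⟪u - f, v⟫)) + (t ^ 2 * (Q v).toReal + t ^ 2 * ‖v‖ ^ 2 / (2 * δ)) := by
        ring
      rw [e]
      linarith
    have hd := discrim_le_zero key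
    have hL : bil Q u v + δ⁻¹ * ⟪u - f, v⟫ = 0 := by
      unfold discrim at hd
      have : (bil Q u v + δ⁻¹ * ⟪u - f, v⟫) ^ 2 ≤ 0 := by nlinarith
      exact pow_eq_zero_iff (two_ne_zero) |>.1 (le_antisymm this (sq_nonneg _))
    rw [inner_smul_left]
    simp only [conj_trivial]
    linarith
  · rintro ⟨hu, h⟩
    refine ⟨hu, fun v hv => ?_⟩
    have hvu : Q (v - u) < ∞ := hs_dom_sub hQ hv hu
    have h1 := hs_phi_expand hQ hδ (f := f) hu hvu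
    have h2 := h (v - u) hvu
    rw [inner_smul_left] at h2
    simp only [conj_trivial] at h2
    rw [add_sub_cancel] at h1
    rw [h1, h2]
    have h3 : 0 ≤ (Q (v - u)).toReal := ENNReal.toReal_nonneg
    have h4 : 0 ≤ ‖v - u‖ ^ 2 / (2 * δ) := by positivity
    linarith

/-- if `u, u'` are minimisers, `hs_phi_expand` at `u` with `v = u' - u` and the Euler-Lagrange equation give
`ΦR u' = ΦR u + q (u'-u) + ‖u'-u‖²/(2δ)`; and `ΦR u' ≤ ΦR u`. -/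
theorem hs_isProx_unique (hQ : QForm Q) {δ : ℝ} (hδ : 0 < δ) {f u u' : H}
    (h : IsProx Q δ f u) (h' : IsProx Q δ f u') : u = u' := by
  have hg := (hs_isProx_iff_isGen hQ hδ).1 h
  obtain ⟨hu, hgen⟩ := hg
  obtain ⟨hu', hmin'⟩ := (hs_isProx_iff_real hQ hδ).1 h'
  have hd : Q (u' - u) < ∞ := hs_dom_sub hQ hu' hu
  have h1 := hs_phi_expand hQ hδ (f := f) hu hd
  have h2 := hgen (u' - u) hd
  rw [inner_smul_left] at h2
  simp only [conj_trivial] at h2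
  rw [add_sub_cancel] at h1
  have h3 := hmin' u hu
  have h4 : 0 ≤ (Q (u' - u)).toReal := ENNReal.toReal_nonneg
  have h5 : ‖u' - u‖ ^ 2 / (2 * δ) ≤ 0 := by
    rw [h1, h2] at h3
    linarith
  have h6 : ‖u' - u‖ ^ 2 ≤ 0 := by
    have : 0 < 2 * δ := by positivity
    have := (div_le_iff₀ this).1 h5
    simpa using this
  have h7 : ‖u' - u‖ = 0 := pow_eq_zero_iff (two_ne_zero) |>.1 (le_antisymm h6 (sq_nonneg _))
  exact (sub_eq_zero.1 (norm_eq_zero.1 h7)).symm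

/-- midpoint inequality: `ΦR ((v+w)/2) + ‖v - w‖²/(8δ) ≤ (ΦR v + ΦR w)/2`  (parallelogram laws of `q` and of the norm) -/
theorem hs_phi_midpoint (hQ : QForm Q) {δ : ℝ} (hδ : 0 < δ) (f : H) {v w : H} (hv : Q v < ∞) (hw : Q w < ∞) :
    (Q ((1 / 2 : ℝ) • (v + w))).toReal + ‖(1 / 2 : ℝ) • (v + w) - f‖ ^ 2 / (2 * δ) + ‖v - w‖ ^ 2 / (8 * δ) ≤
      (((Q v).toReal + ‖v - f‖ ^ 2 / (2 * δ)) + ((Q w).toReal + ‖w - f‖ ^ 2 / (2 * δ))) / 2 := by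
  have h1 : (Q ((1 / 2 : ℝ) • (v + w))).toReal = (1 / 2 : ℝ) ^ 2 * (Q (v + w)).toReal :=
    hs_toReal_smul hQ _ _
  have h2 := hs_par hQ hv hw
  have h3 : 0 ≤ (Q (v - w)).toReal := ENNReal.toReal_nonneg
  have h4 : ‖(1 / 2 : ℝ) • (v + w) - f‖ ^ 2 * 4 + ‖v - w‖ ^ 2 = 2 * ‖v - f‖ ^ 2 + 2 * ‖w - f‖ ^ 2 := by
    have e1 : (1 / 2 : ℝ) • (v + w) - f = (1 / 2 : ℝ) • ((v - f) + (w - f)) := by
      module
    have e2 : v - w = (v - f) - (w - f) := by abel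
    have e3 := parallelogram_law_with_norm ℝ (v - f) (w - f)
    rw [e1, e2, norm_smul]
    simp only [Real.norm_eq_abs]
    rw [abs_of_pos (by norm_num : (0:ℝ) < 1 / 2)]
    nlinarith [e3]
  have h5 : ‖(1 / 2 : ℝ) • (v + w) - f‖ ^ 2 / (2 * δ) + ‖v - w‖ ^ 2 / (8 * δ)
      = (‖v - f‖ ^ 2 / (2 * δ) + ‖w - f‖ ^ 2 / (2 * δ)) / 2 := by
    have hδ' : δ ≠ 0 := hδ.ne'
    field_simp
    linarith [h4]
  rw [h1]
  linarith [h5]

/-- direct method.  `I = inf ΦR` over the domain (`≥ 0`, the domain contains `0`); `v n` with `ΦR (v n) ≤ I + 1/(n+1)`;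
`hs_phi_midpoint` gives `‖v n - v k‖²/(8δ) ≤ (1/(n+1) + 1/(k+1))/2`: Cauchy; `u = lim v n`; for every `ε > 0` eventually
`Q (v n) ≤ ofReal (I + ε - ‖v n - f‖²/(2δ))`, and the right side converges: `hs_lsc_le` gives `ΦR u ≤ I`. -/
theorem hs_exists_isProx [CompleteSpace H] (hQ : QForm Q) {δ : ℝ} (hδ : 0 < δ) (f : H) : ∃ u, IsProx Q δ f u := by
  classical
  set Φ : H → ℝ := fun v => (Q v).toReal + ‖v - f‖ ^ 2 / (2 * δ) with hΦ
  set S : Set ℝ := Φ '' {v | Q v < ∞} with hS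
  have hΦ0 : ∀ v, 0 ≤ Φ v := fun v => by
    have : 0 ≤ (Q v).toReal := ENNReal.toReal_nonneg
    have : 0 ≤ ‖v - f‖ ^ 2 / (2 * δ) := by positivity
    simp only [hΦ]; linarith
  have hSne : S.Nonempty := ⟨Φ 0, 0, hs_dom_zero hQ, rfl⟩
  have hSbdd : BddBelow S := ⟨0, by rintro _ ⟨v, -, rfl⟩; exact hΦ0 v⟩
  set I : ℝ := sInf S with hI
  have hIle : ∀ v, Q v < ∞ → I ≤ Φ v := fun v hv => csInf_le hSbdd ⟨v, hv, rfl⟩
  have hex : ∀ n : ℕ, ∃ v, Q v < ∞ ∧ Φ v < I + 1 / ((n : ℝ) + 1) := by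
    intro n
    have hpos : (0 : ℝ) < 1 / ((n : ℝ) + 1) := by positivity
    obtain ⟨_, ⟨v, hv, rfl⟩, hlt⟩ := exists_lt_of_csInf_lt hSne (lt_add_of_pos_right I hpos)
    exact ⟨v, hv, hlt⟩
  choose v hvD hvΦ using hex
  -- distance estimate
  have hdist : ∀ n k, ‖v n - v k‖ ^ 2 ≤ 4 * δ * (1 / ((n : ℝ) + 1) + 1 / ((k : ℝ) + 1)) := by
    intro n k
    have hm := hs_phi_midpoint hQ hδ f (hvD n) (hvD k)
    have hmD : Q ((1 / 2 : ℝ) • (v n + v k)) < ∞ := hs_dom_smul hQ _ (hs_dom_add hQ (hvD n) (hvD k))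
    have hmI := hIle _ hmD
    have h1 := hvΦ n
    have h2 := hvΦ k
    simp only [hΦ] at hmI h1 h2
    have h3 : ‖v n - v k‖ ^ 2 / (8 * δ) ≤ (1 / ((n : ℝ) + 1) + 1 / ((k : ℝ) + 1)) / 2 := by linarith
    rw [div_le_iff₀ (by positivity)] at h3
    linarith
  have hone : Tendsto (fun n : ℕ => 1 / ((n : ℝ) + 1)) atTop (𝓝 0) := tendsto_one_div_add_atTop_nhds_zero_nat
  have hcauchy : CauchySeq v := by
    rw [Metric.cauchySeq_iff']
    intro ε hε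
    have hε2 : 0 < ε ^ 2 / (8 * δ) := by positivity
    obtain ⟨N, hN⟩ := (hone.eventually (gt_mem_nhds hε2)).exists_forall_of_atTop
    refine ⟨N, fun n hn => ?_⟩
    have h1 := hN n hn
    have h2 := hN N le_rfl
    have h3 := hdist n N
    rw [dist_eq_norm]
    have h4 : ‖v n - v N‖ ^ 2 < ε ^ 2 := by
      have : 4 * δ * (1 / ((n : ℝ) + 1) + 1 / ((N : ℝ) + 1)) < 4 * δ * (ε ^ 2 / (8 * δ) + ε ^ 2 / (8 * δ)) := by
        apply mul_lt_mul_of_pos_left _ (by positivity)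
        linarith
      have h5 : 4 * δ * (ε ^ 2 / (8 * δ) + ε ^ 2 / (8 * δ)) = ε ^ 2 := by
        field_simp
        ring
      linarith
    exact lt_of_pow_lt_pow_left₀ 2 hε.le h4
  obtain ⟨u, hu⟩ := cauchySeq_tendsto_of_complete hcauchy
  have hnorm : Tendsto (fun n : ℕ => 1 / ((n : ℝ) + 1) - ‖v n - f‖ ^ 2 / (2 * δ)) atTop
      (𝓝 (0 - ‖u - f‖ ^ 2 / (2 * δ))) :=
    hone.sub ((((hu.sub_const f).norm).pow 2).div_const _)
  have key : ∀ ε : ℝ, 0 < ε → Q u < ∞ ∧ Φ u ≤ I + ε := by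
    intro ε hε
    have hev : ∀ᶠ n : ℕ in atTop, 1 / ((n : ℝ) + 1) - ‖v n - f‖ ^ 2 / (2 * δ) < ε - ‖u - f‖ ^ 2 / (2 * δ) :=
      hnorm.eventually (gt_mem_nhds (by linarith))
    have hev2 : ∀ᶠ n in atTop, (Q (v n)).toReal ≤ I + ε - ‖u - f‖ ^ 2 / (2 * δ) := by
      filter_upwards [hev] with n hn
      have := hvΦ n
      simp only [hΦ] at this
      linarith
    have hx0 : 0 ≤ I + ε - ‖u - f‖ ^ 2 / (2 * δ) := by
      obtain ⟨n, hn⟩ := hev2.exists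
      exact le_trans ENNReal.toReal_nonneg hn
    have hev3 : ∀ᶠ n in atTop, Q (v n) ≤ ENNReal.ofReal (I + ε - ‖u - f‖ ^ 2 / (2 * δ)) := by
      filter_upwards [hev2] with n hn
      rw [← ENNReal.ofReal_toReal (hvD n).ne]
      exact ENNReal.ofReal_le_ofReal hn
    have hle := hs_lsc_le hQ hu hev3
    have hfin : Q u < ∞ := lt_of_le_of_lt hle ENNReal.ofReal_lt_top
    refine ⟨hfin, ?_⟩
    have : (Q u).toReal ≤ I + ε - ‖u - f‖ ^ 2 / (2 * δ) := by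
      have := ENNReal.toReal_mono ENNReal.ofReal_ne_top hle
      rwa [ENNReal.toReal_ofReal hx0] at this
    simp only [hΦ]
    linarith
  refine ⟨u, (hs_isProx_iff_real hQ hδ).2 ⟨(key 1 one_pos).1, fun w hw => ?_⟩⟩
  have h1 : Φ u ≤ I := le_of_forall_pos_le_add fun ε hε => (key ε hε).2
  exact le_trans h1 (hIle w hw)

variable [CompleteSpace H]

/-- `Classical.epsilon_spec` -/
theorem hs_isProx_prox (hQ : QForm Q) {δ : ℝ} (hδ : 0 < δ) (f : H) : IsProx Q δ f (prox Q δ f) := by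
  have : Nonempty H := ⟨0⟩
  exact Classical.epsilon_spec (p := fun u => IsProx Q δ f u) (hs_exists_isProx hQ hδ f)

theorem hs_eq_prox_iff (hQ : QForm Q) {δ : ℝ} (hδ : 0 < δ) {f u : H} :
    u = prox Q δ f ↔ IsGen Q u (δ⁻¹ • (u - f)) := by
  constructor
  · rintro rfl
    exact (hs_isProx_iff_isGen hQ hδ).1 (hs_isProx_prox hQ hδ f)
  · intro h
    exact hs_isProx_unique hQ hδ ((hs_isProx_iff_isGen hQ hδ).2 h) (hs_isProx_prox hQ hδ f)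

theorem hs_prox_dom (hQ : QForm Q) {δ : ℝ} (hδ : 0 < δ) (f : H) : Q (prox Q δ f) < ∞ :=
  hs_isProx_dom hQ (hs_isProx_prox hQ hδ f)

theorem hs_prox_isGen (hQ : QForm Q) {δ : ℝ} (hδ : 0 < δ) (f : H) :
    IsGen Q (prox Q δ f) (δ⁻¹ • (prox Q δ f - f)) :=
  (hs_isProx_iff_isGen hQ hδ).1 (hs_isProx_prox hQ hδ f)

/-- weak form of the resolvent equation `u - δ A u = f` -/
theorem hs_prox_weak (hQ : QForm Q) {δ : ℝ} (hδ : 0 < δ) (f : H) {v : H} (hv : Q v < ∞) :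
    ⟪prox Q δ f, v⟫ + δ * bil Q (prox Q δ f) v = ⟪f, v⟫ := by
  have h := (hs_prox_isGen hQ hδ f).2 v hv
  rw [h, real_inner_smul_left, inner_sub_left]
  have hδ' : δ ≠ 0 := hδ.ne'
  field_simp
  ring

/-- converse of `hs_prox_weak` -/
theorem hs_eq_prox_of_weak (hQ : QForm Q) {δ : ℝ} (hδ : 0 < δ) {f u : H} (hu : Q u < ∞)
    (h : ∀ v, Q v < ∞ → ⟪u, v⟫ + δ * bil Q u v = ⟪f, v⟫) : u = prox Q δ f := by
  refine (hs_eq_prox_iff hQ hδ).2 ⟨hu, fun v hv => ?_⟩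
  have h1 := h v hv
  rw [real_inner_smul_left, inner_sub_left]
  have hδ' : δ ≠ 0 := hδ.ne'
  have h2 : δ * bil Q u v = ⟪f, v⟫ - ⟪u, v⟫ := by linarith
  have h3 : bil Q u v = δ⁻¹ * (⟪f, v⟫ - ⟪u, v⟫) := by
    rw [← h2, ← mul_assoc, inv_mul_cancel₀ hδ', one_mul]
  rw [h3]
  ring

/-! ### B. linear, symmetric, contraction -/

/-- `hs_eq_prox_of_weak` for `prox f + prox g` -/
theorem hs_prox_add (hQ : QForm Q) {δ : ℝ} (hδ : 0 < δ) (f g : H) :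
    prox Q δ (f + g) = prox Q δ f + prox Q δ g := by
  refine (hs_eq_prox_of_weak hQ hδ (hs_dom_add hQ (hs_prox_dom hQ hδ f) (hs_prox_dom hQ hδ g)) fun v hv => ?_).symm
  rw [inner_add_left, inner_add_left, hs_bil_add_left hQ (hs_prox_dom hQ hδ f) (hs_prox_dom hQ hδ g) hv]
  have h1 := hs_prox_weak hQ hδ f hv
  have h2 := hs_prox_weak hQ hδ g hv
  linarith

theorem hs_prox_smul (hQ : QForm Q) {δ : ℝ} (hδ : 0 < δ) (c : ℝ) (f : H) :
    prox Q δ (c • f) = c • prox Q δ f := by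
  refine (hs_eq_prox_of_weak hQ hδ (hs_dom_smul hQ c (hs_prox_dom hQ hδ f)) fun v hv => ?_).symm
  rw [real_inner_smul_left, real_inner_smul_left, hs_bil_smul_left hQ c (hs_prox_dom hQ hδ f) hv]
  have h1 := hs_prox_weak hQ hδ f hv
  rw [← h1]
  ring

theorem hs_prox_zero (hQ : QForm Q) {δ : ℝ} (hδ : 0 < δ) : prox Q δ (0 : H) = 0 := by
  have h := hs_prox_smul hQ hδ 0 (0 : H)
  rwa [zero_smul, zero_smul] at h

theorem hs_prox_neg (hQ : QForm Q) {δ : ℝ} (hδ : 0 < δ) (f : H) : prox Q δ (-f) = - prox Q δ f := by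
  have h := hs_prox_smul hQ hδ (-1) f
  rwa [neg_one_smul, neg_one_smul] at h

theorem hs_prox_sub (hQ : QForm Q) {δ : ℝ} (hδ : 0 < δ) (f g : H) :
    prox Q δ (f - g) = prox Q δ f - prox Q δ g := by
  rw [sub_eq_add_neg, hs_prox_add hQ hδ, hs_prox_neg hQ hδ, ← sub_eq_add_neg]

/-- `hs_prox_weak f` tested with `prox g`, `hs_prox_weak g` tested with `prox f`, `hs_bil_comm` -/
theorem hs_prox_symm (hQ : QForm Q) {δ : ℝ} (hδ : 0 < δ) (f g : H) :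
    ⟪prox Q δ f, g⟫ = ⟪f, prox Q δ g⟫ := by
  have h1 := hs_prox_weak hQ hδ f (hs_prox_dom hQ hδ g)
  have h2 := hs_prox_weak hQ hδ g (hs_prox_dom hQ hδ f)
  rw [hs_bil_comm hQ (prox Q δ g) (prox Q δ f), real_inner_comm (prox Q δ f) (prox Q δ g),
    real_inner_comm (prox Q δ f) g] at h2
  linarith

/-- `‖u‖² + δ b u u = ⟪f, u⟫` for `u = prox f` -/
theorem hs_prox_energy (hQ : QForm Q) {δ : ℝ} (hδ : 0 < δ) (f : H) :
    ‖prox Q δ f‖ ^ 2 + δ * bil Q (prox Q δ f) (prox Q δ f) = ⟪f, prox Q δ f⟫ := by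
  have h1 := hs_prox_weak hQ hδ f (hs_prox_dom hQ hδ f)
  rwa [real_inner_self_eq_norm_sq] at h1

/-- `‖u‖² ≤ ⟪f, u⟫ ≤ ‖f‖ ‖u‖` -/
theorem hs_prox_norm_le (hQ : QForm Q) {δ : ℝ} (hδ : 0 < δ) (f : H) : ‖prox Q δ f‖ ≤ ‖f‖ := by
  have h1 := hs_prox_energy hQ hδ f
  have h2 : 0 ≤ δ * bil Q (prox Q δ f) (prox Q δ f) := mul_nonneg hδ.le (hs_bil_self_nonneg hQ _)
  have h3 : ⟪f, prox Q δ f⟫ ≤ ‖f‖ * ‖prox Q δ f‖ := real_inner_le_norm _ _
  have h4 : ‖prox Q δ f‖ * ‖prox Q δ f‖ ≤ ‖f‖ * ‖prox Q δ f‖ := by nlinarith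
  rcases eq_or_lt_of_le (norm_nonneg (prox Q δ f)) with h0 | h0
  · rw [← h0]; exact norm_nonneg f
  · exact le_of_mul_le_mul_right h4 h0

/-- `0 ≤ ⟪J f, f⟫` (`hs_prox_energy`) -/
theorem hs_prox_inner_nonneg (hQ : QForm Q) {δ : ℝ} (hδ : 0 < δ) (f : H) : 0 ≤ ⟪prox Q δ f, f⟫ := by
  have h1 := hs_prox_energy hQ hδ f
  have h2 : 0 ≤ δ * bil Q (prox Q δ f) (prox Q δ f) := mul_nonneg hδ.le (hs_bil_self_nonneg hQ _)
  rw [real_inner_comm, ← h1]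
  positivity

/-- the resolvent as a continuous linear map -/
noncomputable def hs_proxL (hQ : QForm Q) {δ : ℝ} (hδ : 0 < δ) : H →L[ℝ] H :=
  LinearMap.mkContinuous
    { toFun := prox Q δ
      map_add' := hs_prox_add hQ hδ
      map_smul' := fun c f => hs_prox_smul hQ hδ c f } 1
    (fun f => by simpa using hs_prox_norm_le hQ hδ f)

@[simp] theorem hs_proxL_apply (hQ : QForm Q) {δ : ℝ} (hδ : 0 < δ) (f : H) : hs_proxL hQ hδ f = prox Q δ f := rfl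

theorem hs_proxL_norm_le (hQ : QForm Q) {δ : ℝ} (hδ : 0 < δ) : ‖hs_proxL hQ hδ‖ ≤ 1 := by
  exact LinearMap.mkContinuous_norm_le _ zero_le_one _

theorem hs_prox_continuous (hQ : QForm Q) {δ : ℝ} (hδ : 0 < δ) : Continuous (prox Q δ) :=
  (hs_proxL hQ hδ).continuous

/-- iterates: `(prox Q δ)^[n] f = (hs_proxL hQ hδ ^ n) f` -/
theorem hs_proxL_pow_apply (hQ : QForm Q) {δ : ℝ} (hδ : 0 < δ) (n : ℕ) (f : H) :
    (hs_proxL hQ hδ ^ n) f = (prox Q δ)^[n] f := by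
  induction n generalizing f with
  | zero => rfl
  | succ n ih =>
    rw [pow_succ, Function.iterate_succ_apply, ← ih]
    rfl

/-! ### C. energy estimates, behaviour as `δ → 0` -/

/-- minimality against `v = f` -/
theorem hs_prox_min_le (hQ : QForm Q) {δ : ℝ} (hδ : 0 < δ) (f : H) :
    Q (prox Q δ f) + ENNReal.ofReal (‖prox Q δ f - f‖ ^ 2 / (2 * δ)) ≤ Q f := by
  have h := hs_isProx_prox hQ hδ f f
  simpa using h

theorem hs_Q_prox_le (hQ : QForm Q) {δ : ℝ} (hδ : 0 < δ) (f : H) : Q (prox Q δ f) ≤ Q f := by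
  exact le_trans le_self_add (hs_prox_min_le hQ hδ f)

/-- `‖J f - f‖² ≤ 2 δ q f` on the domain -/
theorem hs_prox_sub_sq_le (hQ : QForm Q) {δ : ℝ} (hδ : 0 < δ) {f : H} (hf : Q f < ∞) :
    ‖prox Q δ f - f‖ ^ 2 ≤ 2 * δ * (Q f).toReal := by
  have h1 : ENNReal.ofReal (‖prox Q δ f - f‖ ^ 2 / (2 * δ)) ≤ Q f :=
    le_trans le_add_self (hs_prox_min_le hQ hδ f)
  have h2 : ‖prox Q δ f - f‖ ^ 2 / (2 * δ) ≤ (Q f).toReal := (ENNReal.ofReal_le_iff_le_toReal hf.ne).1 h1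
  rw [div_le_iff₀ (by positivity)] at h2
  linarith

/-- on the domain by `hs_prox_sub_sq_le`; in general by density (`hQ.dense`) and `‖J f - f‖ ≤ ‖J g - g‖ + 2 ‖f - g‖` -/
theorem hs_prox_tendsto (hQ : QForm Q) (f : H) : Tendsto (fun δ => prox Q δ f) (𝓝[>] 0) (𝓝 f) := by
  rw [Metric.tendsto_nhds]
  intro ε hε
  obtain ⟨g, hgD, hg⟩ : ∃ g ∈ {u | Q u < ∞}, dist f g < ε / 4 :=
    Metric.mem_closure_iff.1 (hQ.dense f) (ε / 4) (by positivity)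
  have hgD' : Q g < ∞ := hgD
  rw [dist_eq_norm] at hg
  have hq : 0 ≤ (Q g).toReal := ENNReal.toReal_nonneg
  set δ0 : ℝ := (ε / 2) ^ 2 / (2 * (Q g).toReal + 1) with hδ0
  have hδ0pos : 0 < δ0 := by positivity
  have hmem : Ioo (0 : ℝ) δ0 ∈ 𝓝[>] (0 : ℝ) := Ioo_mem_nhdsGT hδ0pos
  filter_upwards [hmem] with δ hδ
  obtain ⟨hδpos, hδlt⟩ := hδ
  have h1 := hs_prox_sub_sq_le hQ hδpos hgD'
  have h2 : 2 * δ * (Q g).toReal < (ε / 2) ^ 2 := by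
    have h3 : δ * (2 * (Q g).toReal + 1) < (ε / 2) ^ 2 := by
      rw [hδ0, lt_div_iff₀ (by positivity)] at hδlt
      exact hδlt
    nlinarith
  have h4 : ‖prox Q δ g - g‖ < ε / 2 := by
    have h5 : ‖prox Q δ g - g‖ ^ 2 < (ε / 2) ^ 2 := lt_of_le_of_lt h1 h2
    exact lt_of_pow_lt_pow_left₀ 2 (by positivity) h5
  have h6 : ‖prox Q δ (f - g)‖ ≤ ‖f - g‖ := hs_prox_norm_le hQ hδpos _
  have e : prox Q δ f - f = prox Q δ (f - g) + (prox Q δ g - g) - (f - g) := by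
    rw [hs_prox_sub hQ hδpos]
    abel
  rw [dist_eq_norm, e]
  calc ‖prox Q δ (f - g) + (prox Q δ g - g) - (f - g)‖
      ≤ ‖prox Q δ (f - g) + (prox Q δ g - g)‖ + ‖f - g‖ := norm_sub_le _ _
    _ ≤ ‖prox Q δ (f - g)‖ + ‖prox Q δ g - g‖ + ‖f - g‖ := by
        gcongr
        exact norm_add_le _ _
    _ < ε := by linarith

/-- `hs_tendsto_Q`, `hs_prox_tendsto`, `hs_Q_prox_le` (also if `Q f = ∞`) -/
theorem hs_Q_prox_tendsto (hQ : QForm Q) (f : H) : Tendsto (fun δ => Q (prox Q δ f)) (𝓝[>] 0) (𝓝 (Q f)) := by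
  refine hs_tendsto_Q hQ (hs_prox_tendsto hQ f) ?_
  filter_upwards [self_mem_nhdsWithin] with δ hδ
  exact hs_Q_prox_le hQ hδ f

/-- `b (J f) g = δ⁻¹ ⟪f - J f, g⟫` for `g` in the domain -/
theorem hs_bil_prox_left (hQ : QForm Q) {δ : ℝ} (hδ : 0 < δ) (f : H) {g : H} (hg : Q g < ∞) :
    bil Q (prox Q δ f) g = δ⁻¹ * ⟪f - prox Q δ f, g⟫ := by
  have h := hs_prox_weak hQ hδ f hg
  rw [inner_sub_left]
  have hδ' : δ ≠ 0 := hδ.ne'
  field_simp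
  linarith

/-- `J` is symmetric for `b` (`hs_bil_prox_left`, `hs_prox_symm`, `real_inner_comm`) -/
theorem hs_bil_prox_symm (hQ : QForm Q) {δ : ℝ} (hδ : 0 < δ) {f g : H} (hf : Q f < ∞) (hg : Q g < ∞) :
    bil Q (prox Q δ f) g = bil Q f (prox Q δ g) := by
  rw [hs_bil_comm hQ f (prox Q δ g), hs_bil_prox_left hQ hδ f hg, hs_bil_prox_left hQ hδ g hf,
    inner_sub_left, inner_sub_left, hs_prox_symm hQ hδ f g, real_inner_comm g f,
    real_inner_comm f (prox Q δ g)]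

/-- `b (J f) f - b (J f) (J f) = δ⁻¹ ‖f - J f‖²` -/
theorem hs_bil_prox_self (hQ : QForm Q) {δ : ℝ} (hδ : 0 < δ) {f : H} (hf : Q f < ∞) :
    bil Q (prox Q δ f) f = bil Q (prox Q δ f) (prox Q δ f) + δ⁻¹ * ‖f - prox Q δ f‖ ^ 2 := by
  rw [hs_bil_prox_left hQ hδ f hf, hs_bil_prox_left hQ hδ f (hs_prox_dom hQ hδ f),
    ← real_inner_self_eq_norm_sq, ← mul_add, ← inner_add_right]
  congr 2
  abel

/-- `q (J f - f) = q (J f) + q f - b (J f) f ≤ q f - q (J f)` (`hs_toReal_sub`, `hs_bil_prox_self`, `hs_bil_self`) -/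
theorem hs_toReal_prox_sub_le (hQ : QForm Q) {δ : ℝ} (hδ : 0 < δ) {f : H} (hf : Q f < ∞) :
    (Q (prox Q δ f - f)).toReal ≤ (Q f).toReal - (Q (prox Q δ f)).toReal := by
  have h1 := hs_toReal_sub hQ (hs_prox_dom hQ hδ f) hf
  have h2 := hs_bil_prox_self hQ hδ hf
  have h3 := hs_bil_self hQ (prox Q δ f)
  have h4 : 0 ≤ δ⁻¹ * ‖f - prox Q δ f‖ ^ 2 := by positivity
  linarith

/-- `hs_toReal_prox_sub_le` and `hs_Q_prox_tendsto` -/
theorem hs_Q_prox_sub_tendsto (hQ : QForm Q) {f : H} (hf : Q f < ∞) :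
    Tendsto (fun δ => Q (prox Q δ f - f)) (𝓝[>] 0) (𝓝 0) := by
  have h1 : Tendsto (fun δ => (Q (prox Q δ f)).toReal) (𝓝[>] 0) (𝓝 (Q f).toReal) :=
    (ENNReal.tendsto_toReal hf.ne).comp (hs_Q_prox_tendsto hQ f)
  have h2 : Tendsto (fun δ => ENNReal.ofReal ((Q f).toReal - (Q (prox Q δ f)).toReal)) (𝓝[>] 0) (𝓝 0) := by
    have h3 : Tendsto (fun δ => (Q f).toReal - (Q (prox Q δ f)).toReal) (𝓝[>] 0) (𝓝 0) := by
      have h4 := (tendsto_const_nhds (x := (Q f).toReal)).sub h1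
      rwa [sub_self] at h4
    simpa using ENNReal.tendsto_ofReal h3
  refine tendsto_of_tendsto_of_tendsto_of_le_of_le' tendsto_const_nhds h2
    (Eventually.of_forall fun _ => bot_le) ?_
  filter_upwards [self_mem_nhdsWithin] with δ hδ
  have hδ' : 0 < δ := hδ
  rw [← ENNReal.ofReal_toReal (hs_dom_sub hQ (hs_prox_dom hQ hδ' f) hf).ne]
  exact ENNReal.ofReal_le_ofReal (hs_toReal_prox_sub_le hQ hδ' hf)

/-! ### D. the approximating forms `E_δ f = δ⁻¹ ⟪f - J_δ f, f⟫ = 2 min Φ` -/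

/-- `δ⁻¹ ⟪f - u, f⟫ = 2 q u + ‖u - f‖²/δ`, `u = J f` (`hs_prox_energy`, `hs_bil_self`) -/
theorem hs_yosida_eq (hQ : QForm Q) {δ : ℝ} (hδ : 0 < δ) (f : H) :
    δ⁻¹ * ⟪f - prox Q δ f, f⟫ = 2 * ((Q (prox Q δ f)).toReal + ‖prox Q δ f - f‖ ^ 2 / (2 * δ)) := by
  have h1 := hs_prox_energy hQ hδ f
  rw [hs_bil_self hQ] at h1
  have h2 : ‖prox Q δ f - f‖ ^ 2 = ‖prox Q δ f‖ ^ 2 - 2 * ⟪prox Q δ f, f⟫ + ‖f‖ ^ 2 := norm_sub_sq_real _ _
  have h3 : ⟪f - prox Q δ f, f⟫ = ‖f‖ ^ 2 - ⟪prox Q δ f, f⟫ := by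
    rw [inner_sub_left, real_inner_self_eq_norm_sq]
  have h4 : ⟪f, prox Q δ f⟫ = ⟪prox Q δ f, f⟫ := real_inner_comm _ _
  rw [h3, h2]
  rw [h4] at h1
  have hδ' : δ ≠ 0 := hδ.ne'
  field_simp
  linarith

theorem hs_yosida_nonneg (hQ : QForm Q) {δ : ℝ} (hδ : 0 < δ) (f : H) : 0 ≤ δ⁻¹ * ⟪f - prox Q δ f, f⟫ := by
  rw [hs_yosida_eq hQ hδ]
  have : 0 ≤ (Q (prox Q δ f)).toReal := ENNReal.toReal_nonneg
  positivity

/-- monotone in `δ`: `min Φ_δ₂ ≤ Φ_δ₂ (J_δ₁ f) ≤ Φ_δ₁ (J_δ₁ f)` -/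
theorem hs_yosida_anti (hQ : QForm Q) {δ₁ δ₂ : ℝ} (h1 : 0 < δ₁) (h12 : δ₁ ≤ δ₂) (f : H) :
    δ₂⁻¹ * ⟪f - prox Q δ₂ f, f⟫ ≤ δ₁⁻¹ * ⟪f - prox Q δ₁ f, f⟫ := by
  have h2 : 0 < δ₂ := h1.trans_le h12
  rw [hs_yosida_eq hQ h1, hs_yosida_eq hQ h2]
  have hm := ((hs_isProx_iff_real hQ h2).1 (hs_isProx_prox hQ h2 f)).2 _ (hs_prox_dom hQ h1 f)
  have h3 : ‖prox Q δ₁ f - f‖ ^ 2 / (2 * δ₂) ≤ ‖prox Q δ₁ f - f‖ ^ 2 / (2 * δ₁) :=
    div_le_div_of_nonneg_left (by positivity) (by positivity) (by linarith)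
  linarith

/-- `E_δ f ≤ b f f` on the domain (`hs_prox_min_le`) -/
theorem hs_yosida_le (hQ : QForm Q) {δ : ℝ} (hδ : 0 < δ) {f : H} (hf : Q f < ∞) :
    δ⁻¹ * ⟪f - prox Q δ f, f⟫ ≤ bil Q f f := by
  rw [hs_yosida_eq hQ hδ, hs_bil_self hQ]
  have hm := ((hs_isProx_iff_real hQ hδ).1 (hs_isProx_prox hQ hδ f)).2 _ hf
  simp only [sub_self, norm_zero, ne_eq, OfNat.ofNat_ne_zero, not_false_eq_true, zero_pow, zero_div, add_zero] at hm
  linarith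

/-- `2 Q (J f) ≤ ofReal (E_δ f) ≤ 2 Q f`, squeeze with `hs_Q_prox_tendsto` (covers `Q f = ∞`) -/
theorem hs_yosida_tendsto (hQ : QForm Q) (f : H) :
    Tendsto (fun δ => ENNReal.ofReal (δ⁻¹ * ⟪f - prox Q δ f, f⟫)) (𝓝[>] 0) (𝓝 (2 * Q f)) := by
  have hlow : Tendsto (fun δ => 2 * Q (prox Q δ f)) (𝓝[>] 0) (𝓝 (2 * Q f)) :=
    ENNReal.Tendsto.const_mul (hs_Q_prox_tendsto hQ f) (Or.inr (by simp))
  refine tendsto_of_tendsto_of_tendsto_of_le_of_le' hlow tendsto_const_nhds ?_ ?_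
  · filter_upwards [self_mem_nhdsWithin] with δ hδ
    have hδ0 : (0 : ℝ) < δ := hδ
    rw [hs_yosida_eq hQ hδ0]
    have hfin := hs_prox_dom hQ hδ0 f
    have e : 2 * Q (prox Q δ f) = ENNReal.ofReal (2 * (Q (prox Q δ f)).toReal) := by
      rw [ENNReal.ofReal_mul (by norm_num), ENNReal.ofReal_toReal hfin.ne]
      simp
    rw [e]
    apply ENNReal.ofReal_le_ofReal
    have : 0 ≤ ‖prox Q δ f - f‖ ^ 2 / (2 * δ) := by positivity
    linarith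
  · filter_upwards [self_mem_nhdsWithin] with δ hδ
    have hδ0 : (0 : ℝ) < δ := hδ
    by_cases hf : Q f < ∞
    · have h1 := hs_yosida_le hQ hδ0 hf
      rw [hs_bil_self hQ] at h1
      have e : 2 * Q f = ENNReal.ofReal (2 * (Q f).toReal) := by
        rw [ENNReal.ofReal_mul (by norm_num), ENNReal.ofReal_toReal hf.ne]
        simp
      rw [e]
      exact ENNReal.ofReal_le_ofReal h1
    · have : Q f = ∞ := not_lt_top_iff.1 hf
      rw [this]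
      simp

/-- criterion for membership in the domain -/
theorem hs_dom_of_yosida_le (hQ : QForm Q) {f : H} {C : ℝ}
    (h : ∀ δ, 0 < δ → δ⁻¹ * ⟪f - prox Q δ f, f⟫ ≤ C) : 2 * Q f ≤ ENNReal.ofReal C := by
  refine le_of_tendsto (hs_yosida_tendsto hQ f) ?_
  filter_upwards [self_mem_nhdsWithin] with δ hδ
  exact ENNReal.ofReal_le_ofReal (h δ hδ)

end Claimed.Agent.R210.HS.Prox
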