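/-
Row 210, layer HS, file 3 (HS2, second half; HS6): the generator relation `IsGen Q u w` (`w = A u`), resolvent identity.
Architect: helper751.  Paper proofs: `git show origin/helper751:docs/R210_HS.md`.
-/
import Claimed.Agent.R210.HS.Prox

set_option autoImplicit false

open Set Filter
open scoped ENNReal NNReal Topology RealInnerProductSpace
open Claimed.Agent.R210.HS.Defs Claimed.Agent.R210.HS.Form Claimed.Agent.R210.HS.Prox

namespace Claimed.Agent.R210.HS.Gen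

variable {H : Type*} [NormedAddCommGroup H] [InnerProductSpace ℝ H] {Q : H → ℝ≥0∞}

/-! ### A. algebra of the relation -/

/-- `⟪w - w', v⟫ = 0` on the dense domain (`hQ.dense`; `Dense.eq_zero_of_inner_left`-type lemma or continuity) -/
theorem hs_isGen_unique (hQ : QForm Q) {u w w' : H} (h : IsGen Q u w) (h' : IsGen Q u w') : w = w' := by
  have h0 : w - w' = 0 := by
    refine hQ.dense.eq_zero_of_inner_left ℝ fun v hv => ?_
    have h1 := h.2 v hv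
    have h2 := h'.2 v hv
    rw [inner_sub_left]
    linarith
  exact sub_eq_zero.1 h0

theorem hs_isGen_zero (hQ : QForm Q) : IsGen Q (0 : H) 0 := by
  refine ⟨hs_dom_zero hQ, fun v _ => ?_⟩
  rw [hs_bil_zero_left hQ, inner_zero_left, neg_zero]

theorem hs_isGen_add (hQ : QForm Q) {u w u' w' : H} (h : IsGen Q u w) (h' : IsGen Q u' w') :
    IsGen Q (u + u') (w + w') := by
  refine ⟨hs_dom_add hQ h.1 h'.1, fun v hv => ?_⟩
  rw [hs_bil_add_left hQ h.1 h'.1 hv, h.2 v hv, h'.2 v hv, inner_add_left]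
  ring

theorem hs_isGen_smul (hQ : QForm Q) (c : ℝ) {u w : H} (h : IsGen Q u w) : IsGen Q (c • u) (c • w) := by
  refine ⟨hs_dom_smul hQ c h.1, fun v hv => ?_⟩
  rw [hs_bil_smul_left hQ c h.1 hv, h.2 v hv, real_inner_smul_left]
  ring

theorem hs_isGen_neg (hQ : QForm Q) {u w : H} (h : IsGen Q u w) : IsGen Q (-u) (-w) := by
  refine ⟨hs_dom_neg hQ h.1, fun v hv => ?_⟩
  rw [hs_bil_neg_left hQ, h.2 v hv, inner_neg_left]

theorem hs_isGen_sub (hQ : QForm Q) {u w u' w' : H} (h : IsGen Q u w) (h' : IsGen Q u' w') :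
    IsGen Q (u - u') (w - w') := by
  refine ⟨hs_dom_sub hQ h.1 h'.1, fun v hv => ?_⟩
  rw [hs_bil_sub_left hQ h.1 h'.1 hv, h.2 v hv, h'.2 v hv, inner_sub_left]
  ring

/-- `⟪A u, v⟫ = - b u v = ⟪u, A v⟫` -/
theorem hs_isGen_symm (hQ : QForm Q) {u w v z : H} (h : IsGen Q u w) (h' : IsGen Q v z) : ⟪w, v⟫ = ⟪u, z⟫ := by
  have h1 := h.2 v h'.1
  have h2 := h'.2 u h.1
  rw [hs_bil_comm hQ v u] at h2
  rw [real_inner_comm z u]
  linarith

theorem hs_isGen_inner_self (hQ : QForm Q) {u w : H} (h : IsGen Q u w) : ⟪w, u⟫ = - bil Q u u := by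
  have h1 := h.2 u h.1
  linarith

/-- the generator as a function (junk value outside its domain) -/
noncomputable def hs_gen (Q : H → ℝ≥0∞) (u : H) : H :=
  haveI : Nonempty H := ⟨0⟩
  Classical.epsilon (fun w => IsGen Q u w)

theorem hs_isGen_gen {u w : H} (h : IsGen Q u w) : IsGen Q u (hs_gen Q u) := by
  unfold hs_gen
  exact Classical.epsilon_spec (p := fun w => IsGen Q u w) ⟨w, h⟩

theorem hs_gen_eq (hQ : QForm Q) {u w : H} (h : IsGen Q u w) : hs_gen Q u = w :=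
  hs_isGen_unique hQ (hs_isGen_gen h) h

variable [CompleteSpace H]

/-! ### B. generator and resolvent -/

/-- `hs_eq_prox_iff` with `f = u - δ • w` -/
theorem hs_prox_of_isGen (hQ : QForm Q) {δ : ℝ} (hδ : 0 < δ) {u w : H} (h : IsGen Q u w) :
    prox Q δ (u - δ • w) = u := by
  refine ((hs_eq_prox_iff hQ hδ).2 ?_).symm
  have e : δ⁻¹ • (u - (u - δ • w)) = w := by
    rw [sub_sub_cancel, smul_smul, inv_mul_cancel₀ hδ.ne', one_smul]
  rw [e]
  exact h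

/-- `u = J (u - δ w) = J u - δ J w` -/
theorem hs_prox_sub_self (hQ : QForm Q) {δ : ℝ} (hδ : 0 < δ) {u w : H} (h : IsGen Q u w) :
    prox Q δ u - u = δ • prox Q δ w := by
  have h1 := hs_prox_of_isGen hQ hδ h
  rw [hs_prox_sub hQ hδ, hs_prox_smul hQ hδ] at h1
  rw [sub_eq_iff_eq_add] at h1 ⊢
  rw [h1]
  abel

/-- `A J u = J A u`: `hs_prox_isGen` and `hs_prox_sub_self` -/
theorem hs_isGen_prox (hQ : QForm Q) {δ : ℝ} (hδ : 0 < δ) {u w : H} (h : IsGen Q u w) :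
    IsGen Q (prox Q δ u) (prox Q δ w) := by
  have h1 := hs_prox_isGen hQ hδ u
  rw [hs_prox_sub_self hQ hδ h, smul_smul, inv_mul_cancel₀ hδ.ne', one_smul] at h1
  exact h1

theorem hs_isGen_iterate (hQ : QForm Q) {δ : ℝ} (hδ : 0 < δ) (n : ℕ) {u w : H} (h : IsGen Q u w) :
    IsGen Q ((prox Q δ)^[n] u) ((prox Q δ)^[n] w) := by
  induction n with
  | zero => exact h
  | succ n ih =>
    rw [Function.iterate_succ_apply', Function.iterate_succ_apply']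
    exact hs_isGen_prox hQ hδ ih

theorem hs_prox_sub_self_norm_le (hQ : QForm Q) {δ : ℝ} (hδ : 0 < δ) {u w : H} (h : IsGen Q u w) :
    ‖prox Q δ u - u‖ ≤ δ * ‖w‖ := by
  rw [hs_prox_sub_self hQ hδ h, norm_smul, Real.norm_eq_abs, abs_of_pos hδ]
  exact mul_le_mul_of_nonneg_left (hs_prox_norm_le hQ hδ w) hδ.le

/-- `J u - u - δ w = δ (J w - w)`, and `‖J w - w‖ ≤ δ ‖z‖` -/
theorem hs_prox_second_order (hQ : QForm Q) {δ : ℝ} (hδ : 0 < δ) {u w z : H} (h : IsGen Q u w) (h' : IsGen Q w z) :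
    ‖prox Q δ u - u - δ • w‖ ≤ δ ^ 2 * ‖z‖ := by
  rw [hs_prox_sub_self hQ hδ h, ← smul_sub, norm_smul, Real.norm_eq_abs, abs_of_pos hδ]
  calc δ * ‖prox Q δ w - w‖ ≤ δ * (δ * ‖z‖) :=
        mul_le_mul_of_nonneg_left (hs_prox_sub_self_norm_le hQ hδ h') hδ.le
    _ = δ ^ 2 * ‖z‖ := by ring

/-- the graph of the generator is closed: `u i = J_1 (u i - w i)` (`hs_prox_of_isGen`), pass to the limit with
`hs_prox_continuous`, then `hs_eq_prox_iff`. -/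
theorem hs_isGen_closed (hQ : QForm Q) {ι : Type*} {l : Filter ι} [l.NeBot] {u w : ι → H} {u₀ w₀ : H}
    (hu : Tendsto u l (𝓝 u₀)) (hw : Tendsto w l (𝓝 w₀)) (h : ∀ᶠ i in l, IsGen Q (u i) (w i)) : IsGen Q u₀ w₀ := by
  have h1 : (0 : ℝ) < 1 := one_pos
  have h2 : Tendsto (fun i => prox Q 1 (u i - (1 : ℝ) • w i)) l (𝓝 (prox Q 1 (u₀ - (1 : ℝ) • w₀))) :=
    ((hs_prox_continuous hQ h1).tendsto _).comp (hu.sub (hw.const_smul (1 : ℝ)))
  have h3 : Tendsto (fun i => prox Q 1 (u i - (1 : ℝ) • w i)) l (𝓝 u₀) := by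
    refine hu.congr' ?_
    filter_upwards [h] with i hi
    exact (hs_prox_of_isGen hQ h1 hi).symm
  have h4 : u₀ = prox Q 1 (u₀ - (1 : ℝ) • w₀) := tendsto_nhds_unique h3 h2
  have h5 := (hs_eq_prox_iff hQ h1).1 h4
  have e : (1 : ℝ)⁻¹ • (u₀ - (u₀ - (1 : ℝ) • w₀)) = w₀ := by
    rw [sub_sub_cancel, inv_one, one_smul, one_smul]
  rwa [e] at h5

/-- resolvent identity `J_δ f = J_ε ((ε/δ) f + (1 - ε/δ) J_δ f)`: `u = J_δ f` satisfies `IsGen u (δ⁻¹ (u - f))`;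
use `hs_prox_of_isGen` with step `ε`: `u - ε δ⁻¹ (u - f) = (ε/δ) f + (1 - ε/δ) u`. -/
theorem hs_resolvent_identity (hQ : QForm Q) {δ ε : ℝ} (hδ : 0 < δ) (hε : 0 < ε) (f : H) :
    prox Q δ f = prox Q ε ((ε / δ) • f + (1 - ε / δ) • prox Q δ f) := by
  have h := hs_prox_of_isGen hQ hε (hs_prox_isGen hQ hδ f)
  have e : prox Q δ f - ε • δ⁻¹ • (prox Q δ f - f) = (ε / δ) • f + (1 - ε / δ) • prox Q δ f := by
    rw [smul_smul, ← div_eq_mul_inv, smul_sub, sub_smul, one_smul]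
    abel
  rw [e] at h
  exact h.symm

/-- from `hs_resolvent_identity` and linearity: `(δ - ε) J_ε J_δ f = δ J_δ f - ε J_ε f` -/
theorem hs_prox_prox (hQ : QForm Q) {δ ε : ℝ} (hδ : 0 < δ) (hε : 0 < ε) (f : H) :
    (δ - ε) • prox Q ε (prox Q δ f) = δ • prox Q δ f - ε • prox Q ε f := by
  have h := hs_resolvent_identity hQ hδ hε f
  rw [hs_prox_add hQ hε, hs_prox_smul hQ hε, hs_prox_smul hQ hε] at h
  have h2 : δ • prox Q δ f = δ • ((ε / δ) • prox Q ε f + (1 - ε / δ) • prox Q ε (prox Q δ f)) := by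
    rw [← h]
  rw [h2, smul_add, smul_smul, smul_smul]
  have e1 : δ * (ε / δ) = ε := by field_simp
  have e2 : δ * (1 - ε / δ) = δ - ε := by field_simp
  rw [e1, e2]
  abel

/-- `hs_prox_prox` twice (the case `δ = ε` is trivial) -/
theorem hs_prox_comm (hQ : QForm Q) {δ ε : ℝ} (hδ : 0 < δ) (hε : 0 < ε) (f : H) :
    prox Q δ (prox Q ε f) = prox Q ε (prox Q δ f) := by
  rcases eq_or_ne δ ε with rfl | hne
  · rfl
  have h1 := hs_prox_prox hQ hδ hε f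
  have h2 := hs_prox_prox hQ hε hδ f
  have h3 : (δ - ε) • prox Q δ (prox Q ε f) = (δ - ε) • prox Q ε (prox Q δ f) := by
    have : (δ - ε) • prox Q δ (prox Q ε f) = -((ε - δ) • prox Q δ (prox Q ε f)) := by
      rw [← neg_smul]; congr 1; ring
    rw [this, h2, h1]
    abel
  exact smul_right_injective H (sub_ne_zero.2 hne) h3

theorem hs_proxL_commute (hQ : QForm Q) {δ ε : ℝ} (hδ : 0 < δ) (hε : 0 < ε) :
    Commute (hs_proxL hQ hδ) (hs_proxL hQ hε) := by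
  ext f
  exact hs_prox_comm hQ hδ hε f

/-! ### C. density (HS6) -/

/-- `D(A)` is dense in `H` and in the form domain: `J_δ f ∈ D(A)` and `hs_prox_tendsto`, `hs_Q_prox_sub_tendsto` -/
theorem hs_exists_gen_near (hQ : QForm Q) (f : H) {ε : ℝ} (hε : 0 < ε) : ∃ g w, IsGen Q g w ∧ ‖g - f‖ < ε := by
  have h1 : ∀ᶠ δ in 𝓝[>] (0 : ℝ), ‖prox Q δ f - f‖ < ε := by
    have h := (hs_prox_tendsto hQ f).eventually (Metric.ball_mem_nhds f hε)
    filter_upwards [h] with δ hδ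
    simpa [dist_eq_norm] using hδ
  have h2 : ∀ᶠ δ in 𝓝[>] (0 : ℝ), 0 < δ := eventually_mem_nhdsWithin
  obtain ⟨δ, hδ1, hδ⟩ := (h1.and h2).exists
  exact ⟨prox Q δ f, δ⁻¹ • (prox Q δ f - f), hs_prox_isGen hQ hδ f, hδ1⟩

theorem hs_exists_gen_near_form (hQ : QForm Q) {f : H} (hf : Q f < ∞) {ε : ℝ} (hε : 0 < ε) :
    ∃ g w, IsGen Q g w ∧ ‖g - f‖ < ε ∧ (Q (g - f)).toReal < ε := by
  have h1 : ∀ᶠ δ in 𝓝[>] (0 : ℝ), ‖prox Q δ f - f‖ < ε := by
    have h := (hs_prox_tendsto hQ f).eventually (Metric.ball_mem_nhds f hε)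
    filter_upwards [h] with δ hδ
    simpa [dist_eq_norm] using hδ
  have h2 : ∀ᶠ δ in 𝓝[>] (0 : ℝ), 0 < δ := eventually_mem_nhdsWithin
  have h3 : ∀ᶠ δ in 𝓝[>] (0 : ℝ), Q (prox Q δ f - f) < ENNReal.ofReal ε :=
    (hs_Q_prox_sub_tendsto hQ hf).eventually (gt_mem_nhds (ENNReal.ofReal_pos.2 hε))
  obtain ⟨δ, ⟨hδ1, hδ⟩, hδ3⟩ := ((h1.and h2).and h3).exists
  refine ⟨prox Q δ f, δ⁻¹ • (prox Q δ f - f), hs_prox_isGen hQ hδ f, hδ1, ?_⟩
  have h4 := (ENNReal.toReal_lt_toReal (ne_top_of_lt hδ3) ENNReal.ofReal_ne_top).2 hδ3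
  rwa [ENNReal.toReal_ofReal hε.le] at h4

/-- `D(A²)` is dense: `g = J_δ (J_δ f)`, `w = J_δ x` with `x = δ⁻¹ (J_δ f - f)` (`hs_isGen_prox`), `z = δ⁻¹ (J_δ x - x)`;
`‖J J f - f‖ ≤ ‖J (J f - f)‖ + ‖J f - f‖ ≤ 2 ‖J f - f‖ → 0`. -/
theorem hs_exists_gen2_near (hQ : QForm Q) (f : H) {ε : ℝ} (hε : 0 < ε) :
    ∃ g w z, IsGen Q g w ∧ IsGen Q w z ∧ ‖g - f‖ < ε := by
  have hε2 : 0 < ε / 2 := by positivity
  have h1 : ∀ᶠ δ in 𝓝[>] (0 : ℝ), ‖prox Q δ f - f‖ < ε / 2 := by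
    have h := (hs_prox_tendsto hQ f).eventually (Metric.ball_mem_nhds f hε2)
    filter_upwards [h] with δ hδ
    simpa [dist_eq_norm] using hδ
  have h2 : ∀ᶠ δ in 𝓝[>] (0 : ℝ), 0 < δ := eventually_mem_nhdsWithin
  obtain ⟨δ, hδ1, hδ⟩ := (h1.and h2).exists
  refine ⟨prox Q δ (prox Q δ f), prox Q δ (δ⁻¹ • (prox Q δ f - f)),
    δ⁻¹ • (prox Q δ (δ⁻¹ • (prox Q δ f - f)) - δ⁻¹ • (prox Q δ f - f)),
    hs_isGen_prox hQ hδ (hs_prox_isGen hQ hδ f), hs_prox_isGen hQ hδ _, ?_⟩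
  have h3 : prox Q δ (prox Q δ f) - f = prox Q δ (prox Q δ f - f) + (prox Q δ f - f) := by
    rw [hs_prox_sub hQ hδ]; abel
  calc ‖prox Q δ (prox Q δ f) - f‖ = ‖prox Q δ (prox Q δ f - f) + (prox Q δ f - f)‖ := by rw [h3]
    _ ≤ ‖prox Q δ (prox Q δ f - f)‖ + ‖prox Q δ f - f‖ := norm_add_le _ _
    _ ≤ ‖prox Q δ f - f‖ + ‖prox Q δ f - f‖ := by
        gcongr
        exact hs_prox_norm_le hQ hδ _
    _ < ε := by linarith

/-- weak continuity of the form (HS6).  `Q u ≤ C` by `hs_lsc_le`.  For `v ∈ D(A)`: `b (u i) v = - ⟪A v, u i⟫ → - ⟪A v, u⟫`.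
In general take `v'` from `hs_exists_gen_near_form`: `|b (u i - u) (v - v')| ≤ √(b (u i - u) (u i - u)) √(2 q (v - v'))`
and `q (u i - u) ≤ 2 q (u i) + 2 q u ≤ 4 C`. -/
theorem hs_bil_tendsto (hQ : QForm Q) {ι : Type*} {l : Filter ι} [l.NeBot] {u : ι → H} {u₀ : H} {C : ℝ≥0∞} (hC : C < ∞)
    (hu : Tendsto u l (𝓝 u₀)) (hb : ∀ᶠ i in l, Q (u i) ≤ C) {v : H} (hv : Q v < ∞) :
    Q u₀ ≤ C ∧ Tendsto (fun i => bil Q (u i) v) l (𝓝 (bil Q u₀ v)) := by
  have hu₀ : Q u₀ ≤ C := hs_lsc_le hQ hu hb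
  refine ⟨hu₀, ?_⟩
  have hu₀f : Q u₀ < ∞ := lt_of_le_of_lt hu₀ hC
  set c : ℝ := C.toReal with hc
  have hc0 : 0 ≤ c := ENNReal.toReal_nonneg
  have hq₀ : (Q u₀).toReal ≤ c := ENNReal.toReal_mono hC.ne hu₀
  rw [Metric.tendsto_nhds]
  intro ε hε
  have hη : 0 < ε ^ 2 / (64 * (c + 1)) := by positivity
  obtain ⟨v', w, hgen, -, hv'⟩ := hs_exists_gen_near_form hQ hv hη
  have hv'f : Q v' < ∞ := hgen.1
  have hd : Q (v - v') < ∞ := hs_dom_sub hQ hv hv'f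
  have hdq : (Q (v - v')).toReal < ε ^ 2 / (64 * (c + 1)) := by
    rw [hs_Q_sub_comm hQ v v']
    exact hv'
  -- the `D(A)` part
  have hin : Tendsto (fun i => ⟪w, u i - u₀⟫) l (𝓝 0) := by
    have h1 : Tendsto (fun i => u i - u₀) l (𝓝 (u₀ - u₀)) := hu.sub_const u₀
    have h2 := (continuous_const.inner continuous_id : Continuous fun x : H => ⟪w, x⟫).tendsto (u₀ - u₀)
    have h3 := h2.comp h1
    rw [sub_self, inner_zero_right] at h3
    exact h3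
  have hin' : ∀ᶠ i in l, |⟪w, u i - u₀⟫| < ε / 2 := by
    have h := (Metric.tendsto_nhds.1 hin) (ε / 2) (by positivity)
    filter_upwards [h] with i hi
    simpa [Real.dist_eq] using hi
  filter_upwards [hb, hin'] with i hi hi'
  have huf : Q (u i) < ∞ := lt_of_le_of_lt hi hC
  have hqi : (Q (u i)).toReal ≤ c := ENNReal.toReal_mono hC.ne hi
  have hxf : Q (u i - u₀) < ∞ := hs_dom_sub hQ huf hu₀f
  have hxq : (Q (u i - u₀)).toReal ≤ 4 * c := by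
    have h1 := hs_par hQ huf hu₀f
    have h2 : 0 ≤ (Q (u i + u₀)).toReal := ENNReal.toReal_nonneg
    linarith
  have e1 : bil Q (u i) v - bil Q u₀ v = bil Q (u i - u₀) v' + bil Q (u i - u₀) (v - v') := by
    rw [hs_bil_sub_right hQ hxf hv hv'f, hs_bil_sub_left hQ huf hu₀f hv]
    ring
  have e2 : bil Q (u i - u₀) v' = - ⟪w, u i - u₀⟫ := by
    rw [hs_bil_comm hQ]
    exact hgen.2 _ hxf
  have b2 : |bil Q (u i - u₀) (v - v')| < ε / 2 := by
    refine abs_lt_of_sq_lt_sq ?_ (by positivity)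
    have h1 := hs_bil_sq_le hQ hxf hd
    rw [hs_bil_self hQ, hs_bil_self hQ] at h1
    have h2 : 0 ≤ (Q (u i - u₀)).toReal := ENNReal.toReal_nonneg
    have h3 : 0 ≤ (Q (v - v')).toReal := ENNReal.toReal_nonneg
    have h4 : (Q (u i - u₀)).toReal * (Q (v - v')).toReal ≤ 4 * c * (ε ^ 2 / (64 * (c + 1))) :=
      mul_le_mul hxq hdq.le h3 (by positivity)
    have h5 : 4 * c * (ε ^ 2 / (64 * (c + 1))) < ε ^ 2 / 16 := by
      have h6 : 4 * c * (ε ^ 2 / (64 * (c + 1))) = ε ^ 2 / 16 * (c / (c + 1)) := by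
        field_simp
        ring
      rw [h6]
      have h7 : c / (c + 1) < 1 := by
        rw [div_lt_one (by linarith)]
        linarith
      have h8 : 0 < ε ^ 2 / 16 := by positivity
      nlinarith
    nlinarith
  rw [Real.dist_eq, e1, e2]
  calc |(- ⟪w, u i - u₀⟫) + bil Q (u i - u₀) (v - v')|
      ≤ |(- ⟪w, u i - u₀⟫)| + |bil Q (u i - u₀) (v - v')| := abs_add_le _ _
    _ = |⟪w, u i - u₀⟫| + |bil Q (u i - u₀) (v - v')| := by rw [abs_neg]
    _ < ε := by linarith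

/-- strong continuity of the form: `Q (u i - u₀) → 0` implies `b (u i) (v i) → b u₀ v₀` when also `Q (v i - v₀) → 0` -/
theorem hs_bil_tendsto_strong (hQ : QForm Q) {ι : Type*} {l : Filter ι} {u v : ι → H} {u₀ v₀ : H}
    (hu₀ : Q u₀ < ∞) (hv₀ : Q v₀ < ∞)
    (hu : Tendsto (fun i => Q (u i - u₀)) l (𝓝 0)) (hv : Tendsto (fun i => Q (v i - v₀)) l (𝓝 0)) :
    Tendsto (fun i => bil Q (u i) (v i)) l (𝓝 (bil Q u₀ v₀)) := by
  have hx : Tendsto (fun i => (Q (u i - u₀)).toReal) l (𝓝 0) := by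
    have h := (ENNReal.tendsto_toReal ENNReal.zero_ne_top).comp hu
    rw [ENNReal.toReal_zero] at h
    exact h
  have hy : Tendsto (fun i => (Q (v i - v₀)).toReal) l (𝓝 0) := by
    have h := (ENNReal.tendsto_toReal ENNReal.zero_ne_top).comp hv
    rw [ENNReal.toReal_zero] at h
    exact h
  have hxf : ∀ᶠ i in l, Q (u i - u₀) < ∞ := hu.eventually (gt_mem_nhds ENNReal.zero_lt_top)
  have hyf : ∀ᶠ i in l, Q (v i - v₀) < ∞ := hv.eventually (gt_mem_nhds ENNReal.zero_lt_top)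
  have sx : Tendsto (fun i => Real.sqrt (2 * (Q (u i - u₀)).toReal)) l (𝓝 0) := by
    have h := (Real.continuous_sqrt.tendsto _).comp (hx.const_mul 2)
    rw [mul_zero, Real.sqrt_zero] at h
    exact h
  have sy : Tendsto (fun i => Real.sqrt (2 * (Q (v i - v₀)).toReal)) l (𝓝 0) := by
    have h := (Real.continuous_sqrt.tendsto _).comp (hy.const_mul 2)
    rw [mul_zero, Real.sqrt_zero] at h
    exact h
  have hB : Tendsto (fun i => Real.sqrt (2 * (Q (u i - u₀)).toReal) * Real.sqrt (2 * (Q (v i - v₀)).toReal)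
      + Real.sqrt (2 * (Q (u i - u₀)).toReal) * Real.sqrt (2 * (Q v₀).toReal)
      + Real.sqrt (2 * (Q u₀).toReal) * Real.sqrt (2 * (Q (v i - v₀)).toReal)) l (𝓝 0) := by
    have h := ((sx.mul sy).add (sx.mul_const (Real.sqrt (2 * (Q v₀).toReal)))).add
      (sy.const_mul (Real.sqrt (2 * (Q u₀).toReal)))
    simpa using h
  rw [← tendsto_sub_nhds_zero_iff]
  refine squeeze_zero_norm' ?_ hB
  filter_upwards [hxf, hyf] with i hi hj
  have eu : u i = (u i - u₀) + u₀ := by abel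
  have ev : v i = (v i - v₀) + v₀ := by abel
  have hvi : Q (v i) < ∞ := by
    rw [ev]
    exact hs_dom_add hQ hj hv₀
  have e1 : bil Q (u i) (v i) - bil Q u₀ v₀
      = bil Q (u i - u₀) (v i - v₀) + bil Q (u i - u₀) v₀ + bil Q u₀ (v i - v₀) := by
    have a1 : bil Q (u i) (v i) = bil Q (u i - u₀) (v i) + bil Q u₀ (v i) := by
      conv_lhs => rw [eu]
      exact hs_bil_add_left hQ hi hu₀ hvi
    have a2 : bil Q (u i - u₀) (v i) = bil Q (u i - u₀) (v i - v₀) + bil Q (u i - u₀) v₀ := by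
      conv_lhs => rw [ev]
      exact hs_bil_add_right hQ hi hj hv₀
    have a3 : bil Q u₀ (v i) = bil Q u₀ (v i - v₀) + bil Q u₀ v₀ := by
      conv_lhs => rw [ev]
      exact hs_bil_add_right hQ hu₀ hj hv₀
    rw [a1, a2, a3]
    ring
  have b1 := hs_abs_bil_le hQ hi hj
  have b2 := hs_abs_bil_le hQ hi hv₀
  have b3 := hs_abs_bil_le hQ hu₀ hj
  simp only [hs_bil_self hQ] at b1 b2 b3
  rw [Real.norm_eq_abs, e1]
  calc |bil Q (u i - u₀) (v i - v₀) + bil Q (u i - u₀) v₀ + bil Q u₀ (v i - v₀)|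
      ≤ |bil Q (u i - u₀) (v i - v₀) + bil Q (u i - u₀) v₀| + |bil Q u₀ (v i - v₀)| := abs_add_le _ _
    _ ≤ |bil Q (u i - u₀) (v i - v₀)| + |bil Q (u i - u₀) v₀| + |bil Q u₀ (v i - v₀)| := by
        gcongr
        exact abs_add_le _ _
    _ ≤ _ := by linarith

end Claimed.Agent.R210.HS.Gen
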