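/-
Row 210, layer HS, file 4 (HS3, discrete part): "steps" = contractions that approximate `1 + s A` to second order.
Architect: helper751.  Paper proofs: `git show origin/helper751:docs/R210_HS.md`.

Idea.  `hs_Step Q P s`: `P` is a linear contraction, commutes with the generator, `‖P f - f‖ ≤ s ‖A f‖`,
`‖P f - f - s A f‖ ≤ s² ‖A² f‖`.  Steps are stable under products (`s` adds up).  `J_δ` is a step of size `δ`.
Two commuting steps `P, R` of the same size `s` satisfy `‖Pⁿ f - Rⁿ f‖ ≤ n ‖P f - R f‖ ≤ 2 n s² ‖A² f‖`.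
With `P = J_{t/n}`, `R = J_{t/(nm)}^m` this gives `‖J_{t/n}^n f - J_{t/(nm)}^{nm} f‖ ≤ 2 t² ‖A² f‖ / n`: the exponential
formula converges on `D(A²)`, which is dense.
-/
import Claimed.Agent.R210.HS.Gen

set_option autoImplicit false

open Set Filter
open scoped ENNReal NNReal Topology RealInnerProductSpace
open Claimed.Agent.R210.HS.Defs Claimed.Agent.R210.HS.Form Claimed.Agent.R210.HS.Prox Claimed.Agent.R210.HS.Gen

namespace Claimed.Agent.R210.HS.Step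

variable {H : Type*} [NormedAddCommGroup H] [InnerProductSpace ℝ H] {Q : H → ℝ≥0∞}

/-- `P` is a second order approximation of `1 + s A` -/
structure hs_Step (Q : H → ℝ≥0∞) (P : H →L[ℝ] H) (s : ℝ) : Prop where
  nonneg : 0 ≤ s
  norm_le : ‖P‖ ≤ 1
  gen : ∀ f w, IsGen Q f w → IsGen Q (P f) (P w)
  first : ∀ f w, IsGen Q f w → ‖P f - f‖ ≤ s * ‖w‖
  second : ∀ f w z, IsGen Q f w → IsGen Q w z → ‖P f - f - s • w‖ ≤ s ^ 2 * ‖z‖

/-- a contraction does not increase norms (`ContinuousLinearMap.le_of_opNorm_le`) -/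
theorem hs_apply_norm_le {P : H →L[ℝ] H} (hP : ‖P‖ ≤ 1) (f : H) : ‖P f‖ ≤ ‖f‖ := by
  simpa using P.le_of_opNorm_le hP f

theorem hs_pow_norm_le {P : H →L[ℝ] H} (hP : ‖P‖ ≤ 1) (n : ℕ) : ‖P ^ n‖ ≤ 1 := by
  induction n with
  | zero =>
    rw [pow_zero]
    exact ContinuousLinearMap.norm_id_le
  | succ n ih =>
    rw [pow_succ]
    calc ‖P ^ n * P‖ ≤ ‖P ^ n‖ * ‖P‖ := norm_mul_le _ _
      _ ≤ 1 * 1 := by gcongr
      _ = 1 := one_mul 1

theorem hs_step_one : hs_Step Q (1 : H →L[ℝ] H) 0 where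
  nonneg := le_rfl
  norm_le := ContinuousLinearMap.norm_id_le
  gen := fun f w h => by simpa using h
  first := fun f w _ => by simp
  second := fun f w z _ _ => by simp

/-- `P R f - f - (s+r) w = P (R f - f - r w) + (P f - f - s w) + r (P w - w)`, norms `≤ r²‖z‖ + s²‖z‖ + r s‖z‖ ≤ (s+r)²‖z‖`;
`P R f - f = P (R f - f) + (P f - f)`. -/
theorem hs_step_mul {P R : H →L[ℝ] H} {s r : ℝ} (hP : hs_Step Q P s) (hR : hs_Step Q R r) :
    hs_Step Q (P * R) (s + r) where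
  nonneg := add_nonneg hP.nonneg hR.nonneg
  norm_le := by
    calc ‖P * R‖ ≤ ‖P‖ * ‖R‖ := norm_mul_le _ _
      _ ≤ 1 * 1 := by
        have h1 := hP.norm_le
        have h2 := hR.norm_le
        gcongr
      _ = 1 := one_mul 1
  gen := fun f w h => hP.gen _ _ (hR.gen _ _ h)
  first := fun f w h => by
    have e : (P * R) f - f = P (R f - f) + (P f - f) := by
      have e0 : (P * R) f = P (R f) := rfl
      rw [e0, map_sub]
      abel
    rw [e]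
    calc ‖P (R f - f) + (P f - f)‖ ≤ ‖P (R f - f)‖ + ‖P f - f‖ := norm_add_le _ _
      _ ≤ ‖R f - f‖ + ‖P f - f‖ := by
        gcongr
        exact hs_apply_norm_le hP.norm_le _
      _ ≤ r * ‖w‖ + s * ‖w‖ := add_le_add (hR.first _ _ h) (hP.first _ _ h)
      _ = (s + r) * ‖w‖ := by ring
  second := fun f w z h h' => by
    have e : (P * R) f - f - (s + r) • w
        = P (R f - f - r • w) + (P f - f - s • w) + r • (P w - w) := by
      have e0 : (P * R) f = P (R f) := rfl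
      rw [e0]
      simp only [map_sub, map_smul, add_smul, smul_sub]
      abel
    rw [e]
    have hs := hP.nonneg
    have hr := hR.nonneg
    have hz := norm_nonneg z
    calc ‖P (R f - f - r • w) + (P f - f - s • w) + r • (P w - w)‖
        ≤ ‖P (R f - f - r • w)‖ + ‖P f - f - s • w‖ + ‖r • (P w - w)‖ := norm_add₃_le
      _ ≤ r ^ 2 * ‖z‖ + s ^ 2 * ‖z‖ + r * (s * ‖z‖) := by
        have h1 : ‖P (R f - f - r • w)‖ ≤ r ^ 2 * ‖z‖ :=
          (hs_apply_norm_le hP.norm_le _).trans (hR.second _ _ _ h h')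
        have h2 : ‖P f - f - s • w‖ ≤ s ^ 2 * ‖z‖ := hP.second _ _ _ h h'
        have h3 : ‖r • (P w - w)‖ ≤ r * (s * ‖z‖) := by
          rw [norm_smul, Real.norm_of_nonneg hr]
          exact mul_le_mul_of_nonneg_left (hP.first _ _ h') hr
        linarith
      _ ≤ (s + r) ^ 2 * ‖z‖ := by
        have : 0 ≤ r * s * ‖z‖ := by positivity
        nlinarith

/-- induction with `hs_step_one`, `hs_step_mul` (`pow_succ`) -/
theorem hs_step_pow {P : H →L[ℝ] H} {s : ℝ} (hP : hs_Step Q P s) (n : ℕ) : hs_Step Q (P ^ n) (n * s) := by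
  induction n with
  | zero =>
    have h : ((0 : ℕ) : ℝ) * s = 0 := by simp
    rw [pow_zero, h]
    exact hs_step_one
  | succ n ih =>
    have h : ((n + 1 : ℕ) : ℝ) * s = n * s + s := by push_cast; ring
    rw [pow_succ, h]
    exact hs_step_mul ih hP

/-- two steps of the same size differ by `2 s² ‖A² f‖` -/
theorem hs_step_sub_le {P R : H →L[ℝ] H} {s : ℝ} (hP : hs_Step Q P s) (hR : hs_Step Q R s) {f w z : H}
    (h : IsGen Q f w) (h' : IsGen Q w z) : ‖P f - R f‖ ≤ 2 * s ^ 2 * ‖z‖ := by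
  have h1 := hP.second f w z h h'
  have h2 := hR.second f w z h h'
  have e : P f - R f = (P f - f - s • w) - (R f - f - s • w) := by abel
  rw [e]
  calc ‖(P f - f - s • w) - (R f - f - s • w)‖ ≤ ‖P f - f - s • w‖ + ‖R f - f - s • w‖ := norm_sub_le _ _
    _ ≤ s ^ 2 * ‖z‖ + s ^ 2 * ‖z‖ := add_le_add h1 h2
    _ = 2 * s ^ 2 * ‖z‖ := by ring

/-- telescoping for commuting contractions: `P^{n+1} f - R^{n+1} f = P (Pⁿ f - Rⁿ f) + Rⁿ (P f - R f)` -/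
theorem hs_pow_sub_pow_le {P R : H →L[ℝ] H} (hP : ‖P‖ ≤ 1) (hR : ‖R‖ ≤ 1) (hc : Commute P R) (n : ℕ) (f : H) :
    ‖(P ^ n) f - (R ^ n) f‖ ≤ n * ‖P f - R f‖ := by
  induction n with
  | zero => simp
  | succ n ih =>
    have e : (P ^ (n + 1)) f - (R ^ (n + 1)) f = P ((P ^ n) f - (R ^ n) f) + (R ^ n) (P f - R f) := by
      have h1 : (P ^ (n + 1)) f = P ((P ^ n) f) := by
        rw [pow_succ']; rfl
      have h2 : (R ^ (n + 1)) f = (R ^ n) (R f) := by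
        rw [pow_succ]; rfl
      have h3 : P ((R ^ n) f) = (R ^ n) (P f) := by
        have := (hc.pow_right n).eq
        exact congrArg (fun T : H →L[ℝ] H => T f) this
      rw [h1, h2, map_sub, map_sub, h3]
      abel
    rw [e]
    calc ‖P ((P ^ n) f - (R ^ n) f) + (R ^ n) (P f - R f)‖
        ≤ ‖P ((P ^ n) f - (R ^ n) f)‖ + ‖(R ^ n) (P f - R f)‖ := norm_add_le _ _
      _ ≤ ‖(P ^ n) f - (R ^ n) f‖ + ‖P f - R f‖ :=
          add_le_add (hs_apply_norm_le hP _) (hs_apply_norm_le (hs_pow_norm_le hR n) _)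
      _ ≤ n * ‖P f - R f‖ + ‖P f - R f‖ := by linarith
      _ = ((n + 1 : ℕ) : ℝ) * ‖P f - R f‖ := by push_cast; ring

theorem hs_step_pow_sub_le {P R : H →L[ℝ] H} {s : ℝ} (hP : hs_Step Q P s) (hR : hs_Step Q R s) (hc : Commute P R)
    (n : ℕ) {f w z : H} (h : IsGen Q f w) (h' : IsGen Q w z) :
    ‖(P ^ n) f - (R ^ n) f‖ ≤ 2 * n * s ^ 2 * ‖z‖ := by
  have h1 := hs_pow_sub_pow_le hP.norm_le hR.norm_le hc n f
  have h2 := hs_step_sub_le hP hR h h'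
  calc ‖(P ^ n) f - (R ^ n) f‖ ≤ n * ‖P f - R f‖ := h1
    _ ≤ n * (2 * s ^ 2 * ‖z‖) := mul_le_mul_of_nonneg_left h2 (Nat.cast_nonneg n)
    _ = 2 * n * s ^ 2 * ‖z‖ := by ring

variable [CompleteSpace H]

/-- `hs_proxL_norm_le`, `hs_isGen_prox`, `hs_prox_sub_self_norm_le`, `hs_prox_second_order` -/
theorem hs_step_prox (hQ : QForm Q) {δ : ℝ} (hδ : 0 < δ) : hs_Step Q (hs_proxL hQ hδ) δ where
  nonneg := hδ.le
  norm_le := hs_proxL_norm_le hQ hδ
  gen := fun _ _ h => hs_isGen_prox hQ hδ h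
  first := fun _ _ h => hs_prox_sub_self_norm_le hQ hδ h
  second := fun _ _ _ h h' => hs_prox_second_order hQ hδ h h'

/-- the `n`-th approximation of the exponential formula, as an operator: `E t n = J_{t/(n+1)}^{n+1}` -/
noncomputable def hs_E (hQ : QForm Q) {t : ℝ} (ht : 0 < t) (n : ℕ) : H →L[ℝ] H :=
  hs_proxL hQ (δ := t / (n + 1)) (by positivity) ^ (n + 1)

theorem hs_proxL_congr (hQ : QForm Q) {δ ε : ℝ} (hδ : 0 < δ) (hε : 0 < ε) (h : δ = ε) :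
    hs_proxL hQ hδ = hs_proxL hQ hε := by
  subst h; rfl

omit [CompleteSpace H] in
theorem hs_step_congr {P : H →L[ℝ] H} {s r : ℝ} (hP : hs_Step Q P s) (h : s = r) : hs_Step Q P r := h ▸ hP

theorem hs_E_apply (hQ : QForm Q) {t : ℝ} (ht : 0 < t) (n : ℕ) (f : H) :
    hs_E hQ ht n f = (prox Q (t / (n + 1)))^[n + 1] f := by
  unfold hs_E
  exact hs_proxL_pow_apply hQ _ (n + 1) f

theorem hs_E_step (hQ : QForm Q) {t : ℝ} (ht : 0 < t) (n : ℕ) : hs_Step Q (hs_E hQ ht n) t := by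
  unfold hs_E
  have h := hs_step_pow (hs_step_prox hQ (δ := t / (n + 1)) (by positivity)) (n + 1)
  refine hs_step_congr h ?_
  push_cast
  field_simp

/-- all operators `hs_E` and `hs_proxL` commute (`hs_proxL_commute`, `Commute.pow_pow`, `Commute.pow_left`) -/
theorem hs_E_commute (hQ : QForm Q) {s t : ℝ} (hs : 0 < s) (ht : 0 < t) (n k : ℕ) :
    Commute (hs_E hQ hs n) (hs_E hQ ht k) := by
  unfold hs_E
  exact (hs_proxL_commute hQ _ _).pow_pow _ _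

theorem hs_E_commute_prox (hQ : QForm Q) {t δ : ℝ} (ht : 0 < t) (hδ : 0 < δ) (n : ℕ) :
    Commute (hs_E hQ ht n) (hs_proxL hQ hδ) := by
  unfold hs_E
  exact (hs_proxL_commute hQ _ _).pow_left _

/-- refinement: with `N = (n+1)(k+1)`, `P = J_{t/(n+1)}`, `R = J_{t/N}^{k+1}` are commuting steps of size `t/(n+1)`,
`P^{n+1} = E t n`, `R^{n+1} = E t (N-1)`; `hs_step_pow_sub_le`. -/
theorem hs_E_refine (hQ : QForm Q) {t : ℝ} (ht : 0 < t) (n k : ℕ) {f w z : H} (h : IsGen Q f w) (h' : IsGen Q w z) :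
    ‖hs_E hQ ht n f - hs_E hQ ht ((n + 1) * (k + 1) - 1) f‖ ≤ 2 * t ^ 2 * ‖z‖ / (n + 1) := by
  have hn : (0 : ℝ) < (n : ℝ) + 1 := by positivity
  have hk : (0 : ℝ) < (k : ℝ) + 1 := by positivity
  have hδ1 : 0 < t / ((n : ℝ) + 1) := by positivity
  have hδ2 : 0 < t / (((n : ℝ) + 1) * ((k : ℝ) + 1)) := by positivity
  set P := hs_proxL hQ hδ1 with hPdef
  set R := hs_proxL hQ hδ2 ^ (k + 1) with hRdef
  have hP : hs_Step Q P (t / ((n : ℝ) + 1)) := hs_step_prox hQ hδ1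
  have hR : hs_Step Q R (t / ((n : ℝ) + 1)) := by
    refine hs_step_congr (hs_step_pow (hs_step_prox hQ hδ2) (k + 1)) ?_
    push_cast
    field_simp
  have hc : Commute P R := (hs_proxL_commute hQ hδ1 hδ2).pow_right _
  have hmain := hs_step_pow_sub_le hP hR hc (n + 1) h h'
  have hN : (n + 1) * (k + 1) - 1 + 1 = (n + 1) * (k + 1) := by
    have : 0 < (n + 1) * (k + 1) := by positivity
    omega
  have hE2 : hs_E hQ ht ((n + 1) * (k + 1) - 1) = R ^ (n + 1) := by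
    unfold hs_E
    rw [hRdef, ← pow_mul, hN, mul_comm (k + 1) (n + 1)]
    congr 1
    apply hs_proxL_congr
    have : (((n + 1) * (k + 1) - 1 : ℕ) : ℝ) + 1 = ((n : ℝ) + 1) * ((k : ℝ) + 1) := by
      have h2 : (((n + 1) * (k + 1) - 1 + 1 : ℕ) : ℝ) = (((n + 1) * (k + 1) : ℕ) : ℝ) := by rw [hN]
      push_cast at h2 ⊢
      linarith
    rw [this]
  have hE1 : hs_E hQ ht n = P ^ (n + 1) := rfl
  rw [hE1, hE2]
  refine hmain.trans (le_of_eq ?_)
  push_cast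
  field_simp

/-- `hs_E_refine n k` and `hs_E_refine k n` (`(n+1)(k+1) = (k+1)(n+1)`) -/
theorem hs_E_sub_le (hQ : QForm Q) {t : ℝ} (ht : 0 < t) (n k : ℕ) {f w z : H} (h : IsGen Q f w) (h' : IsGen Q w z) :
    ‖hs_E hQ ht n f - hs_E hQ ht k f‖ ≤ 2 * t ^ 2 * ‖z‖ * (1 / (n + 1) + 1 / (k + 1)) := by
  have h1 := hs_E_refine hQ ht n k h h'
  have h2 := hs_E_refine hQ ht k n h h'
  rw [mul_comm (k + 1) (n + 1)] at h2
  calc ‖hs_E hQ ht n f - hs_E hQ ht k f‖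
      ≤ ‖hs_E hQ ht n f - hs_E hQ ht ((n + 1) * (k + 1) - 1) f‖
        + ‖hs_E hQ ht k f - hs_E hQ ht ((n + 1) * (k + 1) - 1) f‖ := by
        rw [norm_sub_rev (hs_E hQ ht k f)]
        exact norm_sub_le_norm_sub_add_norm_sub _ _ _
    _ ≤ 2 * t ^ 2 * ‖z‖ / (n + 1) + 2 * t ^ 2 * ‖z‖ / (k + 1) := add_le_add h1 h2
    _ = 2 * t ^ 2 * ‖z‖ * (1 / (n + 1) + 1 / (k + 1)) := by ring

/-- Cauchy on `D(A²)` by `hs_E_sub_le`; in general `ε/3` with `hs_exists_gen2_near` and `‖E t n‖ ≤ 1` -/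
theorem hs_E_cauchy (hQ : QForm Q) {t : ℝ} (ht : 0 < t) (f : H) : CauchySeq (fun n => hs_E hQ ht n f) := by
  rw [Metric.cauchySeq_iff]
  intro ε hε
  obtain ⟨g, w, z, hgw, hwz, hgf⟩ := hs_exists_gen2_near hQ f (ε := ε / 4) (by positivity)
  set C := 2 * t ^ 2 * ‖z‖ with hC
  have hC0 : 0 ≤ C := by positivity
  obtain ⟨N, hN⟩ := exists_nat_gt (4 * C / ε)
  refine ⟨N, fun n hn k hk => ?_⟩
  have hcontr : ∀ m, ‖hs_E hQ ht m f - hs_E hQ ht m g‖ ≤ ‖g - f‖ := by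
    intro m
    rw [← map_sub, norm_sub_rev g f]
    exact hs_apply_norm_le (hs_E_step hQ ht m).norm_le _
  have hsmall : ∀ m, N ≤ m → C * (1 / ((m : ℝ) + 1)) ≤ ε / 4 := by
    intro m hm
    have hm' : (N : ℝ) ≤ m := by exact_mod_cast hm
    have hpos : (0 : ℝ) < (m : ℝ) + 1 := by positivity
    rw [mul_one_div, div_le_iff₀ hpos]
    have h1 : 4 * C / ε < (m : ℝ) + 1 := by linarith
    rw [div_lt_iff₀ hε] at h1
    linarith
  have h1 := hs_E_sub_le hQ ht n k hgw hwz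
  rw [← hC, mul_add] at h1
  have h2 := hsmall n hn
  have h3 := hsmall k hk
  rw [dist_eq_norm]
  have e : hs_E hQ ht n f - hs_E hQ ht k f = (hs_E hQ ht n f - hs_E hQ ht n g) + (hs_E hQ ht n g - hs_E hQ ht k g)
      - (hs_E hQ ht k f - hs_E hQ ht k g) := by abel
  rw [e]
  calc _ ≤ ‖(hs_E hQ ht n f - hs_E hQ ht n g) + (hs_E hQ ht n g - hs_E hQ ht k g)‖
          + ‖hs_E hQ ht k f - hs_E hQ ht k g‖ := norm_sub_le _ _
    _ ≤ ‖hs_E hQ ht n f - hs_E hQ ht n g‖ + ‖hs_E hQ ht n g - hs_E hQ ht k g‖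
          + ‖hs_E hQ ht k f - hs_E hQ ht k g‖ := by
        gcongr
        exact norm_add_le _ _
    _ < ε := by
        have := hcontr n
        have := hcontr k
        linarith

/-- product of two approximations versus the approximation for `s + t`:
`P = J_{s/(n+1)} J_{t/(n+1)}` and `R = J_{(s+t)/(n+1)}` are commuting steps of size `(s+t)/(n+1)`;
`P^{n+1} = E s n * E t n` (`Commute.mul_pow`). -/
theorem hs_E_mul_sub_le (hQ : QForm Q) {s t : ℝ} (hs : 0 < s) (ht : 0 < t) (n : ℕ) {f w z : H}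
    (h : IsGen Q f w) (h' : IsGen Q w z) :
    ‖hs_E hQ hs n (hs_E hQ ht n f) - hs_E hQ (add_pos hs ht) n f‖ ≤ 2 * (s + t) ^ 2 * ‖z‖ / (n + 1) := by
  have hn : (0 : ℝ) < (n : ℝ) + 1 := by positivity
  have hδs : 0 < s / ((n : ℝ) + 1) := by positivity
  have hδt : 0 < t / ((n : ℝ) + 1) := by positivity
  have hδ : 0 < (s + t) / ((n : ℝ) + 1) := by positivity
  set P := hs_proxL hQ hδs * hs_proxL hQ hδt with hPdef
  set R := hs_proxL hQ hδ with hRdef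
  have hP : hs_Step Q P ((s + t) / ((n : ℝ) + 1)) := by
    refine hs_step_congr (hs_step_mul (hs_step_prox hQ hδs) (hs_step_prox hQ hδt)) ?_
    ring
  have hR : hs_Step Q R ((s + t) / ((n : ℝ) + 1)) := hs_step_prox hQ hδ
  have hc : Commute P R := (hs_proxL_commute hQ hδs hδ).mul_left (hs_proxL_commute hQ hδt hδ)
  have hmain := hs_step_pow_sub_le hP hR hc (n + 1) h h'
  have hE : (P ^ (n + 1)) f = hs_E hQ hs n (hs_E hQ ht n f) := by
    rw [hPdef, (hs_proxL_commute hQ hδs hδt).mul_pow]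
    rfl
  have hE2 : (R ^ (n + 1)) f = hs_E hQ (add_pos hs ht) n f := rfl
  rw [← hE, ← hE2]
  refine hmain.trans (le_of_eq ?_)
  push_cast
  field_simp

/-! ### discrete regularisation -/

/-- one step of the scheme, norm part: `‖J g‖²/2 + 2 δ q (J g) + ‖J g - g‖²/2 = ‖g‖²/2` -/
theorem hs_disc_norm_step (hQ : QForm Q) {δ : ℝ} (hδ : 0 < δ) (g : H) :
    ‖prox Q δ g‖ ^ 2 / 2 + 2 * δ * (Q (prox Q δ g)).toReal + ‖prox Q δ g - g‖ ^ 2 / 2 = ‖g‖ ^ 2 / 2 := by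
  have h1 := hs_prox_energy hQ hδ g
  rw [hs_bil_self hQ] at h1
  have h2 : ‖prox Q δ g - g‖ ^ 2 = ‖prox Q δ g‖ ^ 2 - 2 * ⟪prox Q δ g, g⟫ + ‖g‖ ^ 2 := norm_sub_sq_real _ _
  have h3 : ⟪prox Q δ g, g⟫ = ⟪g, prox Q δ g⟫ := real_inner_comm _ _
  rw [h2, h3, ← h1]
  ring

/-- one step of the scheme, energy part: `q g - q (J g) ≥ ‖J g - g‖²/δ` -/
theorem hs_disc_energy_step (hQ : QForm Q) {δ : ℝ} (hδ : 0 < δ) {g : H} (hg : Q g < ∞) :
    (Q (prox Q δ g)).toReal + δ⁻¹ * ‖prox Q δ g - g‖ ^ 2 ≤ (Q g).toReal := by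
  have hJ := hs_prox_dom hQ hδ g
  have h1 := hs_toReal_ge hQ hJ hg
  have h2 := (hs_prox_isGen hQ hδ g).2 (g - prox Q δ g) (hs_dom_sub hQ hg hJ)
  rw [h2] at h1
  have h3 : - ⟪δ⁻¹ • (prox Q δ g - g), g - prox Q δ g⟫ = δ⁻¹ * ‖prox Q δ g - g‖ ^ 2 := by
    rw [real_inner_smul_left, ← neg_sub (prox Q δ g) g, inner_neg_right, real_inner_self_eq_norm_sq]
    ring
  rw [h3] at h1
  exact h1

/-- Lyapunov functional of the implicit Euler scheme.  `u k = J^k f`, `e k = u (k+1) - u k` (`= δ A u (k+1)`).  Induction on `k`: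
* `‖u(k+1)‖²/2 - ‖u k‖²/2 = ⟪e k, u(k+1)⟫ - ‖e k‖²/2 = - 2 δ q(u(k+1)) - ‖e k‖²/2`   (`hs_prox_isGen`, `hs_bil_self`);
* `q(u k) - q(u(k+1)) ≥ b(u(k+1), u k - u(k+1)) = ‖e k‖²/δ` for `k ≥ 1`   (`hs_toReal_ge`);
* `‖e (k+1)‖ ≤ ‖e k‖`   (`e (k+1) = J (e k)`);
* coefficients `c k = k² - k/2`: `c (k+1) - c k = 2k + 1/2`. -/
theorem hs_disc_energy (hQ : QForm Q) {δ : ℝ} (hδ : 0 < δ) (f : H) (k : ℕ) :
    ‖(prox Q δ)^[k + 1] f‖ ^ 2 / 2 + 2 * (k + 1) * δ * (Q ((prox Q δ)^[k + 1] f)).toReal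
      + (((k : ℝ) + 1) ^ 2 - ((k : ℝ) + 1) / 2) * ‖(prox Q δ)^[k + 1] f - (prox Q δ)^[k] f‖ ^ 2 ≤ ‖f‖ ^ 2 / 2 := by
  induction k with
  | zero =>
    have h := hs_disc_norm_step hQ hδ f
    simp only [Function.iterate_succ, Function.iterate_zero, Function.comp, id, Nat.cast_zero, zero_add]
    nlinarith [h]
  | succ k ih =>
    set a := (prox Q δ)^[k] f with ha
    have e1 : (prox Q δ)^[k + 1] f = prox Q δ a := by
      rw [Function.iterate_succ_apply']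
    have e2 : (prox Q δ)^[k + 1 + 1] f = prox Q δ (prox Q δ a) := by
      rw [Function.iterate_succ_apply', e1]
    rw [e1] at ih
    rw [e2, e1]
    set u := prox Q δ a with hu
    set v := prox Q δ u with hv
    have hudom : Q u < ∞ := hs_prox_dom hQ hδ a
    have s1 := hs_disc_norm_step hQ hδ u
    have s2 := hs_disc_energy_step hQ hδ hudom
    have s3 : ‖v - u‖ ≤ ‖u - a‖ := by
      have : v - u = prox Q δ (u - a) := by rw [hs_prox_sub hQ hδ]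
      rw [this]
      exact hs_prox_norm_le hQ hδ _
    have s3' : ‖v - u‖ ^ 2 ≤ ‖u - a‖ ^ 2 := by
      have := norm_nonneg (v - u)
      nlinarith
    rw [← hv] at s1 s2
    have s2' : δ * (Q v).toReal + ‖v - u‖ ^ 2 ≤ δ * (Q u).toReal := by
      have := mul_le_mul_of_nonneg_left s2 hδ.le
      have h4 : δ * (δ⁻¹ * ‖v - u‖ ^ 2) = ‖v - u‖ ^ 2 := by
        field_simp
      rw [mul_add, h4] at this
      exact this
    have hk : (0 : ℝ) ≤ k := Nat.cast_nonneg k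
    have hc : 0 ≤ ((k : ℝ) + 1) ^ 2 - ((k : ℝ) + 1) / 2 := by nlinarith
    have s4 := mul_le_mul_of_nonneg_left s3' hc
    have s5 := mul_le_mul_of_nonneg_left s2' (by positivity : (0 : ℝ) ≤ 2 * ((k : ℝ) + 1))
    push_cast
    nlinarith [s1, s4, s5, ih]

/-- `q (E t n f) ≤ ‖f‖² / (4 t)` -/
theorem hs_E_toReal_le (hQ : QForm Q) {t : ℝ} (ht : 0 < t) (n : ℕ) (f : H) :
    (Q (hs_E hQ ht n f)).toReal ≤ ‖f‖ ^ 2 / (4 * t) := by
  have hn : (0 : ℝ) < (n : ℝ) + 1 := by positivity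
  have hδ : 0 < t / ((n : ℝ) + 1) := by positivity
  have h := hs_disc_energy hQ hδ f n
  rw [hs_E_apply]
  set u := (prox Q (t / ((n : ℝ) + 1)))^[n + 1] f with hu
  have e : 2 * ((n : ℝ) + 1) * (t / ((n : ℝ) + 1)) = 2 * t := by field_simp
  rw [e] at h
  have hc : 0 ≤ ((n : ℝ) + 1) ^ 2 - ((n : ℝ) + 1) / 2 := by
    have : (0 : ℝ) ≤ n := Nat.cast_nonneg n
    nlinarith
  have h1 : 0 ≤ (((n : ℝ) + 1) ^ 2 - ((n : ℝ) + 1) / 2) * ‖u - (prox Q (t / ((n : ℝ) + 1)))^[n] f‖ ^ 2 := by positivity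
  have h2 : 0 ≤ ‖u‖ ^ 2 / 2 := by positivity
  rw [le_div_iff₀ (by positivity)]
  linarith

theorem hs_iterate_succ_sub (hQ : QForm Q) {δ : ℝ} (hδ : 0 < δ) (n : ℕ) {f w : H} (h : IsGen Q f w) :
    (prox Q δ)^[n + 1] f - (prox Q δ)^[n] f = δ • (prox Q δ)^[n + 1] w := by
  rw [Function.iterate_succ_apply', Function.iterate_succ_apply']
  exact hs_prox_sub_self hQ hδ (hs_isGen_iterate hQ hδ n h)

/-- `‖E t n (A f)‖ ≤ ‖f‖ / t`: `u(k+1) - u k = δ J^{k+1} w` (`hs_prox_sub_self`, `hs_isGen_iterate`), `c (n+1) ≥ (n+1)²/2` -/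
theorem hs_E_gen_norm_le (hQ : QForm Q) {t : ℝ} (ht : 0 < t) (n : ℕ) {f w : H} (h : IsGen Q f w) :
    ‖hs_E hQ ht n w‖ ≤ ‖f‖ / t := by
  have hn : (0 : ℝ) < (n : ℝ) + 1 := by positivity
  have hδ : 0 < t / ((n : ℝ) + 1) := by positivity
  have h0 := hs_disc_energy hQ hδ f n
  rw [hs_iterate_succ_sub hQ hδ n h, norm_smul, Real.norm_eq_abs, abs_of_pos hδ] at h0
  rw [hs_E_apply]
  set y := ‖(prox Q (t / ((n : ℝ) + 1)))^[n + 1] w‖ with hy
  have hy0 : 0 ≤ y := norm_nonneg _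
  have h1 : 0 ≤ ‖(prox Q (t / ((n : ℝ) + 1)))^[n + 1] f‖ ^ 2 / 2 := by positivity
  have h2 : 0 ≤ 2 * ((n : ℝ) + 1) * (t / ((n : ℝ) + 1)) * (Q ((prox Q (t / ((n : ℝ) + 1)))^[n + 1] f)).toReal := by
    positivity
  have hc : ((n : ℝ) + 1) ^ 2 / 2 ≤ ((n : ℝ) + 1) ^ 2 - ((n : ℝ) + 1) / 2 := by
    have : (0 : ℝ) ≤ n := Nat.cast_nonneg n
    nlinarith
  have h3 : ((n : ℝ) + 1) ^ 2 / 2 * (t / ((n : ℝ) + 1) * y) ^ 2
      ≤ (((n : ℝ) + 1) ^ 2 - ((n : ℝ) + 1) / 2) * (t / ((n : ℝ) + 1) * y) ^ 2 :=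
    mul_le_mul_of_nonneg_right hc (by positivity)
  have e : ((n : ℝ) + 1) ^ 2 / 2 * (t / ((n : ℝ) + 1) * y) ^ 2 = (t * y) ^ 2 / 2 := by
    field_simp
  rw [e] at h3
  have h4 : (t * y) ^ 2 ≤ ‖f‖ ^ 2 := by linarith
  have h5 : t * y ≤ ‖f‖ :=
    (pow_le_pow_iff_left₀ (by positivity) (norm_nonneg f) two_ne_zero).mp h4
  rw [le_div_iff₀ ht]
  linarith

theorem hs_Q_iterate_le (hQ : QForm Q) {δ : ℝ} (hδ : 0 < δ) (n : ℕ) (f : H) : Q ((prox Q δ)^[n] f) ≤ Q f := by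
  induction n with
  | zero => simp
  | succ n ih =>
    rw [Function.iterate_succ_apply']
    exact (hs_Q_prox_le hQ hδ _).trans ih

theorem hs_dom_iterate (hQ : QForm Q) {δ : ℝ} (hδ : 0 < δ) (n : ℕ) {f : H} (hf : Q f < ∞) :
    Q ((prox Q δ)^[n] f) < ∞ :=
  (hs_Q_iterate_le hQ hδ n f).trans_lt hf

/-- `b (J^i f) (J^j g) = b (J^(i+j) f) g` on the domain (`hs_bil_prox_symm`) -/
theorem hs_bil_iterate (hQ : QForm Q) {δ : ℝ} (hδ : 0 < δ) (i j : ℕ) {f g : H} (hf : Q f < ∞) (hg : Q g < ∞) :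
    bil Q ((prox Q δ)^[i] f) ((prox Q δ)^[j] g) = bil Q ((prox Q δ)^[i + j] f) g := by
  induction j generalizing i with
  | zero => simp
  | succ j ih =>
    rw [Function.iterate_succ_apply',
      ← hs_bil_prox_symm hQ hδ (hs_dom_iterate hQ hδ i hf) (hs_dom_iterate hQ hδ j hg),
      ← Function.iterate_succ_apply' (prox Q δ) i f, ih (i + 1)]
    congr 2
    omega

/-- `c m = b (J^m f) f` is nonincreasing: for `m = 2i`, `g = J^i f`: `c m - c (m+1) = b g g - b (J g) g ≥ 0` (`hs_bil_prox_left`, `hs_yosida_le`);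
for `m = 2i+1`: `c m - c (m+1) = b (J g) g - b (J g) (J g) ≥ 0` (`hs_bil_prox_self`). -/
theorem hs_bil_iterate_anti (hQ : QForm Q) {δ : ℝ} (hδ : 0 < δ) {f : H} (hf : Q f < ∞) :
    Antitone (fun m : ℕ => bil Q ((prox Q δ)^[m] f) f) := by
  apply antitone_nat_of_succ_le
  intro m
  rcases Nat.even_or_odd' m with ⟨i, hi | hi⟩
  · -- m = 2 i
    set g := (prox Q δ)^[i] f with hg
    have hgd : Q g < ∞ := hs_dom_iterate hQ hδ i hf
    have e1 : bil Q ((prox Q δ)^[m] f) f = bil Q g g := by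
      have := hs_bil_iterate hQ hδ i i hf hf
      rw [this, hi]
      congr 2
      omega
    have e2 : bil Q ((prox Q δ)^[m + 1] f) f = bil Q (prox Q δ g) g := by
      have := hs_bil_iterate hQ hδ (i + 1) i hf hf
      rw [Function.iterate_succ_apply'] at this
      rw [this, hi]
      congr 2
      omega
    rw [e1, e2, hs_bil_prox_left hQ hδ g hgd]
    exact hs_yosida_le hQ hδ hgd
  · -- m = 2 i + 1
    set g := (prox Q δ)^[i] f with hg
    have hgd : Q g < ∞ := hs_dom_iterate hQ hδ i hf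
    have e1 : bil Q ((prox Q δ)^[m] f) f = bil Q (prox Q δ g) g := by
      have := hs_bil_iterate hQ hδ (i + 1) i hf hf
      rw [Function.iterate_succ_apply'] at this
      rw [this, hi]
      congr 2
      omega
    have e2 : bil Q ((prox Q δ)^[m + 1] f) f = bil Q (prox Q δ g) (prox Q δ g) := by
      have := hs_bil_iterate hQ hδ (i + 1) (i + 1) hf hf
      rw [Function.iterate_succ_apply'] at this
      rw [this, hi]
      congr 2
      omega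
    rw [e1, e2, hs_bil_prox_self hQ hδ hgd]
    have : 0 ≤ δ⁻¹ * ‖g - prox Q δ g‖ ^ 2 := by positivity
    linarith

/-- `q (J^k f - f) = q (J^k f) + q f - c k ≤ q f - q (J^k f)` since `c k ≥ c (2k) = 2 q (J^k f)` -/
theorem hs_toReal_iterate_sub_le (hQ : QForm Q) {δ : ℝ} (hδ : 0 < δ) (k : ℕ) {f : H} (hf : Q f < ∞) :
    (Q ((prox Q δ)^[k] f - f)).toReal ≤ (Q f).toReal - (Q ((prox Q δ)^[k] f)).toReal := by
  have hk := hs_dom_iterate hQ hδ k hf
  rw [hs_toReal_sub hQ hk hf]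
  have h1 : bil Q ((prox Q δ)^[k + k] f) f ≤ bil Q ((prox Q δ)^[k] f) f :=
    hs_bil_iterate_anti hQ hδ hf (Nat.le_add_right k k)
  rw [← hs_bil_iterate hQ hδ k k hf hf, hs_bil_self hQ] at h1
  linarith

theorem hs_iterate_sub_eq_sum (hQ : QForm Q) {δ : ℝ} (hδ : 0 < δ) (n : ℕ) {f w : H} (h : IsGen Q f w) :
    (prox Q δ)^[n] f - f = δ • ∑ k ∈ Finset.range n, (prox Q δ)^[k + 1] w := by
  induction n with
  | zero => simp
  | succ n ih =>
    rw [Finset.sum_range_succ, smul_add, ← ih, ← hs_iterate_succ_sub hQ hδ n h]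
    abel

theorem hs_toReal_iterate_anti (hQ : QForm Q) {δ : ℝ} (hδ : 0 < δ) {f : H} (hf : Q f < ∞) {k n : ℕ} (hkn : k ≤ n) :
    (Q ((prox Q δ)^[n] f)).toReal ≤ (Q ((prox Q δ)^[k] f)).toReal := by
  obtain ⟨m, rfl⟩ := Nat.exists_eq_add_of_le hkn
  rw [add_comm k m, Function.iterate_add_apply]
  exact ENNReal.toReal_mono (hs_dom_iterate hQ hδ k hf).ne (hs_Q_iterate_le hQ hδ m _)

/-- difference quotient.  `J^n f - f = δ ∑_{k=1}^n J^k w`, so `(nδ)⁻¹ (J^n f - f) - w = n⁻¹ ∑_{k=1}^n (J^k w - w)`;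
`hs_sqrt_sum_le`, `hs_toReal_iterate_sub_le`, `q (J^k w) ≥ q (J^n w)` for `k ≤ n`. -/
theorem hs_toReal_quot_le (hQ : QForm Q) {δ : ℝ} (hδ : 0 < δ) (n : ℕ) {f w : H} (h : IsGen Q f w) (hw : Q w < ∞) :
    (Q ((((n : ℝ) + 1) * δ)⁻¹ • ((prox Q δ)^[n + 1] f - f) - w)).toReal
      ≤ (Q w).toReal - (Q ((prox Q δ)^[n + 1] w)).toReal := by
  have hn : (0 : ℝ) < (n : ℝ) + 1 := by positivity
  set J := prox Q δ with hJ
  set B := (Q w).toReal - (Q (J^[n + 1] w)).toReal with hB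
  have hterm : ∀ k ∈ Finset.range (n + 1), Q (J^[k + 1] w - w) < ∞ := fun k _ =>
    hs_dom_sub hQ (hs_dom_iterate hQ hδ (k + 1) hw) hw
  have e : (((n : ℝ) + 1) * δ)⁻¹ • (J^[n + 1] f - f) - w
      = ((n : ℝ) + 1)⁻¹ • ∑ k ∈ Finset.range (n + 1), (J^[k + 1] w - w) := by
    rw [hs_iterate_sub_eq_sum hQ hδ (n + 1) h, Finset.sum_sub_distrib, Finset.sum_const, Finset.card_range,
      smul_sub, smul_smul, ← Nat.cast_smul_eq_nsmul ℝ, smul_smul]
    have e1 : (((n : ℝ) + 1) * δ)⁻¹ * δ = ((n : ℝ) + 1)⁻¹ := by field_simp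
    have e2 : ((n : ℝ) + 1)⁻¹ * ((n + 1 : ℕ) : ℝ) = 1 := by push_cast; field_simp
    rw [e1, e2, one_smul]
  rw [e, hs_toReal_smul hQ]
  have hB0 : 0 ≤ B := by
    have := hs_toReal_iterate_sub_le hQ hδ (n + 1) hw
    exact le_trans ENNReal.toReal_nonneg this
  have h1 : Real.sqrt (Q (∑ k ∈ Finset.range (n + 1), (J^[k + 1] w - w))).toReal ≤ ((n : ℝ) + 1) * Real.sqrt B := by
    refine (hs_sqrt_sum_le hQ _ _ hterm).trans ?_
    have : ∀ k ∈ Finset.range (n + 1), Real.sqrt (Q (J^[k + 1] w - w)).toReal ≤ Real.sqrt B := by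
      intro k hk
      apply Real.sqrt_le_sqrt
      have h2 := hs_toReal_iterate_sub_le hQ hδ (k + 1) hw
      have h3 := hs_toReal_iterate_anti hQ hδ hw (k := k + 1) (n := n + 1)
        (by have := Finset.mem_range.mp hk; omega)
      linarith
    refine (Finset.sum_le_sum this).trans (le_of_eq ?_)
    rw [Finset.sum_const, Finset.card_range, nsmul_eq_mul]
    push_cast
    ring
  set T := (Q (∑ k ∈ Finset.range (n + 1), (J^[k + 1] w - w))).toReal with hT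
  have hT0 : 0 ≤ T := ENNReal.toReal_nonneg
  have h2 : T ≤ ((n : ℝ) + 1) ^ 2 * B := by
    have h3 : Real.sqrt T ^ 2 ≤ (((n : ℝ) + 1) * Real.sqrt B) ^ 2 :=
      pow_le_pow_left₀ (Real.sqrt_nonneg _) h1 2
    rw [Real.sq_sqrt hT0, mul_pow, Real.sq_sqrt hB0] at h3
    exact h3
  calc (((n : ℝ) + 1)⁻¹) ^ 2 * T ≤ (((n : ℝ) + 1)⁻¹) ^ 2 * (((n : ℝ) + 1) ^ 2 * B) :=
        mul_le_mul_of_nonneg_left h2 (by positivity)
    _ = B := by field_simp

end Claimed.Agent.R210.HS.Step
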