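/-
Row 210, layer HS, file 5 (HS3, HS5): the semigroup `flow Q t` (exponential formula), algebraic and continuity properties.
Architect: helper751.  Paper proofs: `git show origin/helper751:docs/R210_HS.md`.

Notation: `S t = flow Q t`, `E t n = hs_E hQ ht n = J_{t/(n+1)}^{n+1}`, `E t n f → S t f`.
-/
import Claimed.Agent.R210.HS.Step

set_option autoImplicit false

open Set Filter
open scoped ENNReal NNReal Topology RealInnerProductSpace
open Claimed.Agent.R210.HS.Defs Claimed.Agent.R210.HS.Form Claimed.Agent.R210.HS.Prox Claimed.Agent.R210.HS.Gen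
  Claimed.Agent.R210.HS.Step

namespace Claimed.Agent.R210.HS.Flow

variable {H : Type*} [NormedAddCommGroup H] [InnerProductSpace ℝ H] {Q : H → ℝ≥0∞}

theorem hs_flow_of_nonpos {t : ℝ} (ht : t ≤ 0) (f : H) : flow Q t f = f := by
  unfold flow
  rw [if_pos ht]

theorem hs_flow_zero (f : H) : flow Q 0 f = f := hs_flow_of_nonpos le_rfl f

variable [CompleteSpace H]

/-- the exponential formula converges (`hs_E_cauchy`, `cauchySeq_tendsto_of_complete`, `Tendsto.limUnder_eq`, `hs_E_apply`) -/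
theorem hs_flow_tendsto (hQ : QForm Q) {t : ℝ} (ht : 0 < t) (f : H) :
    Tendsto (fun n : ℕ => (prox Q (t / (n + 1)))^[n + 1] f) atTop (𝓝 (flow Q t f)) := by
  obtain ⟨x, hx⟩ := cauchySeq_tendsto_of_complete (hs_E_cauchy hQ ht f)
  have hx' : Tendsto (fun n : ℕ => (prox Q (t / (n + 1)))^[n + 1] f) atTop (𝓝 x) := by
    refine hx.congr (fun n => ?_)
    exact hs_E_apply hQ ht n f
  have e : flow Q t f = x := by
    unfold flow
    rw [if_neg (not_le.mpr ht)]
    exact hx'.limUnder_eq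
  rw [e]
  exact hx'

theorem hs_E_tendsto (hQ : QForm Q) {t : ℝ} (ht : 0 < t) (f : H) :
    Tendsto (fun n : ℕ => hs_E hQ ht n f) atTop (𝓝 (flow Q t f)) := by
  refine (hs_flow_tendsto hQ ht f).congr (fun n => ?_)
  exact (hs_E_apply hQ ht n f).symm

/-- if `g n → g` then `E t n (g n) → S t g` (contractions) -/
theorem hs_E_tendsto_seq (hQ : QForm Q) {t : ℝ} (ht : 0 < t) {g : ℕ → H} {g₀ : H} (hg : Tendsto g atTop (𝓝 g₀)) :
    Tendsto (fun n : ℕ => hs_E hQ ht n (g n)) atTop (𝓝 (flow Q t g₀)) := by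
  have h1 := hs_E_tendsto hQ ht g₀
  have h2 : Tendsto (fun n : ℕ => hs_E hQ ht n (g n) - hs_E hQ ht n g₀) atTop (𝓝 0) := by
    rw [tendsto_zero_iff_norm_tendsto_zero]
    have h3 : Tendsto (fun n : ℕ => ‖g n - g₀‖) atTop (𝓝 0) := by
      have := (hg.sub_const g₀).norm
      simpa using this
    refine squeeze_zero (fun n => norm_nonneg _) (fun n => ?_) h3
    rw [← map_sub]
    exact hs_apply_norm_le (hs_E_step hQ ht n).norm_le _
  have h4 := h2.add h1
  simpa using h4

/-! ### linear, contraction, symmetric (limits of the same properties of `E t n`; trivial for `t ≤ 0`) -/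

theorem hs_flow_map_add (hQ : QForm Q) (t : ℝ) (f g : H) : flow Q t (f + g) = flow Q t f + flow Q t g := by
  rcases le_or_gt t 0 with ht | ht
  · simp only [hs_flow_of_nonpos ht]
  · have h1 := hs_E_tendsto hQ ht (f + g)
    have h2 := (hs_E_tendsto hQ ht f).add (hs_E_tendsto hQ ht g)
    refine tendsto_nhds_unique h1 ?_
    simpa only [map_add] using h2

theorem hs_flow_map_smul (hQ : QForm Q) (t : ℝ) (c : ℝ) (f : H) : flow Q t (c • f) = c • flow Q t f := by
  rcases le_or_gt t 0 with ht | ht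
  · simp only [hs_flow_of_nonpos ht]
  · have h1 := hs_E_tendsto hQ ht (c • f)
    have h2 := (hs_E_tendsto hQ ht f).const_smul c
    refine tendsto_nhds_unique h1 ?_
    simpa only [map_smul] using h2

theorem hs_flow_norm_le (hQ : QForm Q) (t : ℝ) (f : H) : ‖flow Q t f‖ ≤ ‖f‖ := by
  rcases le_or_gt t 0 with ht | ht
  · rw [hs_flow_of_nonpos ht]
  · exact le_of_tendsto (hs_E_tendsto hQ ht f).norm
      (Eventually.of_forall fun n => hs_apply_norm_le (hs_E_step hQ ht n).norm_le f)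

/-- the semigroup as a continuous linear map -/
noncomputable def hs_flowL (hQ : QForm Q) (t : ℝ) : H →L[ℝ] H :=
  LinearMap.mkContinuous
    { toFun := flow Q t
      map_add' := hs_flow_map_add hQ t
      map_smul' := fun c f => hs_flow_map_smul hQ t c f } 1
    (fun f => by simpa using hs_flow_norm_le hQ t f)

@[simp] theorem hs_flowL_apply (hQ : QForm Q) (t : ℝ) (f : H) : hs_flowL hQ t f = flow Q t f := rfl

theorem hs_flowL_norm_le (hQ : QForm Q) (t : ℝ) : ‖hs_flowL hQ t‖ ≤ 1 := by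
  exact ContinuousLinearMap.opNorm_le_bound _ zero_le_one
    (fun f => by simpa using hs_flow_norm_le hQ t f)

theorem hs_flow_map_zero (hQ : QForm Q) (t : ℝ) : flow Q t (0 : H) = 0 := by
  exact (hs_flowL hQ t).map_zero

theorem hs_flow_map_neg (hQ : QForm Q) (t : ℝ) (f : H) : flow Q t (-f) = - flow Q t f := by
  exact (hs_flowL hQ t).map_neg f

theorem hs_flow_map_sub (hQ : QForm Q) (t : ℝ) (f g : H) : flow Q t (f - g) = flow Q t f - flow Q t g := by
  exact (hs_flowL hQ t).map_sub f g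

theorem hs_flow_continuous_vec (hQ : QForm Q) (t : ℝ) : Continuous (flow Q t) :=
  (hs_flowL hQ t).continuous

theorem hs_prox_iterate_symm (hQ : QForm Q) {δ : ℝ} (hδ : 0 < δ) (n : ℕ) (f g : H) :
    ⟪(prox Q δ)^[n] f, g⟫ = ⟪f, (prox Q δ)^[n] g⟫ := by
  induction n generalizing f g with
  | zero => rfl
  | succ n ih =>
    rw [Function.iterate_succ_apply, ih, hs_prox_symm hQ hδ, Function.iterate_succ_apply']

/-- iterates of `prox` are symmetric (`hs_prox_symm`, induction), pass to the limit -/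
theorem hs_flow_symm (hQ : QForm Q) (t : ℝ) (f g : H) : ⟪flow Q t f, g⟫ = ⟪f, flow Q t g⟫ := by
  rcases le_or_gt t 0 with ht | ht
  · simp only [hs_flow_of_nonpos ht]
  · have h1 := Filter.Tendsto.inner (𝕜 := ℝ) (hs_flow_tendsto hQ ht f) (tendsto_const_nhds (x := g))
    have h2 := Filter.Tendsto.inner (𝕜 := ℝ) (tendsto_const_nhds (x := f)) (hs_flow_tendsto hQ ht g)
    refine tendsto_nhds_unique h1 (h2.congr fun n => ?_)
    exact (hs_prox_iterate_symm hQ (by positivity) (n + 1) f g).symm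

/-- `hs_E_commute_prox`, limit, `hs_prox_continuous` -/
theorem hs_flow_prox_comm (hQ : QForm Q) (t : ℝ) {δ : ℝ} (hδ : 0 < δ) (f : H) :
    flow Q t (prox Q δ f) = prox Q δ (flow Q t f) := by
  rcases le_or_gt t 0 with ht | ht
  · rw [hs_flow_of_nonpos ht, hs_flow_of_nonpos ht]
  · have h1 : Tendsto (fun n : ℕ => hs_E hQ ht n (prox Q δ f)) atTop (𝓝 (flow Q t (prox Q δ f))) :=
      hs_E_tendsto hQ ht _
    have h2 : Tendsto (fun n : ℕ => prox Q δ (hs_E hQ ht n f)) atTop (𝓝 (prox Q δ (flow Q t f))) :=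
      ((hs_prox_continuous hQ hδ).tendsto _).comp (hs_E_tendsto hQ ht f)
    have e : (fun n : ℕ => hs_E hQ ht n (prox Q δ f)) = fun n : ℕ => prox Q δ (hs_E hQ ht n f) := by
      funext n
      have := (hs_E_commute_prox hQ ht hδ n).eq
      exact congrArg (fun T : H →L[ℝ] H => T f) this
    rw [e] at h1
    exact tendsto_nhds_unique h1 h2

/-- `hs_isGen_closed` along `E t n f → S t f`, `E t n w → S t w` (`(hs_E_step ..).gen`) -/
theorem hs_flow_isGen (hQ : QForm Q) (t : ℝ) {f w : H} (h : IsGen Q f w) : IsGen Q (flow Q t f) (flow Q t w) := by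
  rcases le_or_gt t 0 with ht | ht
  · rw [hs_flow_of_nonpos ht, hs_flow_of_nonpos ht]; exact h
  · exact hs_isGen_closed hQ (hs_E_tendsto hQ ht f) (hs_E_tendsto hQ ht w)
      (Eventually.of_forall fun n => (hs_E_step hQ ht n).gen f w h)

/-- `S t` is a step of size `t` (limits of `hs_E_step`) -/
theorem hs_step_flow (hQ : QForm Q) {t : ℝ} (ht : 0 ≤ t) : hs_Step Q (hs_flowL hQ t) t := by
  refine ⟨ht, hs_flowL_norm_le hQ t, fun f w h => hs_flow_isGen hQ t h, ?_, ?_⟩
  · intro f w h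
    rw [hs_flowL_apply]
    rcases ht.eq_or_lt with h0 | hpos
    · subst h0
      simp [hs_flow_zero]
    · have h1 : Tendsto (fun n : ℕ => ‖hs_E hQ hpos n f - f‖) atTop (𝓝 ‖flow Q t f - f‖) :=
        ((hs_E_tendsto hQ hpos f).sub_const f).norm
      exact le_of_tendsto h1 (Eventually.of_forall fun n => (hs_E_step hQ hpos n).first f w h)
  · intro f w z h h'
    rw [hs_flowL_apply]
    rcases ht.eq_or_lt with h0 | hpos
    · subst h0
      simp [hs_flow_zero]
    · have h1 : Tendsto (fun n : ℕ => ‖hs_E hQ hpos n f - f - t • w‖) atTop (𝓝 ‖flow Q t f - f - t • w‖) :=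
        (((hs_E_tendsto hQ hpos f).sub_const f).sub_const (t • w)).norm
      exact le_of_tendsto h1 (Eventually.of_forall fun n => (hs_E_step hQ hpos n).second f w z h h')

theorem hs_flow_sub_self_norm_le (hQ : QForm Q) {t : ℝ} (ht : 0 ≤ t) {f w : H} (h : IsGen Q f w) :
    ‖flow Q t f - f‖ ≤ t * ‖w‖ :=
  (hs_step_flow hQ ht).first f w h

theorem hs_flow_second_order (hQ : QForm Q) {t : ℝ} (ht : 0 ≤ t) {f w z : H} (h : IsGen Q f w) (h' : IsGen Q w z) :
    ‖flow Q t f - f - t • w‖ ≤ t ^ 2 * ‖z‖ :=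
  (hs_step_flow hQ ht).second f w z h h'

/-! ### semigroup law, strong continuity -/

/-- the semigroup law on `D(A²)`, positive times -/
theorem hs_flow_add_gen2 (hQ : QForm Q) {s t : ℝ} (hs : 0 < s) (ht : 0 < t) {f w z : H}
    (h : IsGen Q f w) (h' : IsGen Q w z) : flow Q (s + t) f = flow Q s (flow Q t f) := by
  have h1 : Tendsto (fun n : ℕ => hs_E hQ hs n (hs_E hQ ht n f)) atTop (𝓝 (flow Q s (flow Q t f))) :=
    hs_E_tendsto_seq hQ hs (hs_E_tendsto hQ ht f)
  have h2 : Tendsto (fun n : ℕ => hs_E hQ (add_pos hs ht) n f) atTop (𝓝 (flow Q (s + t) f)) :=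
    hs_E_tendsto hQ (add_pos hs ht) f
  have h3 : Tendsto (fun n : ℕ => hs_E hQ hs n (hs_E hQ ht n f) - hs_E hQ (add_pos hs ht) n f) atTop
      (𝓝 (flow Q s (flow Q t f) - flow Q (s + t) f)) := h1.sub h2
  have h4 : Tendsto (fun n : ℕ => 2 * (s + t) ^ 2 * ‖z‖ / ((n : ℝ) + 1)) atTop (𝓝 0) := by
    have := (tendsto_one_div_add_atTop_nhds_zero_nat (𝕜 := ℝ)).const_mul (2 * (s + t) ^ 2 * ‖z‖)
    simpa [div_eq_mul_inv] using this
  have h5 : Tendsto (fun n : ℕ => hs_E hQ hs n (hs_E hQ ht n f) - hs_E hQ (add_pos hs ht) n f) atTop (𝓝 0) :=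
    squeeze_zero_norm (fun n => hs_E_mul_sub_le hQ hs ht n h h') h4
  have h6 := tendsto_nhds_unique h3 h5
  exact (sub_eq_zero.mp h6).symm

/-- on `D(A²)`: `E s n (E t n f) → S s (S t f)` (`hs_E_tendsto_seq`), `E (s+t) n f → S (s+t) f`, difference `→ 0` (`hs_E_mul_sub_le`).
In general: both sides are continuous in `f`, `D(A²)` is dense (`hs_exists_gen2_near`).  `s = 0` or `t = 0`: trivial. -/
theorem hs_flow_add (hQ : QForm Q) {s t : ℝ} (hs : 0 ≤ s) (ht : 0 ≤ t) (f : H) :
    flow Q (s + t) f = flow Q s (flow Q t f) := by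
  rcases hs.eq_or_lt with rfl | hs
  · rw [zero_add, hs_flow_zero]
  rcases ht.eq_or_lt with rfl | ht
  · rw [add_zero, hs_flow_zero]
  have hcl : IsClosed {g : H | flow Q (s + t) g = flow Q s (flow Q t g)} :=
    isClosed_eq (hs_flow_continuous_vec hQ (s + t))
      ((hs_flow_continuous_vec hQ s).comp (hs_flow_continuous_vec hQ t))
  have hmem : f ∈ closure {g : H | flow Q (s + t) g = flow Q s (flow Q t g)} := by
    rw [Metric.mem_closure_iff]
    intro ε hε
    obtain ⟨g, w, z, hg, hw, hgf⟩ := hs_exists_gen2_near hQ f hε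
    refine ⟨g, hs_flow_add_gen2 hQ hs ht hg hw, ?_⟩
    rw [dist_comm, dist_eq_norm]
    exact hgf
  rw [hcl.closure_eq] at hmem
  exact hmem

theorem hs_flow_comm (hQ : QForm Q) (s t : ℝ) (f : H) : flow Q s (flow Q t f) = flow Q t (flow Q s f) := by
  rcases le_or_gt s 0 with hs | hs
  · rw [hs_flow_of_nonpos hs, hs_flow_of_nonpos hs]
  rcases le_or_gt t 0 with ht | ht
  · rw [hs_flow_of_nonpos ht, hs_flow_of_nonpos ht]
  rw [← hs_flow_add hQ hs.le ht.le, ← hs_flow_add hQ ht.le hs.le, add_comm]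

/-- Lipschitz in time on `D(A)` (auxiliary form of `hs_flow_lipschitz`, needed earlier), ordered times -/
theorem hs_flow_lipschitz_aux_le (hQ : QForm Q) {f w : H} (h : IsGen Q f w) {s t : ℝ} (hst : s ≤ t) :
    ‖flow Q t f - flow Q s f‖ ≤ (t - s) * ‖w‖ := by
  rcases le_or_gt t 0 with ht | ht
  · rw [hs_flow_of_nonpos ht, hs_flow_of_nonpos (hst.trans ht), sub_self, norm_zero]
    exact mul_nonneg (by linarith) (norm_nonneg _)
  rcases le_or_gt s 0 with hs | hs
  · rw [hs_flow_of_nonpos hs]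
    have h1 := hs_flow_sub_self_norm_le hQ ht.le h
    have h2 : t * ‖w‖ ≤ (t - s) * ‖w‖ := mul_le_mul_of_nonneg_right (by linarith) (norm_nonneg _)
    linarith
  · have e : t = (t - s) + s := by ring
    have h1 : flow Q t f = flow Q (t - s) (flow Q s f) := by
      conv_lhs => rw [e]
      exact hs_flow_add hQ (by linarith) hs.le f
    rw [h1]
    have h2 := hs_flow_sub_self_norm_le hQ (by linarith : 0 ≤ t - s) (hs_flow_isGen hQ s h)
    have h3 : (t - s) * ‖flow Q s w‖ ≤ (t - s) * ‖w‖ :=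
      mul_le_mul_of_nonneg_left (hs_flow_norm_le hQ s w) (by linarith)
    linarith

theorem hs_flow_lipschitz_aux (hQ : QForm Q) {f w : H} (h : IsGen Q f w) (s t : ℝ) :
    ‖flow Q t f - flow Q s f‖ ≤ |t - s| * ‖w‖ := by
  rcases le_total s t with hst | hst
  · rw [abs_of_nonneg (by linarith)]
    exact hs_flow_lipschitz_aux_le hQ h hst
  · rw [abs_of_nonpos (by linarith), norm_sub_rev]
    have := hs_flow_lipschitz_aux_le hQ h hst
    linarith

/-- three-epsilon estimate behind the strong continuity -/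
theorem hs_flow_sub_le_aux (hQ : QForm Q) (f : H) {g w : H} (h : IsGen Q g w) (s t : ℝ) :
    ‖flow Q t f - flow Q s f‖ ≤ |t - s| * ‖w‖ + 2 * ‖g - f‖ := by
  have e : flow Q t f - flow Q s f
      = (flow Q t g - flow Q s g) - flow Q t (g - f) + flow Q s (g - f) := by
    rw [hs_flow_map_sub hQ, hs_flow_map_sub hQ]
    abel
  rw [e]
  have h1 := hs_flow_lipschitz_aux hQ h s t
  have h2 := hs_flow_norm_le hQ t (g - f)
  have h3 := hs_flow_norm_le hQ s (g - f)
  have h4 : ‖(flow Q t g - flow Q s g) - flow Q t (g - f) + flow Q s (g - f)‖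
      ≤ ‖flow Q t g - flow Q s g‖ + ‖flow Q t (g - f)‖ + ‖flow Q s (g - f)‖ :=
    (norm_add_le _ _).trans (add_le_add_left (norm_sub_le _ _) _)
  linarith

theorem hs_flow_continuousAt_aux (hQ : QForm Q) (f : H) (s : ℝ) :
    Tendsto (fun t => flow Q t f) (𝓝 s) (𝓝 (flow Q s f)) := by
  rw [Metric.tendsto_nhds]
  intro ε hε
  obtain ⟨g, w, hg, hgf⟩ := hs_exists_gen_near hQ f (show 0 < ε / 3 by positivity)
  have h1 : Tendsto (fun t : ℝ => |t - s| * ‖w‖) (𝓝 s) (𝓝 0) := by
    have h2 : Continuous (fun t : ℝ => |t - s| * ‖w‖) := by fun_prop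
    have := h2.tendsto s
    simpa using this
  filter_upwards [h1.eventually (Iio_mem_nhds (show 0 < ε / 3 by positivity))] with t ht
  rw [dist_eq_norm]
  have h3 := hs_flow_sub_le_aux hQ f hg s t
  have ht' : |t - s| * ‖w‖ < ε / 3 := ht
  linarith

/-- `‖S t f - f‖ ≤ ‖S t g - g‖ + 2 ‖f - g‖ ≤ t ‖A g‖ + 2 ‖f - g‖`, `hs_exists_gen_near` -/
theorem hs_flow_tendsto_zero (hQ : QForm Q) (f : H) : Tendsto (fun t => flow Q t f) (𝓝 0) (𝓝 f) := by
  have h := hs_flow_continuousAt_aux hQ f 0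
  rwa [hs_flow_zero] at h

/-- `‖S t f - S s f‖ ≤ ‖S |t-s| f - f‖` for `s, t ≥ 0` -/
theorem hs_flow_continuous (hQ : QForm Q) (f : H) : Continuous (fun t => flow Q t f) := by
  exact continuous_iff_continuousAt.2 fun s => hs_flow_continuousAt_aux hQ f s

/-- joint continuity -/
theorem hs_flow_continuous2 (hQ : QForm Q) : Continuous (fun p : ℝ × H => flow Q p.1 p.2) := by
  refine continuous_iff_continuousAt.2 fun p₀ => ?_
  show Tendsto (fun p : ℝ × H => flow Q p.1 p.2) (𝓝 p₀) (𝓝 (flow Q p₀.1 p₀.2))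
  rw [tendsto_iff_norm_sub_tendsto_zero]
  have h1 : Tendsto (fun p : ℝ × H => ‖p.2 - p₀.2‖) (𝓝 p₀) (𝓝 0) := by
    have h2 : Continuous (fun p : ℝ × H => ‖p.2 - p₀.2‖) := by fun_prop
    have := h2.tendsto p₀
    simpa using this
  have h3 : Tendsto (fun p : ℝ × H => ‖flow Q p.1 p₀.2 - flow Q p₀.1 p₀.2‖) (𝓝 p₀) (𝓝 0) := by
    have h4 : Continuous (fun p : ℝ × H => ‖flow Q p.1 p₀.2 - flow Q p₀.1 p₀.2‖) :=
      (((hs_flow_continuous hQ p₀.2).comp continuous_fst).sub continuous_const).norm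
    have := h4.tendsto p₀
    simpa using this
  have h5 := h1.add h3
  rw [add_zero] at h5
  refine squeeze_zero (fun _ => norm_nonneg _) (fun p => ?_) h5
  have e : flow Q p.1 p.2 - flow Q p₀.1 p₀.2
      = flow Q p.1 (p.2 - p₀.2) + (flow Q p.1 p₀.2 - flow Q p₀.1 p₀.2) := by
    rw [hs_flow_map_sub hQ]
    abel
  rw [e]
  exact (norm_add_le _ _).trans (add_le_add_left (hs_flow_norm_le hQ _ _) _)

/-- Lipschitz in time on `D(A)` -/
theorem hs_flow_lipschitz (hQ : QForm Q) {f w : H} (h : IsGen Q f w) (s t : ℝ) :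
    ‖flow Q t f - flow Q s f‖ ≤ |t - s| * ‖w‖ := by
  exact hs_flow_lipschitz_aux hQ h s t

/-! ### HS5: invariant closed sets -/

/-- iterates stay in `C`; `IsClosed.mem_of_tendsto` with `hs_flow_tendsto` -/
theorem hs_flow_mem (hQ : QForm Q) {C : Set H} (hC : IsClosed C) (h : ∀ δ, 0 < δ → ∀ f ∈ C, prox Q δ f ∈ C)
    (t : ℝ) {f : H} (hf : f ∈ C) : flow Q t f ∈ C := by
  rcases le_or_gt t 0 with ht | ht
  · rwa [hs_flow_of_nonpos ht]
  · have hit : ∀ (δ : ℝ), 0 < δ → ∀ n : ℕ, (prox Q δ)^[n] f ∈ C := by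
      intro δ hδ n
      induction n with
      | zero => exact hf
      | succ n ih =>
        rw [Function.iterate_succ_apply']
        exact h δ hδ _ ih
    exact hC.mem_of_tendsto (hs_flow_tendsto hQ ht f)
      (Eventually.of_forall fun n => hit _ (by positivity) (n + 1))

end Claimed.Agent.R210.HS.Flow
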