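/-
Row 210, layer HS, file 6 (HS3, regularisation; HS4 Laplace transform).
Architect: helper751.  Paper proofs: `git show origin/helper751:docs/R210_HS.md`.

Notation: `S t = flow Q t`, `A = hs_gen Q`.
-/
import Claimed.Agent.R210.HS.Flow

set_option autoImplicit false

open Set Filter MeasureTheory
open scoped ENNReal NNReal Topology RealInnerProductSpace
open Claimed.Agent.R210.HS.Defs Claimed.Agent.R210.HS.Form Claimed.Agent.R210.HS.Prox Claimed.Agent.R210.HS.Gen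
  Claimed.Agent.R210.HS.Step Claimed.Agent.R210.HS.Flow

namespace Claimed.Agent.R210.HS.Reg

variable {H : Type*} [NormedAddCommGroup H] [InnerProductSpace ℝ H] [CompleteSpace H] {Q : H → ℝ≥0∞}

/-! ### A. energy along the flow -/

/-- `hs_lsc_le` along `E t n f → S t f`, `hs_Q_iterate_le` -/
theorem hs_Q_flow_le (hQ : QForm Q) (t : ℝ) (f : H) : Q (flow Q t f) ≤ Q f := by
  rcases le_or_gt t 0 with ht | ht
  · rw [hs_flow_of_nonpos ht]
  · exact hs_lsc_le hQ (hs_flow_tendsto hQ ht f)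
      (Eventually.of_forall fun n => hs_Q_iterate_le hQ (by positivity) (n + 1) f)

/-- semigroup law + `hs_Q_flow_le` (for `s ≤ t`: if `t ≤ 0` both are `Q f`; if `s ≤ 0 < t` use `hs_Q_flow_le`; else `t = (t-s) + s`) -/
theorem hs_Q_flow_anti (hQ : QForm Q) (f : H) : Antitone (fun t => Q (flow Q t f)) := by
  intro s t hst
  show Q (flow Q t f) ≤ Q (flow Q s f)
  rcases le_or_gt s 0 with hs | hs
  · rw [hs_flow_of_nonpos hs]
    exact hs_Q_flow_le hQ t f
  · have e : t = (t - s) + s := by ring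
    have h1 : flow Q t f = flow Q (t - s) (flow Q s f) := by
      conv_lhs => rw [e]
      exact hs_flow_add hQ (by linarith) hs.le f
    rw [h1]
    exact hs_Q_flow_le hQ _ _

/-- `hs_tendsto_Q`, `hs_flow_tendsto_zero`, `hs_Q_flow_le` (covers `Q f = ∞`) -/
theorem hs_Q_flow_tendsto (hQ : QForm Q) (f : H) : Tendsto (fun t => Q (flow Q t f)) (𝓝 0) (𝓝 (Q f)) := by
  exact hs_tendsto_Q hQ (hs_flow_tendsto_zero hQ f) (Eventually.of_forall fun t => hs_Q_flow_le hQ t f)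

/-- `hs_lsc_le`, `hs_E_toReal_le` -/
theorem hs_Q_flow_le_div (hQ : QForm Q) {t : ℝ} (ht : 0 < t) (f : H) :
    Q (flow Q t f) ≤ ENNReal.ofReal (‖f‖ ^ 2 / (4 * t)) := by
  refine hs_lsc_le hQ (hs_E_tendsto hQ ht f) (Eventually.of_forall fun n => ?_)
  have hfin : Q (hs_E hQ ht n f) < ∞ := by
    rw [hs_E_apply, Function.iterate_succ_apply']
    exact hs_prox_dom hQ (by positivity) _
  rw [← ENNReal.ofReal_toReal hfin.ne]
  exact ENNReal.ofReal_le_ofReal (hs_E_toReal_le hQ ht n f)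

theorem hs_flow_dom (hQ : QForm Q) {t : ℝ} (ht : 0 < t) (f : H) : Q (flow Q t f) < ∞ := by
  exact lt_of_le_of_lt (hs_Q_flow_le_div hQ ht f) ENNReal.ofReal_lt_top

/-- `b (S t f) (S t f) ≤ ‖f‖² / (2 t)` -/
theorem hs_bil_flow_le (hQ : QForm Q) {t : ℝ} (ht : 0 < t) (f : H) :
    bil Q (flow Q t f) (flow Q t f) ≤ ‖f‖ ^ 2 / (2 * t) := by
  rw [hs_bil_self hQ]
  have h1 := ENNReal.toReal_mono ENNReal.ofReal_ne_top (hs_Q_flow_le_div hQ ht f)
  rw [ENNReal.toReal_ofReal (by positivity)] at h1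
  have e : ‖f‖ ^ 2 / (2 * t) = 2 * (‖f‖ ^ 2 / (4 * t)) := by
    field_simp
    ring
  rw [e]
  linarith

/-- for every `ε > 0` eventually `Q (E t n f) > Q (S t f) - ε` (lsc), so by `hs_toReal_iterate_sub_le` eventually
`Q (E t n f - f) ≤ ofReal (q f - q (S t f) + ε)`; `hs_lsc_le`; `ε → 0`. -/
theorem hs_toReal_flow_sub_le (hQ : QForm Q) (t : ℝ) {f : H} (hf : Q f < ∞) :
    (Q (flow Q t f - f)).toReal ≤ (Q f).toReal - (Q (flow Q t f)).toReal := by
  rcases le_or_gt t 0 with ht | ht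
  · rw [hs_flow_of_nonpos ht, sub_self, hQ.zero]
    simp
  have hSfin : Q (flow Q t f) < ∞ := lt_of_le_of_lt (hs_Q_flow_le hQ t f) hf
  have hle : (Q (flow Q t f)).toReal ≤ (Q f).toReal := ENNReal.toReal_mono hf.ne (hs_Q_flow_le hQ t f)
  have hδ : ∀ n : ℕ, 0 < t / ((n : ℝ) + 1) := fun n => by positivity
  have hufin : ∀ n : ℕ, Q ((prox Q (t / (n + 1)))^[n + 1] f) < ∞ := fun n =>
    lt_of_le_of_lt (hs_Q_iterate_le hQ (hδ n) (n + 1) f) hf
  have hu := hs_flow_tendsto hQ ht f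
  refine le_of_forall_pos_le_add fun ε hε => ?_
  -- eventually `q (u n) ≥ q (S t f) - ε`
  have hev : ∀ᶠ n : ℕ in atTop,
      (Q (flow Q t f)).toReal - ε ≤ (Q ((prox Q (t / (n + 1)))^[n + 1] f)).toReal := by
    rcases lt_or_ge ((Q (flow Q t f)).toReal - ε) 0 with hneg | hpos
    · exact Eventually.of_forall fun n => le_trans hneg.le ENNReal.toReal_nonneg
    · have hlt : ENNReal.ofReal ((Q (flow Q t f)).toReal - ε) < Q (flow Q t f) :=
        (ENNReal.ofReal_lt_iff_lt_toReal hpos hSfin.ne).2 (by linarith)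
      have h1 := hu.eventually (hQ.lsc (flow Q t f) _ hlt)
      filter_upwards [h1] with n hn
      exact ((ENNReal.ofReal_lt_iff_lt_toReal hpos (hufin n).ne).1 hn).le
  have hev2 : ∀ᶠ n : ℕ in atTop, Q ((prox Q (t / (n + 1)))^[n + 1] f - f)
      ≤ ENNReal.ofReal ((Q f).toReal - (Q (flow Q t f)).toReal + ε) := by
    filter_upwards [hev] with n hn
    have h2 := hs_toReal_iterate_sub_le hQ (hδ n) (n + 1) hf
    rw [← ENNReal.ofReal_toReal (hs_dom_sub hQ (hufin n) hf).ne]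
    exact ENNReal.ofReal_le_ofReal (by linarith)
  have h3 := hs_lsc_le hQ (hu.sub_const f) hev2
  have h4 := ENNReal.toReal_mono ENNReal.ofReal_ne_top h3
  rwa [ENNReal.toReal_ofReal (by linarith)] at h4

theorem hs_Q_flow_sub_tendsto (hQ : QForm Q) {f : H} (hf : Q f < ∞) :
    Tendsto (fun t => Q (flow Q t f - f)) (𝓝 0) (𝓝 0) := by
  have h1 : Tendsto (fun t => (Q (flow Q t f)).toReal) (𝓝 0) (𝓝 (Q f).toReal) :=
    (ENNReal.tendsto_toReal hf.ne).comp (hs_Q_flow_tendsto hQ f)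
  have h2 : Tendsto (fun t => ENNReal.ofReal ((Q f).toReal - (Q (flow Q t f)).toReal)) (𝓝 0) (𝓝 0) := by
    have h3 : Tendsto (fun t => (Q f).toReal - (Q (flow Q t f)).toReal) (𝓝 0) (𝓝 0) := by
      have := (tendsto_const_nhds (x := (Q f).toReal)).sub h1
      simpa using this
    have := ENNReal.tendsto_ofReal h3
    simpa using this
  refine tendsto_of_tendsto_of_tendsto_of_le_of_le tendsto_const_nhds h2 (fun _ => bot_le) fun t => ?_
  have hSfin : Q (flow Q t f) < ∞ := lt_of_le_of_lt (hs_Q_flow_le hQ t f) hf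
  show Q (flow Q t f - f) ≤ _
  rw [← ENNReal.ofReal_toReal (hs_dom_sub hQ hSfin hf).ne]
  exact ENNReal.ofReal_le_ofReal (hs_toReal_flow_sub_le hQ t hf)

/-! ### B. the flow maps into the domain of the generator -/

/-- limit of `hs_E_gen_norm_le` -/
theorem hs_flow_gen_norm_le_of_isGen (hQ : QForm Q) {t : ℝ} (ht : 0 < t) {f w : H} (h : IsGen Q f w) :
    ‖flow Q t w‖ ≤ ‖f‖ / t := by
  exact le_of_tendsto (hs_E_tendsto hQ ht w).norm
    (Eventually.of_forall fun n => hs_E_gen_norm_le hQ ht n h)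

/-- `f j → f` with `f j ∈ D(A)` (`hs_exists_gen_near`); `S t (A f j)` is Cauchy by `hs_flow_gen_norm_le_of_isGen` for differences;
`hs_isGen_closed`, `hs_flow_isGen`. -/
theorem hs_exists_isGen_flow (hQ : QForm Q) {t : ℝ} (ht : 0 < t) (f : H) :
    ∃ w, IsGen Q (flow Q t f) w ∧ ‖w‖ ≤ ‖f‖ / t := by
  have hex : ∀ j : ℕ, ∃ g w, IsGen Q g w ∧ ‖g - f‖ < 1 / ((j : ℝ) + 1) := fun j =>
    hs_exists_gen_near hQ f (by positivity)
  choose g w hgw hgf using hex
  have hg : Tendsto g atTop (𝓝 f) := by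
    rw [tendsto_iff_norm_sub_tendsto_zero]
    exact squeeze_zero (fun _ => norm_nonneg _) (fun j => (hgf j).le)
      tendsto_one_div_add_atTop_nhds_zero_nat
  have hbd : ∀ j k, ‖flow Q t (w j) - flow Q t (w k)‖ ≤ ‖g j - g k‖ / t := by
    intro j k
    rw [← hs_flow_map_sub hQ]
    exact hs_flow_gen_norm_le_of_isGen hQ ht (hs_isGen_sub hQ (hgw j) (hgw k))
  have hc : CauchySeq (fun j => flow Q t (w j)) := by
    rw [Metric.cauchySeq_iff']
    intro ε hε
    obtain ⟨N, hN⟩ := Metric.cauchySeq_iff'.1 hg.cauchySeq (ε * t) (by positivity)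
    refine ⟨N, fun n hn => ?_⟩
    have h1 := hN n hn
    rw [dist_eq_norm] at h1 ⊢
    refine lt_of_le_of_lt (hbd n N) ?_
    rwa [div_lt_iff₀ ht]
  obtain ⟨w₀, hw₀⟩ := cauchySeq_tendsto_of_complete hc
  have hSg : Tendsto (fun j => flow Q t (g j)) atTop (𝓝 (flow Q t f)) :=
    ((hs_flow_continuous_vec hQ t).tendsto f).comp hg
  refine ⟨w₀, hs_isGen_closed hQ hSg hw₀ (Eventually.of_forall fun j => hs_flow_isGen hQ t (hgw j)), ?_⟩
  exact le_of_tendsto_of_tendsto hw₀.norm (hg.norm.div_const t)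
    (Eventually.of_forall fun j => hs_flow_gen_norm_le_of_isGen hQ ht (hgw j))

theorem hs_isGen_flow_gen (hQ : QForm Q) {t : ℝ} (ht : 0 < t) (f : H) :
    IsGen Q (flow Q t f) (hs_gen Q (flow Q t f)) := by
  obtain ⟨w, hw, -⟩ := hs_exists_isGen_flow hQ ht f
  exact hs_isGen_gen hw

theorem hs_gen_flow_norm_le (hQ : QForm Q) {t : ℝ} (ht : 0 < t) (f : H) : ‖hs_gen Q (flow Q t f)‖ ≤ ‖f‖ / t := by
  obtain ⟨w, hw, hn⟩ := hs_exists_isGen_flow hQ ht f
  rw [hs_gen_eq hQ hw]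
  exact hn

/-- `A S (s+t) f = S s (A S t f)` -/
theorem hs_gen_flow_add (hQ : QForm Q) {s t : ℝ} (hs : 0 ≤ s) (ht : 0 < t) (f : H) :
    hs_gen Q (flow Q (s + t) f) = flow Q s (hs_gen Q (flow Q t f)) := by
  rw [hs_flow_add hQ hs ht.le f]
  exact hs_gen_eq hQ (hs_flow_isGen hQ s (hs_isGen_flow_gen hQ ht f))

theorem hs_gen_flow_of_isGen (hQ : QForm Q) (t : ℝ) {f w : H} (h : IsGen Q f w) :
    hs_gen Q (flow Q t f) = flow Q t w := by
  exact hs_gen_eq hQ (hs_flow_isGen hQ t h)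

/-- `A S t f = S (t/2) (A S (t/2) f)` is again in `D(A)` -/
theorem hs_exists_isGen_gen_flow (hQ : QForm Q) {t : ℝ} (ht : 0 < t) (f : H) :
    ∃ z, IsGen Q (hs_gen Q (flow Q t f)) z := by
  have ht2 : 0 < t / 2 := by positivity
  have e : t = t / 2 + t / 2 := by ring
  have h1 : hs_gen Q (flow Q t f) = flow Q (t / 2) (hs_gen Q (flow Q (t / 2) f)) := by
    conv_lhs => rw [e]
    exact hs_gen_flow_add hQ ht2.le ht2 f
  rw [h1]
  obtain ⟨z, hz, -⟩ := hs_exists_isGen_flow hQ ht2 (hs_gen Q (flow Q (t / 2) f))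
  exact ⟨z, hz⟩

/-! ### C. derivative -/

/-- quadratic error bound.  `u r = S r f`, `w r = A u r`, `z r = A w r`, `M = ‖z (t/2)‖`; `‖z r‖ ≤ M` for `r ≥ t/2`.
`h ≥ 0`: `hs_flow_second_order` at `u t`.  `h < 0`, `r = t + h ≥ t/2`: `u t = S |h| (u r)`,
`u r - u t - h w t = - (u t - u r - |h| w r) - |h| (w r - w t)`, `‖w t - w r‖ ≤ |h| ‖z r‖`. -/
theorem hs_flow_taylor (hQ : QForm Q) {t : ℝ} (ht : 0 < t) (f : H) :
    ∃ M : ℝ, ∀ h : ℝ, |h| ≤ t / 2 →
      ‖flow Q (t + h) f - flow Q t f - h • hs_gen Q (flow Q t f)‖ ≤ M * h ^ 2 := by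
  have ha : 0 < t / 2 := by positivity
  obtain ⟨z, hz⟩ := hs_exists_isGen_gen_flow hQ ha f
  have hw := hs_isGen_flow_gen hQ ha f
  set a := t / 2 with hadef
  set w := hs_gen Q (flow Q a f) with hwdef
  -- the three curves for `r ≥ a`
  have hU : ∀ r, a ≤ r → flow Q r f = flow Q (r - a) (flow Q a f) := fun r hr => by
    rw [← hs_flow_add hQ (by linarith) ha.le]
    congr 1
    ring
  have g1 : ∀ r, a ≤ r → IsGen Q (flow Q r f) (flow Q (r - a) w) := fun r hr => by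
    rw [hU r hr]
    exact hs_flow_isGen hQ _ hw
  have g2 : ∀ r, IsGen Q (flow Q (r - a) w) (flow Q (r - a) z) := fun r => hs_flow_isGen hQ _ hz
  have g3 : ∀ r, ‖flow Q (r - a) z‖ ≤ ‖z‖ := fun r => hs_flow_norm_le hQ _ _
  have hat : a ≤ t := by rw [hadef]; linarith
  have hgen : hs_gen Q (flow Q t f) = flow Q (t - a) w := hs_gen_eq hQ (g1 t hat)
  refine ⟨2 * ‖z‖, fun h hh => ?_⟩
  rw [hgen]
  have hz0 : 0 ≤ ‖z‖ := norm_nonneg _
  rcases le_or_gt 0 h with h0 | h0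
  · have e1 : flow Q (t + h) f = flow Q h (flow Q t f) := by
      rw [← hs_flow_add hQ h0 ht.le, add_comm]
    rw [e1]
    have := hs_flow_second_order hQ h0 (g1 t hat) (g2 t)
    have h2 : h ^ 2 * ‖flow Q (t - a) z‖ ≤ h ^ 2 * ‖z‖ := mul_le_mul_of_nonneg_left (g3 t) (by positivity)
    nlinarith [sq_nonneg h]
  · have hr : a ≤ t + h := by
      have := (abs_le.1 hh).1
      rw [hadef]; linarith
    set k := -h with hk
    have hk0 : 0 ≤ k := by rw [hk]; linarith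
    have e1 : flow Q t f = flow Q k (flow Q (t + h) f) := by
      rw [← hs_flow_add hQ hk0 (by linarith)]
      congr 1
      rw [hk]; ring
    have e2 : flow Q (t - a) w = flow Q k (flow Q (t + h - a) w) := by
      rw [← hs_flow_add hQ hk0 (by linarith)]
      congr 1
      rw [hk]; ring
    have b1 := hs_flow_second_order hQ hk0 (g1 _ hr) (g2 (t + h))
    have b2 := hs_flow_sub_self_norm_le hQ hk0 (g2 (t + h))
    rw [← e1] at b1
    rw [← e2] at b2
    have e3 : flow Q (t + h) f - flow Q t f - h • flow Q (t - a) w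
        = -(flow Q t f - flow Q (t + h) f - k • flow Q (t + h - a) w) + k • (flow Q (t - a) w - flow Q (t + h - a) w) := by
      have : h = -k := by rw [hk]; ring
      rw [this]
      simp only [smul_sub, neg_smul]
      abel
    rw [e3]
    have b3 : ‖k • (flow Q (t - a) w - flow Q (t + h - a) w)‖ ≤ k * (k * ‖flow Q (t + h - a) z‖) := by
      rw [norm_smul, Real.norm_of_nonneg hk0]
      exact mul_le_mul_of_nonneg_left b2 hk0
    have b4 := g3 (t + h)
    have hkk : h ^ 2 = k ^ 2 := by rw [hk]; ring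
    calc ‖-(flow Q t f - flow Q (t + h) f - k • flow Q (t + h - a) w) + k • (flow Q (t - a) w - flow Q (t + h - a) w)‖
        ≤ ‖-(flow Q t f - flow Q (t + h) f - k • flow Q (t + h - a) w)‖ + ‖k • (flow Q (t - a) w - flow Q (t + h - a) w)‖ := norm_add_le _ _
      _ ≤ k ^ 2 * ‖flow Q (t + h - a) z‖ + k * (k * ‖flow Q (t + h - a) z‖) := by
          rw [norm_neg]
          exact add_le_add b1 b3
      _ = 2 * ‖flow Q (t + h - a) z‖ * k ^ 2 := by ring
      _ ≤ 2 * ‖z‖ * h ^ 2 := by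
          rw [hkk]
          exact mul_le_mul_of_nonneg_right (by linarith) (by positivity)

/-- from `hs_flow_taylor` (`hasDerivAt_iff_isLittleO`, or `HasDerivAt` via `isBigO` of `h²`) -/
theorem hs_flow_hasDerivAt (hQ : QForm Q) {t : ℝ} (ht : 0 < t) (f : H) :
    HasDerivAt (fun s => flow Q s f) (hs_gen Q (flow Q t f)) t := by
  obtain ⟨M, hM⟩ := hs_flow_taylor hQ ht f
  rw [hasDerivAt_iff_isLittleO_nhds_zero]
  have h1 : (fun h : ℝ => flow Q (t + h) f - flow Q t f - h • hs_gen Q (flow Q t f)) =O[𝓝 0] (fun h : ℝ => h ^ 2) := by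
    refine Asymptotics.IsBigO.of_bound M ?_
    have : ∀ᶠ h : ℝ in 𝓝 0, |h| < t / 2 := by
      have := (continuous_abs.tendsto (0 : ℝ)).eventually (gt_mem_nhds (show |(0 : ℝ)| < t / 2 by simpa using half_pos ht))
      exact this
    filter_upwards [this] with h hh
    rw [Real.norm_of_nonneg (sq_nonneg h)]
    exact hM h hh.le
  exact h1.trans_isLittleO (Asymptotics.isLittleO_pow_id (by norm_num))

/-- right derivative at `0` on `D(A)`.  On `D(A²)` by `hs_flow_second_order`; in general: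
`t⁻¹ (S t f - f) - w` is bounded by ... use `g = J_δ f`, `A g = J_δ w`:
`‖t⁻¹(S t (f-g) - (f-g))‖ ≤ ‖w - J_δ w‖` (`hs_flow_sub_self_norm_le`). -/
theorem hs_flow_hasDerivWithinAt_zero (hQ : QForm Q) {f w : H} (h : IsGen Q f w) :
    HasDerivWithinAt (fun s => flow Q s f) w (Ici 0) 0 := by
  rw [hasDerivWithinAt_iff_isLittleO, Asymptotics.isLittleO_iff]
  intro c hc
  have h1 : ∀ᶠ δ in 𝓝[>] (0 : ℝ), ‖prox Q δ w - w‖ < c / 3 := by
    have h2 := (hs_prox_tendsto hQ w).eventually (Metric.ball_mem_nhds w (show 0 < c / 3 by positivity))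
    filter_upwards [h2] with δ hδ
    rwa [dist_eq_norm] at hδ
  obtain ⟨δ, hδ1, hδ0⟩ := (h1.and self_mem_nhdsWithin).exists
  have hδ : 0 < δ := hδ0
  set g := prox Q δ f with hgdef
  set w' := prox Q δ w with hw'def
  set z := δ⁻¹ • (w' - w) with hzdef
  have hg : IsGen Q g w' := hs_isGen_prox hQ hδ h
  have hw' : IsGen Q w' z := hs_prox_isGen hQ hδ w
  have hfg : IsGen Q (f - g) (w - w') := hs_isGen_sub hQ h hg
  have h3 : ∀ᶠ t in 𝓝[Ici 0] (0 : ℝ), t * ‖z‖ < c / 3 := by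
    have h4 : Tendsto (fun t : ℝ => t * ‖z‖) (𝓝 0) (𝓝 0) := by
      have h5 : Continuous (fun t : ℝ => t * ‖z‖) := by fun_prop
      have := h5.tendsto (0 : ℝ)
      simpa using this
    exact (h4.mono_left nhdsWithin_le_nhds).eventually (Iio_mem_nhds (by positivity))
  filter_upwards [h3, self_mem_nhdsWithin] with t ht1 ht0
  have ht0' : 0 ≤ t := ht0
  simp only [hs_flow_zero, sub_zero]
  have e : flow Q t f - f - t • w
      = (flow Q t g - g - t • w') + (flow Q t (f - g) - (f - g)) - t • (w - w') := by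
    rw [hs_flow_map_sub hQ]
    simp only [smul_sub]
    abel
  rw [e]
  have a1 := hs_flow_second_order hQ ht0' hg hw'
  have a2 := hs_flow_sub_self_norm_le hQ ht0' hfg
  have a3 : ‖t • (w - w')‖ = t * ‖w - w'‖ := by rw [norm_smul, Real.norm_of_nonneg ht0']
  have a4 : ‖w - w'‖ < c / 3 := by rw [norm_sub_rev]; exact hδ1
  have a5 : ‖(flow Q t g - g - t • w') + (flow Q t (f - g) - (f - g)) - t • (w - w')‖
      ≤ ‖flow Q t g - g - t • w'‖ + ‖flow Q t (f - g) - (f - g)‖ + ‖t • (w - w')‖ :=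
    (norm_sub_le _ _).trans (add_le_add_left (norm_add_le _ _) _)
  rw [Real.norm_of_nonneg ht0']
  have a6 : t * ‖w - w'‖ ≤ t * (c / 3) := mul_le_mul_of_nonneg_left a4.le ht0'
  have a7 : t ^ 2 * ‖z‖ ≤ t * (c / 3) := by
    have : t ^ 2 * ‖z‖ = t * (t * ‖z‖) := by ring
    rw [this]
    exact mul_le_mul_of_nonneg_left ht1.le ht0'
  linarith

/-- weak form: `d/dt ⟪S t f, v⟫ = - b (S t f) v` -/
theorem hs_inner_flow_hasDerivAt (hQ : QForm Q) {t : ℝ} (ht : 0 < t) (f : H) {v : H} (hv : Q v < ∞) :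
    HasDerivAt (fun s => ⟪flow Q s f, v⟫) (- bil Q (flow Q t f) v) t := by
  have h1 := hs_flow_hasDerivAt hQ ht f
  have h2 := HasDerivAt.inner ℝ h1 (hasDerivAt_const t v)
  have h3 := (hs_isGen_flow_gen hQ ht f).2 v hv
  rw [h3, neg_neg]
  simpa using h2

/-- `d/dt ‖S t f‖²/2 = - b (S t f) (S t f)` (`HasDerivAt.norm_sq` or `HasDerivAt.inner`, `hs_isGen_inner_self`) -/
theorem hs_norm_sq_flow_hasDerivAt (hQ : QForm Q) {t : ℝ} (ht : 0 < t) (f : H) :
    HasDerivAt (fun s => ‖flow Q s f‖ ^ 2 / 2) (- bil Q (flow Q t f) (flow Q t f)) t := by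
  have h1 := hs_flow_hasDerivAt hQ ht f
  have h2 := (h1.norm_sq).div_const 2
  have h3 := hs_isGen_inner_self hQ (hs_isGen_flow_gen hQ ht f)
  have e : 2 * ⟪flow Q t f, hs_gen Q (flow Q t f)⟫ / 2 = - bil Q (flow Q t f) (flow Q t f) := by
    rw [← h3, real_inner_comm]
    ring
  rw [e] at h2
  exact h2

/-- `S t` is symmetric for `b` (for `t > 0`: `b (S t f) g = - ⟪A S t f, g⟫`, and `⟪A S t f, g⟫ = ⟪f, A S t g⟫` because
`A S t f = lim h⁻¹ (S (t+h) f - S t f)` and `S` is symmetric; `t ≤ 0` trivial) -/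
theorem hs_bil_flow_symm (hQ : QForm Q) (t : ℝ) {f g : H} (hf : Q f < ∞) (hg : Q g < ∞) :
    bil Q (flow Q t f) g = bil Q f (flow Q t g) := by
  rcases le_or_gt t 0 with ht | ht
  · rw [hs_flow_of_nonpos ht, hs_flow_of_nonpos ht]
  · have h1 := hs_inner_flow_hasDerivAt hQ ht f hg
    have h2 := hs_inner_flow_hasDerivAt hQ ht g hf
    have e : (fun s => ⟪flow Q s f, g⟫) = fun s => ⟪flow Q s g, f⟫ := by
      funext s
      rw [hs_flow_symm hQ, real_inner_comm]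
    rw [e] at h1
    have h3 := h1.unique h2
    rw [hs_bil_comm hQ f (flow Q t g)]
    linarith

omit [CompleteSpace H] in
/-- lower semicontinuity in real form: eventually `q (u n) > q v - ε` -/
theorem hs_lsc_toReal_ev (hQ : QForm Q) {u : ℕ → H} {v : H} (hu : Tendsto u atTop (𝓝 v)) (hfin : ∀ n, Q (u n) < ∞)
    (hv : Q v < ∞) {ε : ℝ} (hε : 0 < ε) : ∀ᶠ n in atTop, (Q v).toReal - ε < (Q (u n)).toReal := by
  rcases lt_or_ge ((Q v).toReal - ε) 0 with hneg | hpos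
  · exact Eventually.of_forall fun n => lt_of_lt_of_le hneg ENNReal.toReal_nonneg
  · have ha : ENNReal.ofReal ((Q v).toReal - ε) < Q v := by
      rw [ENNReal.ofReal_lt_iff_lt_toReal hpos hv.ne]
      linarith
    have h1 := hu.eventually (hQ.lsc v _ ha)
    filter_upwards [h1] with n hn
    exact (ENNReal.ofReal_lt_iff_lt_toReal hpos (hfin n).ne).1 hn

/-- difference quotients converge in the form norm (HS3, last item).  As in `hs_toReal_flow_sub_le`, from `hs_toReal_quot_le`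
with `δ = t/(n+1)`: `q (t⁻¹ (S t f - f) - w) ≤ q w - q (S t w)`. -/
theorem hs_toReal_flow_quot_le (hQ : QForm Q) {t : ℝ} (ht : 0 < t) {f w : H} (h : IsGen Q f w) (hw : Q w < ∞) :
    (Q (t⁻¹ • (flow Q t f - f) - w)).toReal ≤ (Q w).toReal - (Q (flow Q t w)).toReal ∧
      Q (t⁻¹ • (flow Q t f - f) - w) < ∞ := by
  have hf : Q f < ∞ := h.1
  have hδ : ∀ n : ℕ, 0 < t / ((n : ℝ) + 1) := fun n => by positivity
  have hSw : Q (flow Q t w) < ∞ := lt_of_le_of_lt (hs_Q_flow_le hQ t w) hw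
  have hitw : ∀ n : ℕ, Q ((prox Q (t / ((n : ℝ) + 1)))^[n + 1] w) < ∞ := fun n =>
    lt_of_le_of_lt (hs_Q_iterate_le hQ (hδ n) (n + 1) w) hw
  have hitf : ∀ n : ℕ, Q ((prox Q (t / ((n : ℝ) + 1)))^[n + 1] f) < ∞ := fun n =>
    lt_of_le_of_lt (hs_Q_iterate_le hQ (hδ n) (n + 1) f) hf
  have hx : Tendsto (fun n : ℕ => t⁻¹ • ((prox Q (t / ((n : ℝ) + 1)))^[n + 1] f - f) - w) atTop
      (𝓝 (t⁻¹ • (flow Q t f - f) - w)) :=
    (((hs_flow_tendsto hQ ht f).sub_const f).const_smul t⁻¹).sub_const w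
  have hxfin : ∀ n : ℕ, Q (t⁻¹ • ((prox Q (t / ((n : ℝ) + 1)))^[n + 1] f - f) - w) < ∞ := fun n =>
    hs_dom_sub hQ (hs_dom_smul hQ _ (hs_dom_sub hQ (hitf n) hf)) hw
  have hquot : ∀ n : ℕ, (Q (t⁻¹ • ((prox Q (t / ((n : ℝ) + 1)))^[n + 1] f - f) - w)).toReal
      ≤ (Q w).toReal - (Q ((prox Q (t / ((n : ℝ) + 1)))^[n + 1] w)).toReal := by
    intro n
    have h1 := hs_toReal_quot_le hQ (hδ n) n h hw
    have e : ((n : ℝ) + 1) * (t / ((n : ℝ) + 1)) = t := by
      field_simp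
    rwa [e] at h1
  have key : ∀ ε : ℝ, 0 < ε →
      Q (t⁻¹ • (flow Q t f - f) - w) ≤ ENNReal.ofReal ((Q w).toReal - (Q (flow Q t w)).toReal + ε) := by
    intro ε hε
    refine hs_lsc_le hQ hx ?_
    filter_upwards [hs_lsc_toReal_ev hQ (hs_flow_tendsto hQ ht w) hitw hSw hε] with n hn
    rw [← ENNReal.ofReal_toReal (hxfin n).ne]
    apply ENNReal.ofReal_le_ofReal
    linarith [hquot n]
  have hfin : Q (t⁻¹ • (flow Q t f - f) - w) < ∞ := lt_of_le_of_lt (key 1 one_pos) ENNReal.ofReal_lt_top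
  refine ⟨?_, hfin⟩
  apply le_of_forall_pos_le_add
  intro ε hε
  have hmono : (Q (flow Q t w)).toReal ≤ (Q w).toReal :=
    ENNReal.toReal_mono hw.ne (hs_Q_flow_le hQ t w)
  exact ENNReal.toReal_le_of_le_ofReal (by linarith) (key ε hε)

theorem hs_Q_flow_quot_tendsto (hQ : QForm Q) {f w : H} (h : IsGen Q f w) (hw : Q w < ∞) :
    Tendsto (fun t => Q (t⁻¹ • (flow Q t f - f) - w)) (𝓝[>] 0) (𝓝 0) := by
  have h1 : Tendsto (fun t => (Q (flow Q t w)).toReal) (𝓝 0) (𝓝 (Q w).toReal) :=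
    (ENNReal.tendsto_toReal hw.ne).comp (hs_Q_flow_tendsto hQ w)
  have h2 : Tendsto (fun t => ENNReal.ofReal ((Q w).toReal - (Q (flow Q t w)).toReal)) (𝓝 0) (𝓝 0) := by
    have h3 := ENNReal.tendsto_ofReal (h1.const_sub (Q w).toReal)
    simpa using h3
  refine tendsto_of_tendsto_of_tendsto_of_le_of_le' tendsto_const_nhds (h2.mono_left nhdsWithin_le_nhds)
    (Eventually.of_forall fun _ => zero_le) ?_
  filter_upwards [self_mem_nhdsWithin] with t ht
  obtain ⟨a1, a2⟩ := hs_toReal_flow_quot_le hQ (show 0 < t from ht) h hw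
  rw [← ENNReal.ofReal_toReal a2.ne]
  exact ENNReal.ofReal_le_ofReal a1

/-! ### D. Laplace transform (HS4) -/

/-- integrability of the Laplace integrand (bounded continuous times `e^{-t/δ}`) -/
theorem hs_laplace_integrable_aux (hQ : QForm Q) {δ : ℝ} (hδ : 0 < δ) (f h : H) :
    IntegrableOn (fun t : ℝ => δ⁻¹ * Real.exp (-t / δ) * ⟪flow Q t f, h⟫) (Ioi 0) := by
  have hb : IntegrableOn (fun t : ℝ => (δ⁻¹ * (‖f‖ * ‖h‖)) * Real.exp (-δ⁻¹ * t)) (Ioi 0) :=
    (exp_neg_integrableOn_Ioi 0 (inv_pos.2 hδ)).const_mul _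
  have hc : Continuous (fun t : ℝ => δ⁻¹ * Real.exp (-t / δ) * ⟪flow Q t f, h⟫) := by
    have := hs_flow_continuous hQ f
    fun_prop
  refine Integrable.mono' hb hc.aestronglyMeasurable (Eventually.of_forall fun t => ?_)
  have h1 : |⟪flow Q t f, h⟫| ≤ ‖f‖ * ‖h‖ :=
    (abs_real_inner_le_norm _ _).trans (mul_le_mul_of_nonneg_right (hs_flow_norm_le hQ t f) (norm_nonneg _))
  have e : -t / δ = -δ⁻¹ * t := by
    field_simp
  rw [Real.norm_eq_abs, abs_mul, abs_mul, abs_of_pos (inv_pos.2 hδ), abs_of_pos (Real.exp_pos _), e]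
  have h2 : 0 ≤ δ⁻¹ * Real.exp (-δ⁻¹ * t) := by positivity
  calc δ⁻¹ * Real.exp (-δ⁻¹ * t) * |⟪flow Q t f, h⟫| ≤ δ⁻¹ * Real.exp (-δ⁻¹ * t) * (‖f‖ * ‖h‖) :=
        mul_le_mul_of_nonneg_left h1 h2
    _ = (δ⁻¹ * (‖f‖ * ‖h‖)) * Real.exp (-δ⁻¹ * t) := by ring

/-- `φ t = e^{-t/δ} ⟪S t f, J_δ h⟫` is continuous on `[0,∞)`, tends to `0` at `∞`, and for `t > 0`
`φ' t = e^{-t/δ} (⟪A S t f, g⟫ - δ⁻¹ ⟪S t f, g⟫) = - δ⁻¹ e^{-t/δ} ⟪S t f, g - δ A g⟫ = - δ⁻¹ e^{-t/δ} ⟪S t f, h⟫`, `g = J_δ h`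
(`hs_isGen_symm`, `hs_prox_isGen`).  `integral_Ioi_of_hasDerivAt_of_tendsto`; integrability: bounded continuous times `e^{-t/δ}`. -/
theorem hs_laplace (hQ : QForm Q) {δ : ℝ} (hδ : 0 < δ) (f h : H) :
    ⟪prox Q δ f, h⟫ = ∫ t in Ioi (0 : ℝ), δ⁻¹ * Real.exp (-t / δ) * ⟪flow Q t f, h⟫ := by
  set g := prox Q δ h with hg
  have hgen : IsGen Q g (δ⁻¹ • (g - h)) := hs_prox_isGen hQ hδ h
  set φ : ℝ → ℝ := fun t => Real.exp (-t / δ) * ⟪flow Q t f, g⟫ with hφ
  have hcont : Continuous φ := by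
    have := hs_flow_continuous hQ f
    rw [hφ]
    fun_prop
  have hderiv : ∀ t ∈ Ioi (0 : ℝ), HasDerivAt φ (-(δ⁻¹ * Real.exp (-t / δ) * ⟪flow Q t f, h⟫)) t := by
    intro t ht
    have ht0 : 0 < t := ht
    have d1 : HasDerivAt (fun s : ℝ => Real.exp (-s / δ)) (Real.exp (-t / δ) * (-1 / δ)) t :=
      (((hasDerivAt_id t).neg).div_const δ).exp
    have d2 : HasDerivAt (fun s => ⟪flow Q s f, g⟫) (- bil Q (flow Q t f) g) t :=
      hs_inner_flow_hasDerivAt hQ ht0 f hgen.1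
    have d3 := d1.mul d2
    have e1 : bil Q (flow Q t f) g = - ⟪δ⁻¹ • (g - h), flow Q t f⟫ := by
      rw [hs_bil_comm hQ]
      exact hgen.2 _ (hs_flow_dom hQ ht0 f)
    have e2 : Real.exp (-t / δ) * (-1 / δ) * ⟪flow Q t f, g⟫ + Real.exp (-t / δ) * (- bil Q (flow Q t f) g)
        = -(δ⁻¹ * Real.exp (-t / δ) * ⟪flow Q t f, h⟫) := by
      rw [e1, real_inner_smul_left, inner_sub_left, real_inner_comm (flow Q t f) g, real_inner_comm (flow Q t f) h]
      field_simp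
      ring
    rw [e2] at d3
    exact d3
  have hint : IntegrableOn (fun t : ℝ => -(δ⁻¹ * Real.exp (-t / δ) * ⟪flow Q t f, h⟫)) (Ioi 0) :=
    (hs_laplace_integrable_aux hQ hδ f h).neg
  have hlim : Tendsto φ atTop (𝓝 0) := by
    have hexp : Tendsto (fun t : ℝ => Real.exp (-t / δ) * (‖f‖ * ‖g‖)) atTop (𝓝 0) := by
      have h1 : Tendsto (fun t : ℝ => -t / δ) atTop atBot := by
        have : (fun t : ℝ => -t / δ) = fun t => (-δ⁻¹) * t := by
          funext t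
          field_simp
        rw [this]
        exact tendsto_id.const_mul_atTop_of_neg (by simpa using hδ)
      have h2 := (Real.tendsto_exp_atBot.comp h1).mul_const (‖f‖ * ‖g‖)
      simpa using h2
    refine squeeze_zero_norm (fun t => ?_) hexp
    have h1 : |⟪flow Q t f, g⟫| ≤ ‖f‖ * ‖g‖ :=
      (abs_real_inner_le_norm _ _).trans (mul_le_mul_of_nonneg_right (hs_flow_norm_le hQ t f) (norm_nonneg _))
    rw [hφ, Real.norm_eq_abs, abs_mul, abs_of_pos (Real.exp_pos _)]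
    exact mul_le_mul_of_nonneg_left h1 (Real.exp_pos _).le
  have hmain := integral_Ioi_of_hasDerivAt_of_tendsto hcont.continuousWithinAt hderiv hint hlim
  rw [integral_neg] at hmain
  have h0 : φ 0 = ⟪f, g⟫ := by
    simp [hφ, hs_flow_zero]
  rw [h0, ← hs_prox_symm hQ hδ f h] at hmain
  linarith

theorem hs_laplace_integrable (hQ : QForm Q) {δ : ℝ} (hδ : 0 < δ) (f h : H) :
    IntegrableOn (fun t : ℝ => δ⁻¹ * Real.exp (-t / δ) * ⟪flow Q t f, h⟫) (Ioi 0) := by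
  exact hs_laplace_integrable_aux hQ hδ f h

end Claimed.Agent.R210.HS.Reg
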