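/-
Row 210, layer HS: INTERFACE.  Consumers import this file only, and write
`open Claimed.Agent.R210.HS.Defs Claimed.Agent.R210.HS.Ifc`  (do not open the leaf namespaces `HS.Form`, `HS.Prox`, ...).
Architect: helper751.  Contract: `git show origin/helper928:docs/R210_master.md`, section HS.
This file is GENERATED from the leaf files (same names, same statements); the proofs live in
`HS/Form.lean`, `HS/Prox.lean`, `HS/Gen.lean`, `HS/Step.lean`, `HS/Flow.lean`, `HS/Reg.lean`.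

Dictionary: `q u = (Q u).toReal`, `b = bil Q` (`b u u = 2 q u`), `J_δ = prox Q δ = (1 - δ A)⁻¹`, `S t = flow Q t = e^{tA}`,
`IsGen Q u w` means `w = A u`, `hs_gen Q u = A u`.
-/
import Claimed.Agent.R210.HS.Reg

set_option autoImplicit false

open Set Filter MeasureTheory
open scoped ENNReal NNReal Topology RealInnerProductSpace
open Claimed.Agent.R210.HS.Defs

namespace Claimed.Agent.R210.HS.Ifc

export Claimed.Agent.R210.HS.Form (hs_dom hs_bilin)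
export Claimed.Agent.R210.HS.Prox (hs_proxL)
export Claimed.Agent.R210.HS.Gen (hs_gen)
export Claimed.Agent.R210.HS.Step (hs_Step hs_E)
export Claimed.Agent.R210.HS.Flow (hs_flowL)

variable {H : Type*} [NormedAddCommGroup H] [InnerProductSpace ℝ H] {Q : H → ℝ≥0∞}


/-! ## HS1: form domain, bilinear form, Cauchy-Schwarz, lower semicontinuity, completeness -/

section

theorem hs_dom_zero (hQ : QForm Q) : Q 0 < ∞ :=
  Form.hs_dom_zero hQ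

theorem hs_dom_smul (hQ : QForm Q) (c : ℝ) {u : H} (hu : Q u < ∞) : Q (c • u) < ∞ :=
  Form.hs_dom_smul hQ c hu

theorem hs_dom_neg (hQ : QForm Q) {u : H} (hu : Q u < ∞) : Q (-u) < ∞ :=
  Form.hs_dom_neg hQ hu

theorem hs_dom_add (hQ : QForm Q) {u v : H} (hu : Q u < ∞) (hv : Q v < ∞) : Q (u + v) < ∞ :=
  Form.hs_dom_add hQ hu hv

theorem hs_dom_sub (hQ : QForm Q) {u v : H} (hu : Q u < ∞) (hv : Q v < ∞) : Q (u - v) < ∞ :=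
  Form.hs_dom_sub hQ hu hv

theorem hs_Q_smul (hQ : QForm Q) {c : ℝ} (hc : c ≠ 0) (u : H) : Q (c • u) = ENNReal.ofReal (c ^ 2) * Q u :=
  Form.hs_Q_smul hQ hc u

theorem hs_Q_neg (hQ : QForm Q) (u : H) : Q (-u) = Q u :=
  Form.hs_Q_neg hQ u

theorem hs_Q_sub_comm (hQ : QForm Q) (u v : H) : Q (u - v) = Q (v - u) :=
  Form.hs_Q_sub_comm hQ u v

theorem hs_Q_add_le (hQ : QForm Q) (u v : H) : Q (u + v) ≤ 2 * Q u + 2 * Q v :=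
  Form.hs_Q_add_le hQ u v

theorem hs_mem_dom (hQ : QForm Q) (u : H) : u ∈ hs_dom hQ ↔ Q u < ∞ :=
  Form.hs_mem_dom hQ u

theorem hs_dom_sum (hQ : QForm Q) {ι : Type*} (s : Finset ι) (u : ι → H) (hu : ∀ i ∈ s, Q (u i) < ∞) :
    Q (∑ i ∈ s, u i) < ∞ :=
  Form.hs_dom_sum hQ s u hu

theorem hs_par (hQ : QForm Q) {u v : H} (hu : Q u < ∞) (hv : Q v < ∞) :
    (Q (u + v)).toReal + (Q (u - v)).toReal = 2 * (Q u).toReal + 2 * (Q v).toReal :=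
  Form.hs_par hQ hu hv

theorem hs_toReal_smul (hQ : QForm Q) (c : ℝ) (u : H) : (Q (c • u)).toReal = c ^ 2 * (Q u).toReal :=
  Form.hs_toReal_smul hQ c u

theorem hs_bil_self (hQ : QForm Q) (u : H) : bil Q u u = 2 * (Q u).toReal :=
  Form.hs_bil_self hQ u

theorem hs_bil_self_nonneg (hQ : QForm Q) (u : H) : 0 ≤ bil Q u u :=
  Form.hs_bil_self_nonneg hQ u

theorem hs_bil_comm (hQ : QForm Q) (u v : H) : bil Q u v = bil Q v u :=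
  Form.hs_bil_comm hQ u v

theorem hs_bil_neg_left (hQ : QForm Q) (u v : H) : bil Q (-u) v = - bil Q u v :=
  Form.hs_bil_neg_left hQ u v

theorem hs_bil_neg_right (hQ : QForm Q) (u v : H) : bil Q u (-v) = - bil Q u v :=
  Form.hs_bil_neg_right hQ u v

theorem hs_bil_zero_left (hQ : QForm Q) (v : H) : bil Q 0 v = 0 :=
  Form.hs_bil_zero_left hQ v

theorem hs_bil_zero_right (hQ : QForm Q) (u : H) : bil Q u 0 = 0 :=
  Form.hs_bil_zero_right hQ u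

theorem hs_toReal_add (hQ : QForm Q) {u v : H} (hu : Q u < ∞) (hv : Q v < ∞) :
    (Q (u + v)).toReal = (Q u).toReal + (Q v).toReal + bil Q u v :=
  Form.hs_toReal_add hQ hu hv

theorem hs_toReal_sub (hQ : QForm Q) {u v : H} (hu : Q u < ∞) (hv : Q v < ∞) :
    (Q (u - v)).toReal = (Q u).toReal + (Q v).toReal - bil Q u v :=
  Form.hs_toReal_sub hQ hu hv

theorem hs_bil_add_sub (hQ : QForm Q) {u v w : H} (hu : Q u < ∞) (hv : Q v < ∞) (hw : Q w < ∞) :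
    bil Q (u + v) w + bil Q (u - v) w = 2 * bil Q u w :=
  Form.hs_bil_add_sub hQ hu hv hw

theorem hs_bil_add_left (hQ : QForm Q) {u v w : H} (hu : Q u < ∞) (hv : Q v < ∞) (hw : Q w < ∞) :
    bil Q (u + v) w = bil Q u w + bil Q v w :=
  Form.hs_bil_add_left hQ hu hv hw

theorem hs_abs_bil_le_add (hQ : QForm Q) {u v : H} (hu : Q u < ∞) (hv : Q v < ∞) :
    |bil Q u v| ≤ (Q u).toReal + (Q v).toReal :=
  Form.hs_abs_bil_le_add hQ hu hv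

theorem hs_bil_smul_left (hQ : QForm Q) (c : ℝ) {u v : H} (hu : Q u < ∞) (hv : Q v < ∞) :
    bil Q (c • u) v = c * bil Q u v :=
  Form.hs_bil_smul_left hQ c hu hv

theorem hs_bil_add_right (hQ : QForm Q) {u v w : H} (hu : Q u < ∞) (hv : Q v < ∞) (hw : Q w < ∞) :
    bil Q u (v + w) = bil Q u v + bil Q u w :=
  Form.hs_bil_add_right hQ hu hv hw

theorem hs_bil_smul_right (hQ : QForm Q) (c : ℝ) {u v : H} (hu : Q u < ∞) (hv : Q v < ∞) :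
    bil Q u (c • v) = c * bil Q u v :=
  Form.hs_bil_smul_right hQ c hu hv

theorem hs_bil_sub_left (hQ : QForm Q) {u v w : H} (hu : Q u < ∞) (hv : Q v < ∞) (hw : Q w < ∞) :
    bil Q (u - v) w = bil Q u w - bil Q v w :=
  Form.hs_bil_sub_left hQ hu hv hw

theorem hs_bil_sub_right (hQ : QForm Q) {u v w : H} (hu : Q u < ∞) (hv : Q v < ∞) (hw : Q w < ∞) :
    bil Q u (v - w) = bil Q u v - bil Q u w :=
  Form.hs_bil_sub_right hQ hu hv hw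

theorem hs_bil_sum_left (hQ : QForm Q) {ι : Type*} (s : Finset ι) (u : ι → H) (hu : ∀ i ∈ s, Q (u i) < ∞)
    {v : H} (hv : Q v < ∞) : bil Q (∑ i ∈ s, u i) v = ∑ i ∈ s, bil Q (u i) v :=
  Form.hs_bil_sum_left hQ s u hu hv

theorem hs_bil_sq_le (hQ : QForm Q) {u v : H} (hu : Q u < ∞) (hv : Q v < ∞) :
    bil Q u v ^ 2 ≤ bil Q u u * bil Q v v :=
  Form.hs_bil_sq_le hQ hu hv

theorem hs_abs_bil_le (hQ : QForm Q) {u v : H} (hu : Q u < ∞) (hv : Q v < ∞) :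
    |bil Q u v| ≤ Real.sqrt (bil Q u u) * Real.sqrt (bil Q v v) :=
  Form.hs_abs_bil_le hQ hu hv

theorem hs_sqrt_add_le (hQ : QForm Q) {u v : H} (hu : Q u < ∞) (hv : Q v < ∞) :
    Real.sqrt (Q (u + v)).toReal ≤ Real.sqrt (Q u).toReal + Real.sqrt (Q v).toReal :=
  Form.hs_sqrt_add_le hQ hu hv

theorem hs_sqrt_sum_le (hQ : QForm Q) {ι : Type*} (s : Finset ι) (u : ι → H) (hu : ∀ i ∈ s, Q (u i) < ∞) :
    Real.sqrt (Q (∑ i ∈ s, u i)).toReal ≤ ∑ i ∈ s, Real.sqrt (Q (u i)).toReal :=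
  Form.hs_sqrt_sum_le hQ s u hu

theorem hs_toReal_ge (hQ : QForm Q) {u v : H} (hu : Q u < ∞) (hv : Q v < ∞) :
    (Q u).toReal + bil Q u (v - u) ≤ (Q v).toReal :=
  Form.hs_toReal_ge hQ hu hv

theorem hs_Q_convex (hQ : QForm Q) {a c : ℝ} (ha : 0 ≤ a) (hc : 0 ≤ c) (hac : a + c = 1) (u v : H) :
    Q (a • u + c • v) ≤ ENNReal.ofReal a * Q u + ENNReal.ofReal c * Q v :=
  Form.hs_Q_convex hQ ha hc hac u v

theorem hs_lsc_le (hQ : QForm Q) {ι : Type*} {l : Filter ι} [l.NeBot] {u : ι → H} {v : H} {c : ℝ≥0∞}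
    (hu : Tendsto u l (𝓝 v)) (hc : ∀ᶠ i in l, Q (u i) ≤ c) : Q v ≤ c :=
  Form.hs_lsc_le hQ hu hc

theorem hs_tendsto_Q (hQ : QForm Q) {ι : Type*} {l : Filter ι} {u : ι → H} {v : H}
    (hu : Tendsto u l (𝓝 v)) (hc : ∀ᶠ i in l, Q (u i) ≤ Q v) : Tendsto (fun i => Q (u i)) l (𝓝 (Q v)) :=
  Form.hs_tendsto_Q hQ hu hc

theorem hs_complete [CompleteSpace H] (hQ : QForm Q) {u : ℕ → H} (hu : ∀ n, Q (u n) < ∞) (hc : CauchySeq u)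
    (hq : ∀ ε : ℝ≥0∞, 0 < ε → ∃ N, ∀ n ≥ N, ∀ k ≥ N, Q (u n - u k) ≤ ε) :
    ∃ v, Q v < ∞ ∧ Tendsto u atTop (𝓝 v) ∧ Tendsto (fun n => Q (u n - v)) atTop (𝓝 0) :=
  Form.hs_complete hQ hu hc hq

end


/-! ## HS2: resolvent `prox Q δ` -/

section

theorem hs_isProx_dom (hQ : QForm Q) {δ : ℝ} {f u : H} (h : IsProx Q δ f u) : Q u < ∞ :=
  Prox.hs_isProx_dom hQ h

theorem hs_isProx_iff_real (hQ : QForm Q) {δ : ℝ} (hδ : 0 < δ) {f u : H} :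
    IsProx Q δ f u ↔ Q u < ∞ ∧ ∀ v, Q v < ∞ →
      (Q u).toReal + ‖u - f‖ ^ 2 / (2 * δ) ≤ (Q v).toReal + ‖v - f‖ ^ 2 / (2 * δ) :=
  Prox.hs_isProx_iff_real hQ hδ

theorem hs_phi_expand (hQ : QForm Q) {δ : ℝ} (hδ : 0 < δ) {f u v : H} (hu : Q u < ∞) (hv : Q v < ∞) :
    (Q (u + v)).toReal + ‖u + v - f‖ ^ 2 / (2 * δ) =
      (Q u).toReal + ‖u - f‖ ^ 2 / (2 * δ) + (bil Q u v + δ⁻¹ * ⟪u - f, v⟫) + ((Q v).toReal + ‖v‖ ^ 2 / (2 * δ)) :=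
  Prox.hs_phi_expand hQ hδ hu hv

theorem hs_isProx_iff_isGen (hQ : QForm Q) {δ : ℝ} (hδ : 0 < δ) {f u : H} :
    IsProx Q δ f u ↔ IsGen Q u (δ⁻¹ • (u - f)) :=
  Prox.hs_isProx_iff_isGen hQ hδ

theorem hs_isProx_unique (hQ : QForm Q) {δ : ℝ} (hδ : 0 < δ) {f u u' : H}
    (h : IsProx Q δ f u) (h' : IsProx Q δ f u') : u = u' :=
  Prox.hs_isProx_unique hQ hδ h h'

theorem hs_phi_midpoint (hQ : QForm Q) {δ : ℝ} (hδ : 0 < δ) (f : H) {v w : H} (hv : Q v < ∞) (hw : Q w < ∞) :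
    (Q ((1 / 2 : ℝ) • (v + w))).toReal + ‖(1 / 2 : ℝ) • (v + w) - f‖ ^ 2 / (2 * δ) + ‖v - w‖ ^ 2 / (8 * δ) ≤
      (((Q v).toReal + ‖v - f‖ ^ 2 / (2 * δ)) + ((Q w).toReal + ‖w - f‖ ^ 2 / (2 * δ))) / 2 :=
  Prox.hs_phi_midpoint hQ hδ f hv hw

theorem hs_exists_isProx [CompleteSpace H] (hQ : QForm Q) {δ : ℝ} (hδ : 0 < δ) (f : H) : ∃ u, IsProx Q δ f u :=
  Prox.hs_exists_isProx hQ hδ f

variable [CompleteSpace H]

theorem hs_isProx_prox (hQ : QForm Q) {δ : ℝ} (hδ : 0 < δ) (f : H) : IsProx Q δ f (prox Q δ f) :=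
  Prox.hs_isProx_prox hQ hδ f

theorem hs_eq_prox_iff (hQ : QForm Q) {δ : ℝ} (hδ : 0 < δ) {f u : H} :
    u = prox Q δ f ↔ IsGen Q u (δ⁻¹ • (u - f)) :=
  Prox.hs_eq_prox_iff hQ hδ

theorem hs_prox_dom (hQ : QForm Q) {δ : ℝ} (hδ : 0 < δ) (f : H) : Q (prox Q δ f) < ∞ :=
  Prox.hs_prox_dom hQ hδ f

theorem hs_prox_isGen (hQ : QForm Q) {δ : ℝ} (hδ : 0 < δ) (f : H) :
    IsGen Q (prox Q δ f) (δ⁻¹ • (prox Q δ f - f)) :=
  Prox.hs_prox_isGen hQ hδ f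

theorem hs_prox_weak (hQ : QForm Q) {δ : ℝ} (hδ : 0 < δ) (f : H) {v : H} (hv : Q v < ∞) :
    ⟪prox Q δ f, v⟫ + δ * bil Q (prox Q δ f) v = ⟪f, v⟫ :=
  Prox.hs_prox_weak hQ hδ f hv

theorem hs_eq_prox_of_weak (hQ : QForm Q) {δ : ℝ} (hδ : 0 < δ) {f u : H} (hu : Q u < ∞)
    (h : ∀ v, Q v < ∞ → ⟪u, v⟫ + δ * bil Q u v = ⟪f, v⟫) : u = prox Q δ f :=
  Prox.hs_eq_prox_of_weak hQ hδ hu h

theorem hs_prox_add (hQ : QForm Q) {δ : ℝ} (hδ : 0 < δ) (f g : H) :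
    prox Q δ (f + g) = prox Q δ f + prox Q δ g :=
  Prox.hs_prox_add hQ hδ f g

theorem hs_prox_smul (hQ : QForm Q) {δ : ℝ} (hδ : 0 < δ) (c : ℝ) (f : H) :
    prox Q δ (c • f) = c • prox Q δ f :=
  Prox.hs_prox_smul hQ hδ c f

theorem hs_prox_zero (hQ : QForm Q) {δ : ℝ} (hδ : 0 < δ) : prox Q δ (0 : H) = 0 :=
  Prox.hs_prox_zero hQ hδ

theorem hs_prox_neg (hQ : QForm Q) {δ : ℝ} (hδ : 0 < δ) (f : H) : prox Q δ (-f) = - prox Q δ f :=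
  Prox.hs_prox_neg hQ hδ f

theorem hs_prox_sub (hQ : QForm Q) {δ : ℝ} (hδ : 0 < δ) (f g : H) :
    prox Q δ (f - g) = prox Q δ f - prox Q δ g :=
  Prox.hs_prox_sub hQ hδ f g

theorem hs_prox_symm (hQ : QForm Q) {δ : ℝ} (hδ : 0 < δ) (f g : H) :
    ⟪prox Q δ f, g⟫ = ⟪f, prox Q δ g⟫ :=
  Prox.hs_prox_symm hQ hδ f g

theorem hs_prox_energy (hQ : QForm Q) {δ : ℝ} (hδ : 0 < δ) (f : H) :
    ‖prox Q δ f‖ ^ 2 + δ * bil Q (prox Q δ f) (prox Q δ f) = ⟪f, prox Q δ f⟫ :=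
  Prox.hs_prox_energy hQ hδ f

theorem hs_prox_norm_le (hQ : QForm Q) {δ : ℝ} (hδ : 0 < δ) (f : H) : ‖prox Q δ f‖ ≤ ‖f‖ :=
  Prox.hs_prox_norm_le hQ hδ f

theorem hs_prox_inner_nonneg (hQ : QForm Q) {δ : ℝ} (hδ : 0 < δ) (f : H) : 0 ≤ ⟪prox Q δ f, f⟫ :=
  Prox.hs_prox_inner_nonneg hQ hδ f

theorem hs_proxL_apply (hQ : QForm Q) {δ : ℝ} (hδ : 0 < δ) (f : H) : hs_proxL hQ hδ f = prox Q δ f :=
  Prox.hs_proxL_apply hQ hδ f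

theorem hs_proxL_norm_le (hQ : QForm Q) {δ : ℝ} (hδ : 0 < δ) : ‖hs_proxL hQ hδ‖ ≤ 1 :=
  Prox.hs_proxL_norm_le hQ hδ

theorem hs_prox_continuous (hQ : QForm Q) {δ : ℝ} (hδ : 0 < δ) : Continuous (prox Q δ) :=
  Prox.hs_prox_continuous hQ hδ

theorem hs_proxL_pow_apply (hQ : QForm Q) {δ : ℝ} (hδ : 0 < δ) (n : ℕ) (f : H) :
    (hs_proxL hQ hδ ^ n) f = (prox Q δ)^[n] f :=
  Prox.hs_proxL_pow_apply hQ hδ n f

theorem hs_prox_min_le (hQ : QForm Q) {δ : ℝ} (hδ : 0 < δ) (f : H) :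
    Q (prox Q δ f) + ENNReal.ofReal (‖prox Q δ f - f‖ ^ 2 / (2 * δ)) ≤ Q f :=
  Prox.hs_prox_min_le hQ hδ f

theorem hs_Q_prox_le (hQ : QForm Q) {δ : ℝ} (hδ : 0 < δ) (f : H) : Q (prox Q δ f) ≤ Q f :=
  Prox.hs_Q_prox_le hQ hδ f

theorem hs_prox_sub_sq_le (hQ : QForm Q) {δ : ℝ} (hδ : 0 < δ) {f : H} (hf : Q f < ∞) :
    ‖prox Q δ f - f‖ ^ 2 ≤ 2 * δ * (Q f).toReal :=
  Prox.hs_prox_sub_sq_le hQ hδ hf

theorem hs_prox_tendsto (hQ : QForm Q) (f : H) : Tendsto (fun δ => prox Q δ f) (𝓝[>] 0) (𝓝 f) :=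
  Prox.hs_prox_tendsto hQ f

theorem hs_Q_prox_tendsto (hQ : QForm Q) (f : H) : Tendsto (fun δ => Q (prox Q δ f)) (𝓝[>] 0) (𝓝 (Q f)) :=
  Prox.hs_Q_prox_tendsto hQ f

theorem hs_bil_prox_left (hQ : QForm Q) {δ : ℝ} (hδ : 0 < δ) (f : H) {g : H} (hg : Q g < ∞) :
    bil Q (prox Q δ f) g = δ⁻¹ * ⟪f - prox Q δ f, g⟫ :=
  Prox.hs_bil_prox_left hQ hδ f hg

theorem hs_bil_prox_symm (hQ : QForm Q) {δ : ℝ} (hδ : 0 < δ) {f g : H} (hf : Q f < ∞) (hg : Q g < ∞) :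
    bil Q (prox Q δ f) g = bil Q f (prox Q δ g) :=
  Prox.hs_bil_prox_symm hQ hδ hf hg

theorem hs_bil_prox_self (hQ : QForm Q) {δ : ℝ} (hδ : 0 < δ) {f : H} (hf : Q f < ∞) :
    bil Q (prox Q δ f) f = bil Q (prox Q δ f) (prox Q δ f) + δ⁻¹ * ‖f - prox Q δ f‖ ^ 2 :=
  Prox.hs_bil_prox_self hQ hδ hf

theorem hs_toReal_prox_sub_le (hQ : QForm Q) {δ : ℝ} (hδ : 0 < δ) {f : H} (hf : Q f < ∞) :
    (Q (prox Q δ f - f)).toReal ≤ (Q f).toReal - (Q (prox Q δ f)).toReal :=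
  Prox.hs_toReal_prox_sub_le hQ hδ hf

theorem hs_Q_prox_sub_tendsto (hQ : QForm Q) {f : H} (hf : Q f < ∞) :
    Tendsto (fun δ => Q (prox Q δ f - f)) (𝓝[>] 0) (𝓝 0) :=
  Prox.hs_Q_prox_sub_tendsto hQ hf

theorem hs_yosida_eq (hQ : QForm Q) {δ : ℝ} (hδ : 0 < δ) (f : H) :
    δ⁻¹ * ⟪f - prox Q δ f, f⟫ = 2 * ((Q (prox Q δ f)).toReal + ‖prox Q δ f - f‖ ^ 2 / (2 * δ)) :=
  Prox.hs_yosida_eq hQ hδ f

theorem hs_yosida_nonneg (hQ : QForm Q) {δ : ℝ} (hδ : 0 < δ) (f : H) : 0 ≤ δ⁻¹ * ⟪f - prox Q δ f, f⟫ :=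
  Prox.hs_yosida_nonneg hQ hδ f

theorem hs_yosida_anti (hQ : QForm Q) {δ₁ δ₂ : ℝ} (h1 : 0 < δ₁) (h12 : δ₁ ≤ δ₂) (f : H) :
    δ₂⁻¹ * ⟪f - prox Q δ₂ f, f⟫ ≤ δ₁⁻¹ * ⟪f - prox Q δ₁ f, f⟫ :=
  Prox.hs_yosida_anti hQ h1 h12 f

theorem hs_yosida_le (hQ : QForm Q) {δ : ℝ} (hδ : 0 < δ) {f : H} (hf : Q f < ∞) :
    δ⁻¹ * ⟪f - prox Q δ f, f⟫ ≤ bil Q f f :=
  Prox.hs_yosida_le hQ hδ hf

theorem hs_yosida_tendsto (hQ : QForm Q) (f : H) :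
    Tendsto (fun δ => ENNReal.ofReal (δ⁻¹ * ⟪f - prox Q δ f, f⟫)) (𝓝[>] 0) (𝓝 (2 * Q f)) :=
  Prox.hs_yosida_tendsto hQ f

theorem hs_dom_of_yosida_le (hQ : QForm Q) {f : H} {C : ℝ}
    (h : ∀ δ, 0 < δ → δ⁻¹ * ⟪f - prox Q δ f, f⟫ ≤ C) : 2 * Q f ≤ ENNReal.ofReal C :=
  Prox.hs_dom_of_yosida_le hQ h

end


/-! ## HS2/HS6: generator relation `IsGen`, resolvent identity, density, weak continuity of the form -/

section

theorem hs_isGen_unique (hQ : QForm Q) {u w w' : H} (h : IsGen Q u w) (h' : IsGen Q u w') : w = w' :=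
  Gen.hs_isGen_unique hQ h h'

theorem hs_isGen_zero (hQ : QForm Q) : IsGen Q (0 : H) 0 :=
  Gen.hs_isGen_zero hQ

theorem hs_isGen_add (hQ : QForm Q) {u w u' w' : H} (h : IsGen Q u w) (h' : IsGen Q u' w') :
    IsGen Q (u + u') (w + w') :=
  Gen.hs_isGen_add hQ h h'

theorem hs_isGen_smul (hQ : QForm Q) (c : ℝ) {u w : H} (h : IsGen Q u w) : IsGen Q (c • u) (c • w) :=
  Gen.hs_isGen_smul hQ c h

theorem hs_isGen_neg (hQ : QForm Q) {u w : H} (h : IsGen Q u w) : IsGen Q (-u) (-w) :=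
  Gen.hs_isGen_neg hQ h

theorem hs_isGen_sub (hQ : QForm Q) {u w u' w' : H} (h : IsGen Q u w) (h' : IsGen Q u' w') :
    IsGen Q (u - u') (w - w') :=
  Gen.hs_isGen_sub hQ h h'

theorem hs_isGen_symm (hQ : QForm Q) {u w v z : H} (h : IsGen Q u w) (h' : IsGen Q v z) : ⟪w, v⟫ = ⟪u, z⟫ :=
  Gen.hs_isGen_symm hQ h h'

theorem hs_isGen_inner_self (hQ : QForm Q) {u w : H} (h : IsGen Q u w) : ⟪w, u⟫ = - bil Q u u :=
  Gen.hs_isGen_inner_self hQ h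

theorem hs_isGen_gen {u w : H} (h : IsGen Q u w) : IsGen Q u (hs_gen Q u) :=
  Gen.hs_isGen_gen h

theorem hs_gen_eq (hQ : QForm Q) {u w : H} (h : IsGen Q u w) : hs_gen Q u = w :=
  Gen.hs_gen_eq hQ h

variable [CompleteSpace H]

theorem hs_prox_of_isGen (hQ : QForm Q) {δ : ℝ} (hδ : 0 < δ) {u w : H} (h : IsGen Q u w) :
    prox Q δ (u - δ • w) = u :=
  Gen.hs_prox_of_isGen hQ hδ h

theorem hs_prox_sub_self (hQ : QForm Q) {δ : ℝ} (hδ : 0 < δ) {u w : H} (h : IsGen Q u w) :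
    prox Q δ u - u = δ • prox Q δ w :=
  Gen.hs_prox_sub_self hQ hδ h

theorem hs_isGen_prox (hQ : QForm Q) {δ : ℝ} (hδ : 0 < δ) {u w : H} (h : IsGen Q u w) :
    IsGen Q (prox Q δ u) (prox Q δ w) :=
  Gen.hs_isGen_prox hQ hδ h

theorem hs_isGen_iterate (hQ : QForm Q) {δ : ℝ} (hδ : 0 < δ) (n : ℕ) {u w : H} (h : IsGen Q u w) :
    IsGen Q ((prox Q δ)^[n] u) ((prox Q δ)^[n] w) :=
  Gen.hs_isGen_iterate hQ hδ n h

theorem hs_prox_sub_self_norm_le (hQ : QForm Q) {δ : ℝ} (hδ : 0 < δ) {u w : H} (h : IsGen Q u w) :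
    ‖prox Q δ u - u‖ ≤ δ * ‖w‖ :=
  Gen.hs_prox_sub_self_norm_le hQ hδ h

theorem hs_prox_second_order (hQ : QForm Q) {δ : ℝ} (hδ : 0 < δ) {u w z : H} (h : IsGen Q u w) (h' : IsGen Q w z) :
    ‖prox Q δ u - u - δ • w‖ ≤ δ ^ 2 * ‖z‖ :=
  Gen.hs_prox_second_order hQ hδ h h'

theorem hs_isGen_closed (hQ : QForm Q) {ι : Type*} {l : Filter ι} [l.NeBot] {u w : ι → H} {u₀ w₀ : H}
    (hu : Tendsto u l (𝓝 u₀)) (hw : Tendsto w l (𝓝 w₀)) (h : ∀ᶠ i in l, IsGen Q (u i) (w i)) : IsGen Q u₀ w₀ :=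
  Gen.hs_isGen_closed hQ hu hw h

theorem hs_resolvent_identity (hQ : QForm Q) {δ ε : ℝ} (hδ : 0 < δ) (hε : 0 < ε) (f : H) :
    prox Q δ f = prox Q ε ((ε / δ) • f + (1 - ε / δ) • prox Q δ f) :=
  Gen.hs_resolvent_identity hQ hδ hε f

theorem hs_prox_prox (hQ : QForm Q) {δ ε : ℝ} (hδ : 0 < δ) (hε : 0 < ε) (f : H) :
    (δ - ε) • prox Q ε (prox Q δ f) = δ • prox Q δ f - ε • prox Q ε f :=
  Gen.hs_prox_prox hQ hδ hε f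

theorem hs_prox_comm (hQ : QForm Q) {δ ε : ℝ} (hδ : 0 < δ) (hε : 0 < ε) (f : H) :
    prox Q δ (prox Q ε f) = prox Q ε (prox Q δ f) :=
  Gen.hs_prox_comm hQ hδ hε f

theorem hs_proxL_commute (hQ : QForm Q) {δ ε : ℝ} (hδ : 0 < δ) (hε : 0 < ε) :
    Commute (hs_proxL hQ hδ) (hs_proxL hQ hε) :=
  Gen.hs_proxL_commute hQ hδ hε

theorem hs_exists_gen_near (hQ : QForm Q) (f : H) {ε : ℝ} (hε : 0 < ε) : ∃ g w, IsGen Q g w ∧ ‖g - f‖ < ε :=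
  Gen.hs_exists_gen_near hQ f hε

theorem hs_exists_gen_near_form (hQ : QForm Q) {f : H} (hf : Q f < ∞) {ε : ℝ} (hε : 0 < ε) :
    ∃ g w, IsGen Q g w ∧ ‖g - f‖ < ε ∧ (Q (g - f)).toReal < ε :=
  Gen.hs_exists_gen_near_form hQ hf hε

theorem hs_exists_gen2_near (hQ : QForm Q) (f : H) {ε : ℝ} (hε : 0 < ε) :
    ∃ g w z, IsGen Q g w ∧ IsGen Q w z ∧ ‖g - f‖ < ε :=
  Gen.hs_exists_gen2_near hQ f hε

theorem hs_bil_tendsto (hQ : QForm Q) {ι : Type*} {l : Filter ι} [l.NeBot] {u : ι → H} {u₀ : H} {C : ℝ≥0∞} (hC : C < ∞)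
    (hu : Tendsto u l (𝓝 u₀)) (hb : ∀ᶠ i in l, Q (u i) ≤ C) {v : H} (hv : Q v < ∞) :
    Q u₀ ≤ C ∧ Tendsto (fun i => bil Q (u i) v) l (𝓝 (bil Q u₀ v)) :=
  Gen.hs_bil_tendsto hQ hC hu hb hv

theorem hs_bil_tendsto_strong (hQ : QForm Q) {ι : Type*} {l : Filter ι} {u v : ι → H} {u₀ v₀ : H}
    (hu₀ : Q u₀ < ∞) (hv₀ : Q v₀ < ∞)
    (hu : Tendsto (fun i => Q (u i - u₀)) l (𝓝 0)) (hv : Tendsto (fun i => Q (v i - v₀)) l (𝓝 0)) :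
    Tendsto (fun i => bil Q (u i) (v i)) l (𝓝 (bil Q u₀ v₀)) :=
  Gen.hs_bil_tendsto_strong hQ hu₀ hv₀ hu hv

end


/-! ## HS3 (discrete part): steps, approximations `hs_E` of the exponential formula, discrete regularisation -/

section

theorem hs_apply_norm_le {P : H →L[ℝ] H} (hP : ‖P‖ ≤ 1) (f : H) : ‖P f‖ ≤ ‖f‖ :=
  Step.hs_apply_norm_le hP f

theorem hs_pow_norm_le {P : H →L[ℝ] H} (hP : ‖P‖ ≤ 1) (n : ℕ) : ‖P ^ n‖ ≤ 1 :=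
  Step.hs_pow_norm_le hP n

theorem hs_step_one : hs_Step Q (1 : H →L[ℝ] H) 0 :=
  Step.hs_step_one 

theorem hs_step_mul {P R : H →L[ℝ] H} {s r : ℝ} (hP : hs_Step Q P s) (hR : hs_Step Q R r) :
    hs_Step Q (P * R) (s + r) :=
  Step.hs_step_mul hP hR

theorem hs_step_pow {P : H →L[ℝ] H} {s : ℝ} (hP : hs_Step Q P s) (n : ℕ) : hs_Step Q (P ^ n) (n * s) :=
  Step.hs_step_pow hP n

theorem hs_step_sub_le {P R : H →L[ℝ] H} {s : ℝ} (hP : hs_Step Q P s) (hR : hs_Step Q R s) {f w z : H}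
    (h : IsGen Q f w) (h' : IsGen Q w z) : ‖P f - R f‖ ≤ 2 * s ^ 2 * ‖z‖ :=
  Step.hs_step_sub_le hP hR h h'

theorem hs_pow_sub_pow_le {P R : H →L[ℝ] H} (hP : ‖P‖ ≤ 1) (hR : ‖R‖ ≤ 1) (hc : Commute P R) (n : ℕ) (f : H) :
    ‖(P ^ n) f - (R ^ n) f‖ ≤ n * ‖P f - R f‖ :=
  Step.hs_pow_sub_pow_le hP hR hc n f

theorem hs_step_pow_sub_le {P R : H →L[ℝ] H} {s : ℝ} (hP : hs_Step Q P s) (hR : hs_Step Q R s) (hc : Commute P R)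
    (n : ℕ) {f w z : H} (h : IsGen Q f w) (h' : IsGen Q w z) :
    ‖(P ^ n) f - (R ^ n) f‖ ≤ 2 * n * s ^ 2 * ‖z‖ :=
  Step.hs_step_pow_sub_le hP hR hc n h h'

variable [CompleteSpace H]

theorem hs_step_prox (hQ : QForm Q) {δ : ℝ} (hδ : 0 < δ) : hs_Step Q (hs_proxL hQ hδ) δ :=
  Step.hs_step_prox hQ hδ

theorem hs_E_apply (hQ : QForm Q) {t : ℝ} (ht : 0 < t) (n : ℕ) (f : H) :
    hs_E hQ ht n f = (prox Q (t / (n + 1)))^[n + 1] f :=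
  Step.hs_E_apply hQ ht n f

theorem hs_E_step (hQ : QForm Q) {t : ℝ} (ht : 0 < t) (n : ℕ) : hs_Step Q (hs_E hQ ht n) t :=
  Step.hs_E_step hQ ht n

theorem hs_E_commute (hQ : QForm Q) {s t : ℝ} (hs : 0 < s) (ht : 0 < t) (n k : ℕ) :
    Commute (hs_E hQ hs n) (hs_E hQ ht k) :=
  Step.hs_E_commute hQ hs ht n k

theorem hs_E_commute_prox (hQ : QForm Q) {t δ : ℝ} (ht : 0 < t) (hδ : 0 < δ) (n : ℕ) :
    Commute (hs_E hQ ht n) (hs_proxL hQ hδ) :=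
  Step.hs_E_commute_prox hQ ht hδ n

theorem hs_E_refine (hQ : QForm Q) {t : ℝ} (ht : 0 < t) (n k : ℕ) {f w z : H} (h : IsGen Q f w) (h' : IsGen Q w z) :
    ‖hs_E hQ ht n f - hs_E hQ ht ((n + 1) * (k + 1) - 1) f‖ ≤ 2 * t ^ 2 * ‖z‖ / (n + 1) :=
  Step.hs_E_refine hQ ht n k h h'

theorem hs_E_sub_le (hQ : QForm Q) {t : ℝ} (ht : 0 < t) (n k : ℕ) {f w z : H} (h : IsGen Q f w) (h' : IsGen Q w z) :
    ‖hs_E hQ ht n f - hs_E hQ ht k f‖ ≤ 2 * t ^ 2 * ‖z‖ * (1 / (n + 1) + 1 / (k + 1)) :=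
  Step.hs_E_sub_le hQ ht n k h h'

theorem hs_E_cauchy (hQ : QForm Q) {t : ℝ} (ht : 0 < t) (f : H) : CauchySeq (fun n => hs_E hQ ht n f) :=
  Step.hs_E_cauchy hQ ht f

theorem hs_E_mul_sub_le (hQ : QForm Q) {s t : ℝ} (hs : 0 < s) (ht : 0 < t) (n : ℕ) {f w z : H}
    (h : IsGen Q f w) (h' : IsGen Q w z) :
    ‖hs_E hQ hs n (hs_E hQ ht n f) - hs_E hQ (add_pos hs ht) n f‖ ≤ 2 * (s + t) ^ 2 * ‖z‖ / (n + 1) :=
  Step.hs_E_mul_sub_le hQ hs ht n h h'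

theorem hs_disc_energy (hQ : QForm Q) {δ : ℝ} (hδ : 0 < δ) (f : H) (k : ℕ) :
    ‖(prox Q δ)^[k + 1] f‖ ^ 2 / 2 + 2 * (k + 1) * δ * (Q ((prox Q δ)^[k + 1] f)).toReal
      + (((k : ℝ) + 1) ^ 2 - ((k : ℝ) + 1) / 2) * ‖(prox Q δ)^[k + 1] f - (prox Q δ)^[k] f‖ ^ 2 ≤ ‖f‖ ^ 2 / 2 :=
  Step.hs_disc_energy hQ hδ f k

theorem hs_E_toReal_le (hQ : QForm Q) {t : ℝ} (ht : 0 < t) (n : ℕ) (f : H) :
    (Q (hs_E hQ ht n f)).toReal ≤ ‖f‖ ^ 2 / (4 * t) :=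
  Step.hs_E_toReal_le hQ ht n f

theorem hs_E_gen_norm_le (hQ : QForm Q) {t : ℝ} (ht : 0 < t) (n : ℕ) {f w : H} (h : IsGen Q f w) :
    ‖hs_E hQ ht n w‖ ≤ ‖f‖ / t :=
  Step.hs_E_gen_norm_le hQ ht n h

theorem hs_Q_iterate_le (hQ : QForm Q) {δ : ℝ} (hδ : 0 < δ) (n : ℕ) (f : H) : Q ((prox Q δ)^[n] f) ≤ Q f :=
  Step.hs_Q_iterate_le hQ hδ n f

theorem hs_bil_iterate (hQ : QForm Q) {δ : ℝ} (hδ : 0 < δ) (i j : ℕ) {f g : H} (hf : Q f < ∞) (hg : Q g < ∞) :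
    bil Q ((prox Q δ)^[i] f) ((prox Q δ)^[j] g) = bil Q ((prox Q δ)^[i + j] f) g :=
  Step.hs_bil_iterate hQ hδ i j hf hg

theorem hs_bil_iterate_anti (hQ : QForm Q) {δ : ℝ} (hδ : 0 < δ) {f : H} (hf : Q f < ∞) :
    Antitone (fun m : ℕ => bil Q ((prox Q δ)^[m] f) f) :=
  Step.hs_bil_iterate_anti hQ hδ hf

theorem hs_toReal_iterate_sub_le (hQ : QForm Q) {δ : ℝ} (hδ : 0 < δ) (k : ℕ) {f : H} (hf : Q f < ∞) :
    (Q ((prox Q δ)^[k] f - f)).toReal ≤ (Q f).toReal - (Q ((prox Q δ)^[k] f)).toReal :=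
  Step.hs_toReal_iterate_sub_le hQ hδ k hf

theorem hs_toReal_quot_le (hQ : QForm Q) {δ : ℝ} (hδ : 0 < δ) (n : ℕ) {f w : H} (h : IsGen Q f w) (hw : Q w < ∞) :
    (Q ((((n : ℝ) + 1) * δ)⁻¹ • ((prox Q δ)^[n + 1] f - f) - w)).toReal
      ≤ (Q w).toReal - (Q ((prox Q δ)^[n + 1] w)).toReal :=
  Step.hs_toReal_quot_le hQ hδ n h hw

end


/-! ## HS3/HS5: semigroup `flow Q t` -/

section

theorem hs_flow_of_nonpos {t : ℝ} (ht : t ≤ 0) (f : H) : flow Q t f = f :=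
  Flow.hs_flow_of_nonpos ht f

theorem hs_flow_zero (f : H) : flow Q 0 f = f :=
  Flow.hs_flow_zero f

variable [CompleteSpace H]

theorem hs_flow_tendsto (hQ : QForm Q) {t : ℝ} (ht : 0 < t) (f : H) :
    Tendsto (fun n : ℕ => (prox Q (t / (n + 1)))^[n + 1] f) atTop (𝓝 (flow Q t f)) :=
  Flow.hs_flow_tendsto hQ ht f

theorem hs_E_tendsto (hQ : QForm Q) {t : ℝ} (ht : 0 < t) (f : H) :
    Tendsto (fun n : ℕ => hs_E hQ ht n f) atTop (𝓝 (flow Q t f)) :=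
  Flow.hs_E_tendsto hQ ht f

theorem hs_E_tendsto_seq (hQ : QForm Q) {t : ℝ} (ht : 0 < t) {g : ℕ → H} {g₀ : H} (hg : Tendsto g atTop (𝓝 g₀)) :
    Tendsto (fun n : ℕ => hs_E hQ ht n (g n)) atTop (𝓝 (flow Q t g₀)) :=
  Flow.hs_E_tendsto_seq hQ ht hg

theorem hs_flow_map_add (hQ : QForm Q) (t : ℝ) (f g : H) : flow Q t (f + g) = flow Q t f + flow Q t g :=
  Flow.hs_flow_map_add hQ t f g

theorem hs_flow_map_smul (hQ : QForm Q) (t : ℝ) (c : ℝ) (f : H) : flow Q t (c • f) = c • flow Q t f :=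
  Flow.hs_flow_map_smul hQ t c f

theorem hs_flow_norm_le (hQ : QForm Q) (t : ℝ) (f : H) : ‖flow Q t f‖ ≤ ‖f‖ :=
  Flow.hs_flow_norm_le hQ t f

theorem hs_flowL_apply (hQ : QForm Q) (t : ℝ) (f : H) : hs_flowL hQ t f = flow Q t f :=
  Flow.hs_flowL_apply hQ t f

theorem hs_flowL_norm_le (hQ : QForm Q) (t : ℝ) : ‖hs_flowL hQ t‖ ≤ 1 :=
  Flow.hs_flowL_norm_le hQ t

theorem hs_flow_map_zero (hQ : QForm Q) (t : ℝ) : flow Q t (0 : H) = 0 :=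
  Flow.hs_flow_map_zero hQ t

theorem hs_flow_map_neg (hQ : QForm Q) (t : ℝ) (f : H) : flow Q t (-f) = - flow Q t f :=
  Flow.hs_flow_map_neg hQ t f

theorem hs_flow_map_sub (hQ : QForm Q) (t : ℝ) (f g : H) : flow Q t (f - g) = flow Q t f - flow Q t g :=
  Flow.hs_flow_map_sub hQ t f g

theorem hs_flow_continuous_vec (hQ : QForm Q) (t : ℝ) : Continuous (flow Q t) :=
  Flow.hs_flow_continuous_vec hQ t

theorem hs_flow_symm (hQ : QForm Q) (t : ℝ) (f g : H) : ⟪flow Q t f, g⟫ = ⟪f, flow Q t g⟫ :=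
  Flow.hs_flow_symm hQ t f g

theorem hs_flow_prox_comm (hQ : QForm Q) (t : ℝ) {δ : ℝ} (hδ : 0 < δ) (f : H) :
    flow Q t (prox Q δ f) = prox Q δ (flow Q t f) :=
  Flow.hs_flow_prox_comm hQ t hδ f

theorem hs_flow_isGen (hQ : QForm Q) (t : ℝ) {f w : H} (h : IsGen Q f w) : IsGen Q (flow Q t f) (flow Q t w) :=
  Flow.hs_flow_isGen hQ t h

theorem hs_step_flow (hQ : QForm Q) {t : ℝ} (ht : 0 ≤ t) : hs_Step Q (hs_flowL hQ t) t :=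
  Flow.hs_step_flow hQ ht

theorem hs_flow_sub_self_norm_le (hQ : QForm Q) {t : ℝ} (ht : 0 ≤ t) {f w : H} (h : IsGen Q f w) :
    ‖flow Q t f - f‖ ≤ t * ‖w‖ :=
  Flow.hs_flow_sub_self_norm_le hQ ht h

theorem hs_flow_second_order (hQ : QForm Q) {t : ℝ} (ht : 0 ≤ t) {f w z : H} (h : IsGen Q f w) (h' : IsGen Q w z) :
    ‖flow Q t f - f - t • w‖ ≤ t ^ 2 * ‖z‖ :=
  Flow.hs_flow_second_order hQ ht h h'

theorem hs_flow_add (hQ : QForm Q) {s t : ℝ} (hs : 0 ≤ s) (ht : 0 ≤ t) (f : H) :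
    flow Q (s + t) f = flow Q s (flow Q t f) :=
  Flow.hs_flow_add hQ hs ht f

theorem hs_flow_comm (hQ : QForm Q) (s t : ℝ) (f : H) : flow Q s (flow Q t f) = flow Q t (flow Q s f) :=
  Flow.hs_flow_comm hQ s t f

theorem hs_flow_tendsto_zero (hQ : QForm Q) (f : H) : Tendsto (fun t => flow Q t f) (𝓝 0) (𝓝 f) :=
  Flow.hs_flow_tendsto_zero hQ f

theorem hs_flow_continuous (hQ : QForm Q) (f : H) : Continuous (fun t => flow Q t f) :=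
  Flow.hs_flow_continuous hQ f

theorem hs_flow_continuous2 (hQ : QForm Q) : Continuous (fun p : ℝ × H => flow Q p.1 p.2) :=
  Flow.hs_flow_continuous2 hQ

theorem hs_flow_lipschitz (hQ : QForm Q) {f w : H} (h : IsGen Q f w) (s t : ℝ) :
    ‖flow Q t f - flow Q s f‖ ≤ |t - s| * ‖w‖ :=
  Flow.hs_flow_lipschitz hQ h s t

theorem hs_flow_mem (hQ : QForm Q) {C : Set H} (hC : IsClosed C) (h : ∀ δ, 0 < δ → ∀ f ∈ C, prox Q δ f ∈ C)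
    (t : ℝ) {f : H} (hf : f ∈ C) : flow Q t f ∈ C :=
  Flow.hs_flow_mem hQ hC h t hf

end


/-! ## HS3/HS4: regularisation, derivative, Laplace transform -/

section
variable [CompleteSpace H]

theorem hs_Q_flow_le (hQ : QForm Q) (t : ℝ) (f : H) : Q (flow Q t f) ≤ Q f :=
  Reg.hs_Q_flow_le hQ t f

theorem hs_Q_flow_anti (hQ : QForm Q) (f : H) : Antitone (fun t => Q (flow Q t f)) :=
  Reg.hs_Q_flow_anti hQ f

theorem hs_Q_flow_tendsto (hQ : QForm Q) (f : H) : Tendsto (fun t => Q (flow Q t f)) (𝓝 0) (𝓝 (Q f)) :=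
  Reg.hs_Q_flow_tendsto hQ f

theorem hs_Q_flow_le_div (hQ : QForm Q) {t : ℝ} (ht : 0 < t) (f : H) :
    Q (flow Q t f) ≤ ENNReal.ofReal (‖f‖ ^ 2 / (4 * t)) :=
  Reg.hs_Q_flow_le_div hQ ht f

theorem hs_flow_dom (hQ : QForm Q) {t : ℝ} (ht : 0 < t) (f : H) : Q (flow Q t f) < ∞ :=
  Reg.hs_flow_dom hQ ht f

theorem hs_bil_flow_le (hQ : QForm Q) {t : ℝ} (ht : 0 < t) (f : H) :
    bil Q (flow Q t f) (flow Q t f) ≤ ‖f‖ ^ 2 / (2 * t) :=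
  Reg.hs_bil_flow_le hQ ht f

theorem hs_toReal_flow_sub_le (hQ : QForm Q) (t : ℝ) {f : H} (hf : Q f < ∞) :
    (Q (flow Q t f - f)).toReal ≤ (Q f).toReal - (Q (flow Q t f)).toReal :=
  Reg.hs_toReal_flow_sub_le hQ t hf

theorem hs_Q_flow_sub_tendsto (hQ : QForm Q) {f : H} (hf : Q f < ∞) :
    Tendsto (fun t => Q (flow Q t f - f)) (𝓝 0) (𝓝 0) :=
  Reg.hs_Q_flow_sub_tendsto hQ hf

theorem hs_flow_gen_norm_le_of_isGen (hQ : QForm Q) {t : ℝ} (ht : 0 < t) {f w : H} (h : IsGen Q f w) :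
    ‖flow Q t w‖ ≤ ‖f‖ / t :=
  Reg.hs_flow_gen_norm_le_of_isGen hQ ht h

theorem hs_exists_isGen_flow (hQ : QForm Q) {t : ℝ} (ht : 0 < t) (f : H) :
    ∃ w, IsGen Q (flow Q t f) w ∧ ‖w‖ ≤ ‖f‖ / t :=
  Reg.hs_exists_isGen_flow hQ ht f

theorem hs_isGen_flow_gen (hQ : QForm Q) {t : ℝ} (ht : 0 < t) (f : H) :
    IsGen Q (flow Q t f) (hs_gen Q (flow Q t f)) :=
  Reg.hs_isGen_flow_gen hQ ht f

theorem hs_gen_flow_norm_le (hQ : QForm Q) {t : ℝ} (ht : 0 < t) (f : H) : ‖hs_gen Q (flow Q t f)‖ ≤ ‖f‖ / t :=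
  Reg.hs_gen_flow_norm_le hQ ht f

theorem hs_gen_flow_add (hQ : QForm Q) {s t : ℝ} (hs : 0 ≤ s) (ht : 0 < t) (f : H) :
    hs_gen Q (flow Q (s + t) f) = flow Q s (hs_gen Q (flow Q t f)) :=
  Reg.hs_gen_flow_add hQ hs ht f

theorem hs_gen_flow_of_isGen (hQ : QForm Q) (t : ℝ) {f w : H} (h : IsGen Q f w) :
    hs_gen Q (flow Q t f) = flow Q t w :=
  Reg.hs_gen_flow_of_isGen hQ t h

theorem hs_exists_isGen_gen_flow (hQ : QForm Q) {t : ℝ} (ht : 0 < t) (f : H) :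
    ∃ z, IsGen Q (hs_gen Q (flow Q t f)) z :=
  Reg.hs_exists_isGen_gen_flow hQ ht f

theorem hs_flow_taylor (hQ : QForm Q) {t : ℝ} (ht : 0 < t) (f : H) :
    ∃ M : ℝ, ∀ h : ℝ, |h| ≤ t / 2 →
      ‖flow Q (t + h) f - flow Q t f - h • hs_gen Q (flow Q t f)‖ ≤ M * h ^ 2 :=
  Reg.hs_flow_taylor hQ ht f

theorem hs_flow_hasDerivAt (hQ : QForm Q) {t : ℝ} (ht : 0 < t) (f : H) :
    HasDerivAt (fun s => flow Q s f) (hs_gen Q (flow Q t f)) t :=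
  Reg.hs_flow_hasDerivAt hQ ht f

theorem hs_flow_hasDerivWithinAt_zero (hQ : QForm Q) {f w : H} (h : IsGen Q f w) :
    HasDerivWithinAt (fun s => flow Q s f) w (Ici 0) 0 :=
  Reg.hs_flow_hasDerivWithinAt_zero hQ h

theorem hs_inner_flow_hasDerivAt (hQ : QForm Q) {t : ℝ} (ht : 0 < t) (f : H) {v : H} (hv : Q v < ∞) :
    HasDerivAt (fun s => ⟪flow Q s f, v⟫) (- bil Q (flow Q t f) v) t :=
  Reg.hs_inner_flow_hasDerivAt hQ ht f hv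

theorem hs_norm_sq_flow_hasDerivAt (hQ : QForm Q) {t : ℝ} (ht : 0 < t) (f : H) :
    HasDerivAt (fun s => ‖flow Q s f‖ ^ 2 / 2) (- bil Q (flow Q t f) (flow Q t f)) t :=
  Reg.hs_norm_sq_flow_hasDerivAt hQ ht f

theorem hs_bil_flow_symm (hQ : QForm Q) (t : ℝ) {f g : H} (hf : Q f < ∞) (hg : Q g < ∞) :
    bil Q (flow Q t f) g = bil Q f (flow Q t g) :=
  Reg.hs_bil_flow_symm hQ t hf hg

theorem hs_toReal_flow_quot_le (hQ : QForm Q) {t : ℝ} (ht : 0 < t) {f w : H} (h : IsGen Q f w) (hw : Q w < ∞) :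
    (Q (t⁻¹ • (flow Q t f - f) - w)).toReal ≤ (Q w).toReal - (Q (flow Q t w)).toReal ∧
      Q (t⁻¹ • (flow Q t f - f) - w) < ∞ :=
  Reg.hs_toReal_flow_quot_le hQ ht h hw

theorem hs_Q_flow_quot_tendsto (hQ : QForm Q) {f w : H} (h : IsGen Q f w) (hw : Q w < ∞) :
    Tendsto (fun t => Q (t⁻¹ • (flow Q t f - f) - w)) (𝓝[>] 0) (𝓝 0) :=
  Reg.hs_Q_flow_quot_tendsto hQ h hw

theorem hs_laplace (hQ : QForm Q) {δ : ℝ} (hδ : 0 < δ) (f h : H) :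
    ⟪prox Q δ f, h⟫ = ∫ t in Ioi (0 : ℝ), δ⁻¹ * Real.exp (-t / δ) * ⟪flow Q t f, h⟫ :=
  Reg.hs_laplace hQ hδ f h

theorem hs_laplace_integrable (hQ : QForm Q) {δ : ℝ} (hδ : 0 < δ) (f h : H) :
    IntegrableOn (fun t : ℝ => δ⁻¹ * Real.exp (-t / δ) * ⟪flow Q t f, h⟫) (Ioi 0) :=
  Reg.hs_laplace_integrable hQ hδ f h

end


end Claimed.Agent.R210.HS.Ifc
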